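import Vale.Agent.P283B.U.Lm
import Vale.Agent.P283B.Spec

/-!
# P283B, block U: the transfer of b-divisors along a limit of function fields (definitions)
-/

set_option linter.unusedVariables false

open Set Filter
open Vale.Agent.P285N.Brep (jac Fr)

noncomputable section

namespace Vale.Agent.P283B.U

open P287D

section one

variable {K : Type} [Field K] [Algebra ℂ K]

open Classical in
variable (K) in
/-- the coordinates which define `cn` -/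
def cy (n : ℕ) : Fin n → K :=
  if h : ∃ (y : Fin n → K) (D : Fin n → Derivation ℂ K K), Fr y D then h.choose else 0

/-- `t` are coordinates on the open set `E = 0` of `V A`, they cut out the primes `p a` which meet
the set; `dt` is `j` times the form which defines `cn` -/
structure Ch (n : ℕ) (A κ : BD K) {ι : Type} (h : ι → BD K) (E : BD K) (t : Fin (n + 1) → K)
    (j : K) (l : ι → Option (Fin (n + 1))) (e : ℝ) : Prop where
  nn : 0 ≤ E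
  car : E ∈ CarZ K
  des : Smp (e • A + E) ∧ Smp (e • A - E)
  ind : AlgebraicIndependent ℂ t
  ne : j ≠ 0
  form : kap t = cn K (n + 1) + dv j
  reg : ∀ k, 0 ≤ dv (t k) + e • E
  can : 0 ≤ e • E + (κ + dv j) ∧ 0 ≤ e • E - (κ + dv j)
  cut : ∀ a, 0 ≤ e • E + (h a - dv ((l a).elim 1 t)) ∧ 0 ≤ e • E - (h a - dv ((l a).elim 1 t))
  inj : ∀ a b k, l a = some k → l b = some k → a = b

/-- a log smooth model with finitely many charts: `V A` is smooth with the canonical divisor `κ`,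
the primes `p a` with the pull backs `h a` have normal crossings -/
structure Sm (n : ℕ) (A κ : BD K) {ι : Type} (p : ι → Pl K) (h : ι → BD K) (e : ℝ) : Prop where
  pos : 0 < e
  smp : Smp A
  big : Big A
  kz : κ ∈ CarZ K
  hull : Hull n A (cn K (n + 1)) κ
  inj : Function.Injective p
  on : ∀ a, On n A (p a)
  hz : ∀ a, h a ∈ CarZ K
  hp : ∀ a, Hull n A (p a).δ (h a)
  ch : ∃ (m : ℕ) (E : Fin m → BD K) (t : Fin m → Fin (n + 1) → K) (j : Fin m → K)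
    (l : Fin m → ι → Option (Fin (n + 1))),
    (∀ b, Ch n A κ h (E b) (t b) (j b) (l b) e) ∧ ∀ Q, ∃ b, E b Q = 0

/-- the consequences of `Sm` in one field -/
structure LS0 (n : ℕ) (A κ : BD K) {ι : Type} [Fintype ι] (p : ι → Pl K) (h : ι → BD K)
    (e : ℝ) : Prop where
  term : Term n A κ
  one : ∀ Q, ¬ On n A Q → 1 ≤ dsc (n + 1) κ Q
  snc : ∀ Q, ∑ a, h a Q ≤ ld (n + 1) κ Q
  gap : ∀ Q a, Q ≠ p a → h a Q + 1 ≤ ld (n + 1) κ Q
  mult : ∀ Z : BD K, IsB n Z → (∀ Q, On n A Q → 0 ≤ Z Q) → ∀ β ∈ Car K, ∀ d : ℝ,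
    Nef (β + d • A) → (∀ Q, On n A Q → β Q ≤ Z Q) → ∀ Q,
    β Q ≤ (n + 1) * e ^ (2 * n) * I (n + 1) K (Fin.cons Z fun _ => A) * ld (n + 1) κ Q

end one

variable {U : Ultrafilter ℕ} {c : Cq U} {n : ℕ} {K : ℕ → Type} [∀ i, Field (K i)]
  [∀ i, Algebra ℂ (K i)] {L : Type} [Field L] [Algebra ℂ L]

namespace Lm

open Classical in
/-- the image of a system -/
def im (D : Lm c n K L) (i : ℕ) (s : Finset L) : Finset (K i) := s.image (D.r i)

open Classical in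
/-- the transfer of a Cartier b-divisor -/
def tr (D : Lm c n K L) (i : ℕ) (β : BD L) : BD (K i) :=
  if h : ∃ l, β = cmb l then h.choose.sum fun s a => a • mx (D.im i s) else 0

open Classical in
/-- the comparison of the canonical b-divisors -/
def jc (D : Lm c n K L) (i : ℕ) : K i :=
  if h : ∃ j, j ≠ 0 ∧ kap (fun k => D.r i (cy L n k)) = cn (K i) n + dv j then h.choose else 1

/-- the transfer of a log canonical b-divisor -/
def tp (D : Lm c n K L) (i : ℕ) (Γ : BD L) : BD (K i) := D.tr i Γ - dv (D.jc i)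

/-- Cartier b-divisors -/
structure RC (D : Lm c n K L) : Prop where
  car : ∀ i β, D.tr i β ∈ Car (K i)
  add : ∀ β ∈ Car L, ∀ γ ∈ Car L, ∀ᶠ i in U, D.tr i (β + γ) = D.tr i β + D.tr i γ
  smul : ∀ (a : ℝ), ∀ β ∈ Car L, ∀ᶠ i in U, D.tr i (a • β) = a • D.tr i β
  sys : ∀ s, ∀ᶠ i in U, D.tr i (mx s) = mx (D.im i s)
  pri : ∀ f, ∀ᶠ i in U, D.tr i (dv f) = dv (D.r i f)
  nn : ∀ β ∈ Car L, 0 ≤ β → ∀ᶠ i in U, 0 ≤ D.tr i β
  sup : ∀ β ∈ CarZ L, ∀ γ ∈ CarZ L, β ⊔ γ ∈ CarZ L ∧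
    ∀ᶠ i in U, D.tr i (β ⊔ γ) = D.tr i β ⊔ D.tr i γ
  carZ : ∀ β ∈ CarZ L, ∀ᶠ i in U, D.tr i β ∈ CarZ (K i)
  prn : ∀ β ∈ Prn L, ∀ᶠ i in U, D.tr i β ∈ Prn (K i)
  smp : ∀ β, Smp β → ∀ᶠ i in U, Smp (D.tr i β)
  des : ∀ Λ β, Dsc Λ β → ∀ᶠ i in U, Dsc (D.tr i Λ) (D.tr i β)
  amp : ∀ Λ β, AmpOn Λ β → ∀ᶠ i in U, AmpOn (D.tr i Λ) (D.tr i β)
  rep : ∀ β ∈ Car L, ∀ G, Rep β G → ∀ᶠ i in U, Rep (D.tr i β) (D.tr i G)
  big : ∀ β ∈ Car L, Big β → ∀ᶠ i in U, Big (D.tr i β)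
  num : ∀ β : Fin n → BD L, (∀ j, β j ∈ Car L) →
    ∀ᶠ i in U, I n (K i) (fun j => D.tr i (β j)) = I n L β
  nef : ∀ β ∈ Car L, (∀ᶠ i in U, Nef (D.tr i β)) → Nef β

/-- sections -/
structure RS (D : Lm c n K L) : Prop where
  sec : ∀ β ∈ Car L, ∀ f, Sec β f ↔ ∀ᶠ i in U, Sec (D.tr i β) (D.r i f)
  lim : ∀ β ∈ Car L, ∀ g : ∀ i, K i, (∀ᶠ i in U, Sec (D.tr i β) (g i)) →
    ∃ f, ∀ᶠ i in U, D.r i f = g i
  h0 : ∀ β ∈ Car L, ∀ᶠ i in U, h0 (D.tr i β) = h0 β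
  bir : ∀ β ∈ Car L, Bir β ↔ ∀ᶠ i in U, Bir (D.tr i β)

end Lm

/-- a statement for all limits -/
def ForL (k : ℕ) (A : ∀ (U : Ultrafilter ℕ) (c : Cq U) (n : ℕ) (K : ℕ → Type) [∀ i, Field (K i)]
    [∀ i, Algebra ℂ (K i)] (L : Type) [Field L] [Algebra ℂ L], Lm c (n + k) K L → Prop) : Prop :=
  ∀ (U : Ultrafilter ℕ) (c : Cq U) (n : ℕ) (K : ℕ → Type) [∀ i, Field (K i)]
    [∀ i, Algebra ℂ (K i)] (L : Type) [Field L] [Algebra ℂ L] (D : Lm c (n + k) K L), A U c n K L D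

/-- **EX**: birational systems of bounded volume have a limit -/
def EX : Prop := ∀ (U : Ultrafilter ℕ) (c : Cq U) (n : ℕ) (K : ℕ → Type) [∀ i, Field (K i)]
  [∀ i, Algebra ℂ (K i)] (s : ∀ i, Finset (K i)) (v : ℝ), (∀ i, FF (K i) n) →
  (∀ᶠ i in U, (1 : K i) ∈ s i ∧ IntermediateField.adjoin ℂ (s i : Set (K i)) = ⊤ ∧
    vol n (mx (s i)) ≤ v) →
  ∃ (L : Type) (_ : Field L) (_ : Algebra ℂ L) (D : Lm c n K L) (u : Finset L), (1 : L) ∈ u ∧
    IntermediateField.adjoin ℂ (u : Set L) = ⊤ ∧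
    ∀ᶠ i in U, Submodule.span ℂ (D.im i u : Set (K i)) = Submodule.span ℂ (s i : Set (K i))

/-- **SM**: log smooth models with charts exist -/
def SM : Prop := ForS fun n K _ _ => ∀ (T₀ : Set (Pl K)) (B : Set (BD K)), T₀.Finite → B.Finite →
  B ⊆ Car K → ∃ (s : Finset K) (κ : BD K) (T : Finset (Pl K)) (h : Pl K → BD K) (e : ℝ),
    Sm n (mx s) κ (fun a : T => a.1) (fun a => h a.1) e ∧ T₀ ⊆ T ∧
    (∀ P, h P ∈ CarZ K ∧ (On n (mx s) P → Hull n (mx s) P.δ (h P))) ∧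
    ∀ β ∈ insert κ B, Dsc (mx s) β ∧ ∀ P, On n (mx s) P → P ∉ T → β P = 0

/-- **SL**: the discrepancies on a log smooth model -/
def SL : Prop := ForS fun n K _ _ => ∀ (A κ : BD K) (ι : Type) [Fintype ι] (p : ι → Pl K)
  (h : ι → BD K) (e : ℝ), Sm n A κ p h e → LS0 n A κ p h e

end Vale.Agent.P283B.U
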