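import Vale.Agent.P283B.U.Pl
import Vale.Agent.P283B.U.Tr

/-!
# P283B, block U: the rows on prime divisors and the whole dictionary (statements)
-/

set_option linter.unusedVariables false

open Set Filter

noncomputable section

namespace Vale.Agent.P283B.U

open P287D

variable {U : Ultrafilter ℕ} {c : Cq U} {n : ℕ} {K : ℕ → Type} [∀ i, Field (K i)]
  [∀ i, Algebra ℂ (K i)] {L : Type} [Field L] [Algebra ℂ L]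

namespace Lm

/-- prime divisors -/
structure RP (D : Lm c (n + 1) K L) : Prop where
  val : ∀ β ∈ Car L, ∀ P, ∀ᶠ i in U, D.tr i β (D.sp P i) = β P
  rst : ∀ β ∈ Car L, ∀ P, ∀ᶠ i in U,
    res (D.sp P i) (D.tr i β) - (D.rs P).tr i (res P β) ∈ Prn (D.sp P i).κ ∧
      (β P = 0 → res (D.sp P i) (D.tr i β) = (D.rs P).tr i (res P β))
  deg : ∀ β : Fin n → BD L, (∀ j, β j ∈ Car L) → ∀ P, ∀ᶠ i in U,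
    I n (D.sp P i).κ (fun j => res (D.sp P i) (D.tr i (β j))) = I n P.κ fun j => res P (β j)
  on : ∀ Λ ∈ Car L, ∀ P, ∀ᶠ i in U, (On n (D.tr i Λ) (D.sp P i) ↔ On n Λ P)
  supp : ∀ Λ, Smp Λ → Big Λ → ∀ β ∈ Car L, ∀ᶠ i in U, ∀ Q, On n (D.tr i Λ) Q → D.tr i β Q ≠ 0 →
    ∃ P, On n Λ P ∧ β P ≠ 0 ∧ Q = D.sp P i
  exc : ∀ Λ Λ', Smp Λ → Big Λ → Smp Λ' → Big Λ' → ∀ᶠ i in U, ∀ Q, On n (D.tr i Λ') Q →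
    ¬ On n (D.tr i Λ) Q → ∃ P, On n Λ' P ∧ ¬ On n Λ P ∧ Q = D.sp P i
  lpd : ∀ Λ, Smp Λ → Big Λ → ∀ (Q : ∀ i, Pl (K i)) (v : ℝ),
    (∀ᶠ i in U, On n (D.tr i Λ) (Q i) ∧ vol n (res (Q i) (D.tr i Λ)) ≤ v) →
    ∃ P, ∀ᶠ i in U, Q i = D.sp P i
  lz : ∀ Λ, Smp Λ → Big Λ → ∀ (Z : ∀ i, BD (K i)) (v : ℝ),
    (∀ᶠ i in U, IsB n (Z i) ∧ (∀ Q, On n (D.tr i Λ) Q → ∃ k : ℕ, Z i Q = k) ∧
      I (n + 1) (K i) (Fin.cons (Z i) fun _ => D.tr i Λ) ≤ v) →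
    ∃ (T : Finset (Pl L)) (z : Pl L → ℕ), (∀ P ∈ T, On n Λ P) ∧ ∀ᶠ i in U, ∀ Q,
      On n (D.tr i Λ) Q → Z i Q = ∑ P ∈ T, z P * (D.sp P i).δ Q
  limp : ∀ Λ, Smp Λ → Big Λ → ∀ (g : ∀ i, K i) (v : ℝ),
    (∀ᶠ i in U, I (n + 1) (K i) (Fin.cons (0 ⊔ -dv (g i)) fun _ => D.tr i Λ) ≤ v) →
    ∃ f, ∀ᶠ i in U, D.r i f = g i

/-- the canonical b-divisor -/
structure RK (D : Lm c (n + 1) K L) : Prop where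
  frm : ∀ (y : Fin (n + 1) → L) (j : L), AlgebraicIndependent ℂ y → j ≠ 0 →
    kap y = cn L (n + 1) + dv j →
    ∀ᶠ i in U, kap (fun k => D.r i (y k)) = cn (K i) (n + 1) + dv (D.jc i * D.r i j)
  val : ∀ Γ ∈ Car L, ∀ P, ∀ᶠ i in U, dsc (n + 1) (D.tp i Γ) (D.sp P i) = dsc (n + 1) Γ P
  supp : ∀ Λ, Smp Λ → Big Λ → ∀ Γ ∈ Car L, ∀ᶠ i in U, ∀ Q, On n (D.tr i Λ) Q →
    dsc (n + 1) (D.tp i Γ) Q ≠ 0 → ∃ P, On n Λ P ∧ dsc (n + 1) Γ P ≠ 0 ∧ Q = D.sp P i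

/-- singularities -/
structure RL (D : Lm c (n + 1) K L) : Prop where
  sm : ∀ (A κ : BD L) (ι : Type) [Fintype ι] (p : ι → Pl L) (h : ι → BD L) (e : ℝ),
    Sm n A κ p h e →
    ∀ᶠ i in U, Sm n (D.tr i A) (D.tp i κ) (fun a => D.sp (p a) i) (fun a => D.tr i (h a)) e
  tor : ∀ (A κ : BD L) (ι : Type) [Fintype ι] (p : ι → Pl L) (h : ι → BD L) (e : ℝ),
    Sm n A κ p h e → ∀ (Q : ∀ i, Pl (K i)) (v : ℝ), (∀ᶠ i in U, ld (n + 1) (D.tp i κ) (Q i) ≤ v ∧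
      ld (n + 1) (D.tp i κ) (Q i) < 1 + ∑ a, D.tr i (h a) (Q i)) → ∃ P, ∀ᶠ i in U, Q i = D.sp P i
  elc : ∀ Γ ∈ Car L, ∀ ε : ℝ, 0 ≤ ε → ε ≤ 1 → ELc n ε Γ All → ∀ᶠ i in U, ELc n ε (D.tp i Γ) All
  klt : ∀ Γ ∈ Car L, Klt (n + 1) Γ → ∀ᶠ i in U, Klt (n + 1) (D.tp i Γ)
  fin : ∀ Λ, Smp Λ → Big Λ → ∀ Γ ∈ Car L, Klt (n + 1) Γ →
    {P | ¬ On n Λ P ∧ ld (n + 1) Γ P ≤ 1}.Finite ∧ ∀ᶠ i in U, ∀ Q, ¬ On n (D.tr i Λ) Q →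
      ld (n + 1) (D.tp i Γ) Q ≤ 1 → ∃ P, ¬ On n Λ P ∧ ld (n + 1) Γ P ≤ 1 ∧ Q = D.sp P i

end Lm

/-- the whole dictionary -/
structure UA : Prop where
  ex : EX
  sm : SM
  sl : SL
  rc : ForL 0 fun _ _ _ _ _ _ _ _ _ D => D.RC
  rs : ForL 0 fun _ _ _ _ _ _ _ _ _ D => D.RS
  rp : ForL 1 fun _ _ _ _ _ _ _ _ _ D => D.RP
  rk : ForL 1 fun _ _ _ _ _ _ _ _ _ D => D.RK
  rl : ForL 1 fun _ _ _ _ _ _ _ _ _ D => D.RL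

end Vale.Agent.P283B.U
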