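import Vale.Agent.P287D.Cb.Row
import Vale.Agent.P287D.Va.Fld
import Vale.Agent.P297Z.Diff.Jac

/-!
# P283B, block U: coordinates at a place, logarithmic forms
-/

set_option linter.unusedVariables false

open Set Function MvPolynomial
open Vale.Agent.P297Z
open Vale.Agent.P285N.Brep (jac Fr)

noncomputable section

namespace Vale.Agent.P283B.U

open P287D P287D.Cb

variable {K : Type} [Field K] [Algebra ℂ K] {n : ℕ} {t : Fin n → K}
  {D : Fin n → Derivation ℂ K K} {Q : Pl K} {f : K} {ι : Type}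

theorem jac_upd (h : Fr t D) (j : Fin n) (f : K) : jac D (update t j f) = D j f := by
  have e : (Matrix.of fun i l => D i (update t j f l)) =
      (1 : Matrix (Fin n) (Fin n) K).updateCol j fun i => D i f := by
    ext i l
    by_cases k : l = j
    · subst k; simp
    · simp [k, h.dual, Matrix.one_apply]
  rw [jac, e, ← Matrix.cramer_apply]
  simp

theorem kap_upd (h : Fr t D) {j : Fin n} (h0 : D j f ≠ 0) :
    AlgebraicIndependent ℂ (update t j f) ∧ kap (update t j f) = kap t + dv (D j f) := by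
  rw [← jac_upd h] at h0 ⊢
  exact ⟨(jac_ne_iff h _).1 h0, kap_chg h h0⟩

theorem der_aeval (h : Fr t D) {j : ι → Fin n} (hj : Injective j) (a : ι)
    (p : MvPolynomial ι ℂ) :
    D (j a) (aeval (fun b => t (j b)) p) = aeval (fun b => t (j b)) (pderiv a p) := by
  classical
  induction p using MvPolynomial.induction_on with
  | C c => simp [Derivation.map_algebraMap]
  | add p q hp hq => simp [hp, hq]
  | mul_X p b hp =>
    rw [map_mul, Derivation.leibniz, hp, aeval_X, h.dual, pderiv_mul, map_add, map_mul, map_mul,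
      aeval_X, pderiv_X]
    by_cases e : a = b
    · simp [e, mul_comm, add_comm]
    · simp [hj.ne e, Ne.symm e, mul_comm]

theorem aeval_mem {u : ι → K} (hu : ∀ i, u i ∈ Q.ring) (p : MvPolynomial ι ℂ) :
    aeval u p ∈ Q.ring :=
  adj_mem (S := range u) (by rintro _ ⟨i, rfl⟩; exact hu i)
    (by rw [Algebra.adjoin_range_eq_range_aeval]; exact ⟨p, rfl⟩)

theorem sum_upd (j : Fin n) (f : K) : ∑ k, (Q.ord (update t j f k) : ℝ) =
    ∑ k, (Q.ord (t k) : ℝ) - Q.ord (t j) + Q.ord f := by
  have e : ∀ k, (Q.ord (update t j f k) : ℝ) =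
      update (fun k => (Q.ord (t k) : ℝ)) j (Q.ord f) k := fun k => by
    by_cases h : k = j
    · subst h; simp
    · simp [h]
  rw [Finset.sum_congr rfl fun k _ => e k, Finset.sum_update_of_mem (Finset.mem_univ j),
    ← Finset.add_sum_erase _ _ (Finset.mem_univ j), Finset.sdiff_singleton_eq_erase]
  ring

/-- a relation between the residues of coordinates is a new coordinate -/
theorem exists_rel (hK : FF K n) (ht : AlgebraicIndependent ℂ t) {j : ι → Fin n}
    (hj : Injective j) (hm : ∀ a, t (j a) ∈ Q.ring)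
    (hd : ¬ AlgebraicIndependent ℂ fun a => Q.rd (t (j a))) :
    ∃ (a : ι) (p : MvPolynomial ι ℂ), 0 < Q.ord (aeval (fun b => t (j b)) p) ∧
      AlgebraicIndependent ℂ (update t (j a) (aeval (fun b => t (j b)) p)) ∧
      kap (update t (j a) (aeval (fun b => t (j b)) p)) Q = kap t Q := by
  obtain ⟨D, h⟩ := fr_of hK ht
  let I := RingHom.ker (aeval fun a => Q.rd (t (j a)) : MvPolynomial ι ℂ →ₐ[ℂ] Q.κ)
  have i0 : I ≠ ⊥ := fun e => hd (algebraicIndependent_iff_ker_eq_bot.2 e)
  obtain ⟨p, p1, p0, a, p2⟩ := P297Z.Diff.exists_mem_pderiv_notMem i0 (RingHom.ker_ne_top _)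
  have k : ∀ q, q ∈ I ↔ Mx Q (aeval (fun b => t (j b)) q) := fun q => by
    rw [← rd_eq_zero (aeval_mem hm q), rd_aeval hm]
    rfl
  have k1 := mt (k _).2 p2
  rw [mx_iff, not_or, ← der_aeval h hj] at k1
  obtain ⟨k2, k3⟩ := kap_upd h k1.1
  refine ⟨a, p, (mx_iff.1 ((k p).1 p1)).resolve_left fun e =>
    p0 (algebraicIndependent_iff.1 (ht.comp j hj) p e), k2, ?_⟩
  have k4 := Pl.ord_nonneg_of_mem Q.toPlace (der_aeval h hj a p ▸ aeval_mem hm (pderiv a p))
  rw [k3, Pi.add_apply, dv_apply, le_antisymm (not_lt.1 k1.2) k4, Int.cast_zero, add_zero]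

/-- **LOG2** -/
theorem log_two (hK : FF K n) (ht : AlgebraicIndependent ℂ t) {j : ι → Fin n}
    (hj : Injective j) (hm : ∀ a, Q.ord (t (j a)) = 0)
    (hd : ¬ AlgebraicIndependent ℂ fun a => Q.rd (t (j a))) :
    ∑ k, (Q.ord (t k) : ℝ) + 1 ≤ kap t Q + 1 := by
  obtain ⟨a, p, h1, h2, h3⟩ := exists_rel hK ht hj (fun a => mem_ord (hm a).ge) hd
  have k := sum_le_kap hK h2 Q
  rw [sum_upd, h3, hm] at k
  have : (1 : ℝ) ≤ Q.ord (aeval (fun b => t (j b)) p) := by exact_mod_cast h1
  push_cast at k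
  linarith

theorem ord_le_sum (hm : ∀ k, t k ∈ Q.ring) (s : Finset (Fin n)) :
    ∑ k ∈ s, (Q.ord (t k) : ℝ) ≤ ∑ k, (Q.ord (t k) : ℝ) :=
  Finset.sum_le_sum_of_subset_of_nonneg s.subset_univ fun k _ _ => by
    exact_mod_cast Pl.ord_nonneg_of_mem Q.toPlace (hm k)

/-- one more coordinate which vanishes -/
theorem gap_le (hK : FF K n) (ht : AlgebraicIndependent ℂ t) (hm : ∀ k, t k ∈ Q.ring) (k : Fin n)
    (hd : ¬ AlgebraicIndependent ℂ fun a : {a // a ≠ k} => Q.rd (t a)) :
    (Q.ord (t k) : ℝ) + 1 ≤ kap t Q + 1 := by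
  obtain ⟨a, p, h1, h2, h3⟩ := exists_rel hK ht Subtype.val_injective (fun a => hm a) hd
  have m : ∀ b, update t a.1 (aeval (fun b : {a // a ≠ k} => t b) p) b ∈ Q.ring := fun b => by
    by_cases e : b = a.1
    · subst e; simpa using mem_ord h1.le
    · simpa [e] using hm b
  have k1 := (ord_le_sum m {k, a.1}).trans (sum_le_kap hK h2 Q)
  rw [Finset.sum_pair a.2.symm, update_self, update_of_ne a.2.symm, h3] at k1
  have : (1 : ℝ) ≤ Q.ord (aeval (fun b : {a // a ≠ k} => t b) p) := by exact_mod_cast h1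
  linarith

/-- the order of a polynomial in the coordinates -/
theorem ord_aeval (hK : FF K n) (ht : AlgebraicIndependent ℂ t) (hm : ∀ k, t k ∈ Q.ring) (d : ℕ) :
    ∀ p : MvPolynomial (Fin n) ℂ, p ≠ 0 → p.totalDegree ≤ d →
      (Q.ord (aeval t p) : ℝ) ≤ d * (kap t Q + 1) := by
  obtain ⟨D, h⟩ := fr_of hK ht
  have k0 := kap_nonneg hK hm
  have c : ∀ (d : ℕ) (a : ℂ), (Q.ord (aeval t (C a : MvPolynomial (Fin n) ℂ)) : ℝ) ≤
      d * (kap t Q + 1) := fun d a => by
    rw [aeval_C, Q.ord_const, Int.cast_zero]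
    positivity
  induction d with
  | zero =>
    intro p _ hp
    rw [totalDegree_eq_zero_iff_eq_C.1 (Nat.le_zero.1 hp)]
    exact c 0 _
  | succ d ih =>
    intro p p0 hp
    by_cases e : ∃ a, p = C a
    · obtain ⟨a, rfl⟩ := e
      exact c _ a
    obtain ⟨j, j0, j1⟩ := P297Z.Diff.exists_pderiv (U := p) fun a z => e ⟨a, z⟩
    have k1 : D j (aeval t p) = aeval t (pderiv j p) := der_aeval h injective_id j p
    obtain ⟨k2, k3⟩ := kap_upd h (j := j) (f := aeval t p)
      (k1 ▸ fun z => j0 (algebraicIndependent_iff.1 ht _ z))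
    have m : ∀ b, update t j (aeval t p) b ∈ Q.ring := fun b => by
      by_cases e : b = j
      · subst e; simpa using aeval_mem hm p
      · simpa [e] using hm b
    have k4 := (ord_le_sum m {j}).trans (sum_le_kap hK k2 Q)
    rw [Finset.sum_singleton, update_self, k3, Pi.add_apply, dv_apply, k1] at k4
    have := ih _ j0 (by omega)
    push_cast
    linarith

/-- the monomial change of the coordinates with the weights `w` -/
def mon (t : Fin n → K) (k : Fin n) (w : Fin n → ℕ) : Fin n → K :=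
  fun a => if a = k then t k else t a ^ w k / t k ^ w a

theorem mon_step (hK : FF K n) (ht : AlgebraicIndependent ℂ t) {k a : Fin n} (h : a ≠ k) {v : ℕ}
    (hv : v ≠ 0) (w : ℕ) : AlgebraicIndependent ℂ (update t a (t a ^ v / t k ^ w)) ∧
      kap (update t a (t a ^ v / t k ^ w)) = kap t + dv (t a ^ v / t k ^ w) - dv (t a) := by
  obtain ⟨D, hD⟩ := fr_of hK ht
  have a0 := ht.ne_zero a
  have k0 := ht.ne_zero k
  have e : D a (t a ^ v / t k ^ w) = algebraMap ℂ K v * (t a ^ v / t k ^ w / t a) := by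
    obtain ⟨v, rfl⟩ := Nat.exists_eq_succ_of_ne_zero hv
    rw [div_eq_mul_inv, Derivation.leibniz, ← inv_pow, Derivation.leibniz_pow,
      Derivation.leibniz_pow, Derivation.leibniz_inv, hD.dual, hD.dual, if_pos rfl, if_neg h]
    simp only [smul_eq_mul, mul_zero, smul_zero, zero_add, map_natCast, nsmul_eq_mul,
      Nat.succ_sub_one, mul_one, pow_succ, inv_pow]
    field_simp
  have f0 : t a ^ v / t k ^ w ≠ 0 := div_ne_zero (pow_ne_zero _ a0) (pow_ne_zero _ k0)
  have c0 : algebraMap ℂ K v ≠ 0 := (_root_.map_ne_zero _).2 (Nat.cast_ne_zero.2 hv)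
  obtain ⟨h1, h2⟩ := kap_upd hD (j := a) (e ▸ mul_ne_zero c0 (div_ne_zero f0 a0))
  exact ⟨h1, by rw [h2, e, dv_mul c0 (div_ne_zero f0 a0), dv_const, dv_div f0 a0]; abel⟩

theorem mon_kap (hK : FF K n) (ht : AlgebraicIndependent ℂ t) {k : Fin n} {w : Fin n → ℕ}
    (hw : w k ≠ 0) : AlgebraicIndependent ℂ (mon t k w) ∧
      kap (mon t k w) - ∑ a, dv (mon t k w a) = kap t - ∑ a, dv (t a) := by
  classical
  have key : ∀ s : Finset (Fin n), k ∉ s →
      (AlgebraicIndependent ℂ fun a => if a ∈ s then mon t k w a else t a) ∧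
      kap (fun a => if a ∈ s then mon t k w a else t a) - ∑ a ∈ s, dv (mon t k w a) =
        kap t - ∑ a ∈ s, dv (t a) := fun s => by
    induction s using Finset.induction_on with
    | empty => exact fun _ => ⟨by simpa using ht, by simp⟩
    | insert b s hb ih =>
      intro hk
      rw [Finset.mem_insert, not_or] at hk
      obtain ⟨i1, i2⟩ := ih hk.2
      have st := mon_step hK i1 (Ne.symm hk.1) hw (w b)
      have e : (fun a => if a ∈ insert b s then mon t k w a else t a) =
          update (fun a => if a ∈ s then mon t k w a else t a) b (mon t k w b) := funext fun a => by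
        by_cases z : a = b
        · subst z; simp
        · simp [z]
      simp only [if_neg hb, if_neg hk.2] at st
      rw [show t b ^ w k / t k ^ w b = mon t k w b from (if_neg (Ne.symm hk.1)).symm, ← e] at st
      refine ⟨st.1, ?_⟩
      rw [st.2, Finset.sum_insert hb, Finset.sum_insert hb]
      linear_combination (exp := 1) i2
  obtain ⟨h1, h2⟩ := key (Finset.univ.erase k) (by simp)
  have e : (fun a => if a ∈ Finset.univ.erase k then mon t k w a else t a) = mon t k w :=
    funext fun a => by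
      by_cases z : a = k
      · simp [z, mon]
      · simp [z]
  rw [e] at h1 h2
  refine ⟨h1, ?_⟩
  rw [← Finset.add_sum_erase _ _ (Finset.mem_univ k), ← Finset.add_sum_erase _ _ (Finset.mem_univ k),
    show mon t k w k = t k from if_pos rfl]
  linear_combination (exp := 1) h2

/-- **TOR**: the residue field of a toroidal place -/
theorem mon_ind (hK : FF K n) (ht : AlgebraicIndependent ℂ t) {k : Fin n} {w : Fin n → ℕ}
    (hw : w k ≠ 0) (ho : ∀ a, Q.ord (t a) = w a) (h : kap t Q < ∑ a, (w a : ℝ)) :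
    (∀ a, a ≠ k → Q.ord (mon t k w a) = 0) ∧
      AlgebraicIndependent ℂ fun a : {a // a ≠ k} => Q.rd (mon t k w a) := by
  obtain ⟨h1, h2⟩ := mon_kap hK ht hw
  have o : ∀ a, a ≠ k → Q.ord (mon t k w a) = 0 := fun a ha => by
    rw [mon, if_neg ha, Pl.ord_div _ (pow_ne_zero _ (ht.ne_zero a)) (pow_ne_zero _ (ht.ne_zero k)),
      Pl.ord_pow, Pl.ord_pow, ho, ho]
    ring
  refine ⟨o, by_contra fun hd => ?_⟩
  have k1 := log_two hK h1 Subtype.val_injective (fun a : {a // a ≠ k} => o a a.2) hd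
  have k2 := congrFun h2 Q
  simp only [Pi.sub_apply, Finset.sum_apply, dv_apply, ho, Int.cast_natCast] at k2
  linarith

end Vale.Agent.P283B.U
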