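import Vale.Agent.P283B.Spec
import Vale.Agent.P287D.Va.Dsc
import Vale.Agent.P287D.Cb.Lg
import Vale.Agent.P287D.In.Bas
import Vale.Agent.P287D.Gm.Ffs

/-!
# P283B, block U: the Hilbert function is bounded by the degree
-/

set_option linter.unusedVariables false

open Set
open Vale.Agent.P297Z.Pl

noncomputable section

namespace Vale.Agent.P283B.U

open P287D

/-- **HB** -/
def HB : Prop := ForK fun n K _ _ => ∀ (s : Finset K) (M : ℕ), Big (mx s) →
  (h0 ((M : ℝ) • mx s) : ℝ) ≤ vol n (mx s) * (M + n).choose n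

/-- the spaces of sections are finite dimensional -/
def FIN : Prop := ForK fun _ K _ _ => ∀ β ∈ Car K, Module.Finite ℂ (H0 β)

variable {K : Type} [Field K] [Algebra ℂ K] {n : ℕ}

theorem fin_zero (hK : FF K 0) : Module.Finite ℂ K ∧ Module.finrank ℂ K = 1 := by
  have a : Algebra.IsAlgebraic ℂ K := trdeg_eq_zero_iff.1 (by simpa using hK.trdeg)
  have e := LinearEquiv.ofBijective (Algebra.linearMap ℂ K)
    (IsAlgClosed.algebraMap_bijective_of_isIntegral (k := ℂ) (K := K))
  exact ⟨.equiv e, e.finrank_eq ▸ Module.finrank_self ℂ⟩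

theorem fin_of (md : MOD) : FIN := fun n K _ _ hK β hβ => by
  cases n with
  | zero =>
    have := (fin_zero hK).1
    infer_instance
  | succ n => exact md.fin n K hK β ((md.isb n K hK).1 β hβ)

/-- the leading coefficient along `P` -/
def lead (P : Pl K) (β : BD K) (k : ℤ) (h : β P = k) : H0 β →ₗ[ℂ] P.κ where
  toFun f := P.rd (f * P.t ^ k)
  map_add' f g := by
    have m : ∀ f : H0 β, (f : K) * P.t ^ k ∈ P.ring := fun f => by
      by_cases f0 : (f : K) = 0
      · simp [f0]
      have := (sec_iff.1 (mem_H0.1 f.2) P).resolve_left f0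
      refine Cb.mem_ord ?_
      rw [P.ord_mul_t f0]
      rw [h] at this
      exact_mod_cast this
    rw [Submodule.coe_add, add_mul, Cb.rd_add (m f) (m g)]
  map_smul' c f := by
    have m : (f : K) * P.t ^ k ∈ P.ring := by
      by_cases f0 : (f : K) = 0
      · simp [f0]
      have := (sec_iff.1 (mem_H0.1 f.2) P).resolve_left f0
      refine Cb.mem_ord ?_
      rw [P.ord_mul_t f0]
      rw [h] at this
      exact_mod_cast this
    rw [Submodule.coe_smul, Algebra.smul_def, mul_assoc, Cb.rd_mul (P.con c) m, Cb.rd_const,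
      RingHom.id_apply, Algebra.smul_def]

theorem lead_apply (P : Pl K) (β : BD K) (k : ℤ) (h : β P = k) (f : H0 β) :
    lead P β k h f = P.rd (f * P.t ^ k) := rfl

theorem lead_zero {P : Pl K} {β : BD K} {k : ℤ} {h : β P = k} {f : H0 β} (f0 : (f : K) ≠ 0)
    (e : lead P β k h f = 0) : 1 ≤ (P.ord (f : K) : ℝ) + β P := by
  have a := (sec_iff.1 (mem_H0.1 f.2) P).resolve_left f0
  rw [h] at a ⊢
  have a' : 0 ≤ P.ord (f : K) + k := by exact_mod_cast a
  have b := (Cb.mx_iff.1 ((Cb.rd_eq_zero (Cb.mem_ord (by rwa [P.ord_mul_t f0]))).1 e)).resolve_left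
    (mul_ne_zero f0 (zpow_ne_zero _ P.t_ne))
  rw [P.ord_mul_t f0] at b
  exact_mod_cast b

theorem lead_sec (rs : RES) (hK : FF K (n + 1)) {P : Pl K} {β : BD K} (hβ : β ∈ Car K) {k : ℤ}
    (h : β P = k) (f : H0 β) : Sec (res P β) (lead P β k h f) := by
  have t0 : P.t ^ k ≠ 0 := zpow_ne_zero _ P.t_ne
  have a : res P (dv (P.t ^ k)) = 0 := by
    rw [rs.pri n K hK P _ t0, P.ord_t_zpow, div_self t0, ← map_one (algebraMap ℂ K), Cb.rd_const,
      dv_const]
  have b : res P (β + (-1 : ℝ) • dv (P.t ^ k)) = res P β := by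
    rw [rs.add n K hK P β hβ _ (Submodule.smul_mem _ _ (dv_mem_Car _)),
      rs.smul n K hK P _ _ (dv_mem_Car _), a, smul_zero, add_zero]
  rw [← b]
  refine rs.sec n K hK P _ (add_mem hβ (Submodule.smul_mem _ _ (dv_mem_Car _))) _ ?_ ?_
  · simp [h, dv_apply, P.ord_t_zpow]
  · rw [neg_one_smul, ← dv_inv, sec_add_dv (inv_ne_zero t0), mul_inv_cancel_right₀ t0]
    exact mem_H0.1 f.2

/-- restriction to a reduced member -/
theorem h0_step (rs : RES) (ng : NEG) (fi : FIN) (hK : FF K (n + 1)) {H β : BD K} (hs : Smp H)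
    (hb : Big H) (hβ : Dsc H β) (hz : IsZ β) {g : K} (g0 : g ≠ 0) (S : Finset (Pl K))
    (hS : ∀ P, On n H P → (dv g + H) P = 0 ∨ ((dv g + H) P = 1 ∧ P ∈ S)) :
    h0 β ≤ h0 (β - H) + ∑ P ∈ S, h0 (res P β) := by
  choose k hk using hz
  have := fi _ K hK β hβ.car
  have := fi _ K hK (β - H) (sub_mem hβ.car hs.car)
  have : ∀ P : S, Module.Finite ℂ (H0 (res P.1 β)) := fun P =>
    fi _ _ (Gm.ff_κ P.1 hK) _ (In.res_car _ _)
  let φ : H0 β →ₗ[ℂ] ∀ P : S, H0 (res P.1 β) := LinearMap.pi fun P =>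
    (lead P.1 β (k P) (hk P)).codRestrict _ fun f => mem_H0.2 (lead_sec rs hK hβ.car _ f)
  have key : ∀ f : LinearMap.ker φ, ((f : H0 β) : K) * g⁻¹ ∈ H0 (β - H) := fun f => by
    refine mem_H0.2 (or_iff_not_imp_left.2 fun f0 => ?_)
    have f1 := left_ne_zero_of_mul f0
    refine (ng.nn n K hK H _ hs hb ((Dsc.dv hs _).add (hβ.sub (.refl hs))) fun P hP => ?_).1
    have a := (sec_iff.1 (mem_H0.1 (f : H0 β).2) P).resolve_left f1
    rw [dv_mul f1 (inv_ne_zero g0), dv_inv]
    simp only [Pi.add_apply, Pi.neg_apply, Pi.sub_apply, dv_apply] at hS ⊢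
    rcases hS P hP with e | ⟨e, p⟩
    · linarith
    · have := lead_zero (P := P) (h := hk P) f1
        (congrArg Subtype.val (congrFun (LinearMap.mem_ker.1 f.2) ⟨P, p⟩))
      linarith
  let ψ : LinearMap.ker φ →ₗ[ℂ] H0 (β - H) :=
    ((LinearMap.mulRight ℂ g⁻¹).comp ((H0 β).subtype.comp (LinearMap.ker φ).subtype)).codRestrict
      _ key
  have h1 : Module.finrank ℂ (LinearMap.ker φ) ≤ h0 (β - H) :=
    LinearMap.finrank_le_finrank_of_injective (f := ψ) fun a b e => Subtype.ext (Subtype.ext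
      (mul_right_cancel₀ (inv_ne_zero g0) (congrArg Subtype.val e :)))
  have h2 : Module.finrank ℂ (LinearMap.range φ) ≤ ∑ P ∈ S, h0 (res P β) := by
    refine (Submodule.finrank_le _).trans_eq ?_
    rw [Module.finrank_pi_fintype]
    exact Finset.sum_coe_sort S fun P => h0 (res P β)
  have h3 := φ.finrank_range_add_finrank_ker
  unfold h0 at *
  omega

theorem vol_eq (md : MOD) (it : INT) (hK : FF K (n + 1)) {H : BD K} (hs : Smp H) (g : K)
    (S : Finset (Pl K)) (h1 : ∀ P ∈ S, (dv g + H) P = 1)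
    (hS : ∀ P, On n H P → P ∉ S → (dv g + H) P = 0) :
    vol (n + 1) H = ∑ P ∈ S, vol n (res P H) := by
  have ib := (md.isb n K hK).1
  have a := it.add (n + 1) K hK (fun _ => H) 0 (dv g) H (ib _ (dv_mem_Car g)) (ib _ hs.car)
    (fun _ => ib _ hs.car) (fun _ _ => hs.car) fun h => (h rfl).elim
  rw [it.prn (n + 1) K hK (Function.update (fun _ => H) 0 (dv g)) 0
    (fun j _ => In.upd_mem (p := (· ∈ Car K)) (fun _ => hs.car) 0 (dv_mem_Car g) j)
    (by simpa using dv_mem_Prn g), zero_add, Function.update_eq_self, In.I_upd_zero,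
    In.I_cons] at a
  refine a.symm.trans ((finsum_eq_sum_of_support_subset (s := S) _ fun P hP => ?_).trans
    (Finset.sum_congr rfl fun P hP => by rw [h1 P hP, one_mul]; rfl))
  by_contra p
  by_cases o : On n H P
  · exact hP (mul_eq_zero_of_left (hS P o p) _)
  · exact hP (mul_eq_zero_of_right _ (it.exc n K hK H P _ hs o fun _ => .refl hs))

theorem hb_of (md : MOD) (rs : RES) (it : INT) (vl : VOL) (ng : NEG) (bt : BERT) : HB := by
  intro n
  induction n with
  | zero =>
    intro K _ _ hK s M _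
    have := (fin_zero hK).1
    have a : h0 ((M : ℝ) • mx s) ≤ 1 := (Submodule.finrank_le _).trans_eq (fin_zero hK).2
    simpa [vol, I] using a
  | succ n ih =>
    intro K _ _ hK s M hb
    obtain ⟨u, hu, e⟩ := exists_nz s
    rw [← e] at hb ⊢
    have hs := smp_mx u
    obtain ⟨g, g1, g0, -, g2, -⟩ := bt n K hK (mx u) (mx u) 0 u ∅ hs hb hs (zero_mem _) hu
      finite_empty
    have f := (md.isb n K hK).1 _ (add_mem (dv_mem_Car g) hs.car) u hb
    have s1 : ∀ P ∈ f.toFinset, (dv g + mx u) P = 1 := fun P hP =>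
      let ⟨a, b⟩ := f.mem_toFinset.1 hP
      ((g2 P a).resolve_left b).1
    have s2 : ∀ P, On n (mx u) P → P ∉ f.toFinset → (dv g + mx u) P = 0 := fun P a b =>
      not_not.1 fun c => b (f.mem_toFinset.2 ⟨a, c⟩)
    have v := vol_eq md it hK hs g _ s1 s2
    have st : ∀ m : ℕ, (h0 ((m : ℝ) • mx u) : ℝ) ≤
        h0 ((m : ℝ) • mx u - mx u) + vol (n + 1) (mx u) * (m + n).choose n := fun m => by
      have a := h0_step rs ng (fin_of md) hK hs hb ((Dsc.refl hs).smul m)
        (fun P => ⟨m * P.mz u, by simp [mx_apply]⟩) g0 f.toFinset fun P hP => by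
          by_cases p : P ∈ f.toFinset
          exacts [.inr ⟨s1 P p, p⟩, .inl (s2 P hP p)]
      refine (Nat.cast_le.2 a).trans ?_
      rw [Nat.cast_add, Nat.cast_sum, v, Finset.sum_mul]
      refine add_le_add le_rfl (Finset.sum_le_sum fun P hP => ?_)
      rw [rs.smul n K hK P _ _ hs.car, rs.sys n K hK]
      exact ih _ (Gm.ff_κ P hK) _ m (rs.sys n K hK P u ▸
        (rs.on n K hK _ P hs).1 (f.mem_toFinset.1 hP).1)
    induction M with
    | zero =>
      have a : H0 (((0 : ℕ) : ℝ) • mx u - mx u) = ⊥ := by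
        refine eq_bot_iff.2 fun x hx => by_contra fun x0 => ?_
        have b := (mem_H0.1 hx).resolve_left x0
        have c := (sec_of_span g1).resolve_left g0
        rw [Nat.cast_zero, zero_smul, zero_sub] at b
        have d := md.zero n K hK (dv x + dv g) (add_mem (dv_mem_Prn _) (dv_mem_Prn _))
          (by simpa [add_add_add_comm] using add_nonneg b c)
        have p := (vl.big _ K hK _ hs.nef).1 hb
        rw [v] at p
        obtain ⟨P, hP⟩ := Finset.nonempty_of_sum_ne_zero p.ne'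
        have b1 := b P
        have d1 := congrFun d P
        have s3 := s1 P hP
        simp only [Pi.add_apply, Pi.neg_apply, Pi.zero_apply] at b1 d1 s3
        linarith
      have b := st 0
      rw [show h0 (((0 : ℕ) : ℝ) • mx u - mx u) = 0 by rw [h0, a, finrank_bot]] at b
      simpa using b
    | succ M ihM =>
      have b := st (M + 1)
      rw [show ((M + 1 : ℕ) : ℝ) • mx u - mx u = (M : ℝ) • mx u by
        rw [Nat.cast_succ, add_smul, one_smul, add_sub_cancel_right]] at b
      rw [show M + 1 + (n + 1) = M + (n + 1) + 1 by ring, Nat.choose_succ_succ',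
        Nat.cast_add (Nat.choose _ _), mul_add]
      rw [show M + 1 + n = M + (n + 1) by ring] at b
      linarith

end Vale.Agent.P283B.U
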