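import Vale.Agent.P283B.U.Lm
import Vale.Agent.P283B.U.Ult
import Vale.Agent.P283B.U.Hb
import Vale.Agent.P287D.Va.Fld

/-!
# P283B, block U: existence of limits of bounded systems and of bounded functions
-/

set_option linter.unusedSectionVars false

open Set Filter
open IntermediateField (adjoin)

noncomputable section

namespace Vale.Agent.P283B.U

open P287D

section cnt

variable {K : Type} [Field K] [Algebra ℂ K] {n e : ℕ} {V : ℝ} {T T' : Set K}

/-- the members of `T` are quotients of sections of `e H` with one denominator, where `H` is a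
big system of degree at most `V` -/
def Bnd (n e : ℕ) (V : ℝ) (T : Set K) : Prop := ∃ (s : Finset K) (g : K), Big (mx s) ∧
  vol n (mx s) ≤ V ∧ g ≠ 0 ∧ Sec ((e : ℝ) • mx s) g ∧ ∀ t ∈ T, Sec ((e : ℝ) • mx s) (t * g)

theorem Bnd.mono (h : Bnd n e V T) (k : T' ⊆ T) : Bnd n e V T' :=
  let ⟨s, g, a, b, c, d, f⟩ := h
  ⟨s, g, a, b, c, d, fun t ht => f t (k ht)⟩

theorem sec_prod {ι : Type} (S : Finset ι) {β : ι → BD K} {f : ι → K}
    (h : ∀ i ∈ S, Sec (β i) (f i)) : Sec (∑ i ∈ S, β i) (∏ i ∈ S, f i) := by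
  classical
  exact Finset.induction_on' (motive := fun S => Sec (∑ i ∈ S, β i) (∏ i ∈ S, f i)) S
    (by simpa using sec_one.2 le_rfl) fun {_ _} a _ c d => by
      rw [Finset.sum_insert c, Finset.prod_insert c]
      exact (h _ a).mul d

/-- **counting**: bounded functions satisfy a relation of bounded degree -/
theorem cnt (hb : HB) (fi : FIN) (n e : ℕ) (V : ℝ) : ∃ M : ℕ,
    ∀ (K : Type) [Field K] [Algebra ℂ K], FF K n → ∀ (τ : Type) [Fintype τ] (t : τ → K),
      Fintype.card τ = n + 1 → Bnd n e V (range t) →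
      ∃ p : MvPolynomial τ ℂ, p ≠ 0 ∧ p.totalDegree ≤ M ∧ MvPolynomial.aeval t p = 0 := by
  obtain ⟨m, hm⟩ := exists_nat_gt (V * (((e + 1) * (n + 1) : ℕ) : ℝ) ^ n)
  refine ⟨(n + 1) * m, fun K _ _ hK τ _ t hτ ⟨s, g, s1, s2, g0, g1, g2⟩ => ?_⟩
  classical
  let ex : (τ → Fin (m + 1)) → τ →₀ ℕ := fun α => Finsupp.equivFunOnFinite.symm fun o => α o
  have le : ∀ α : τ → Fin (m + 1), ∀ o, (α o : ℕ) ≤ m := fun α o => Nat.lt_succ_iff.1 (α o).2
  have sc : ∀ α : τ → Fin (m + 1), (∏ o, t o ^ (α o : ℕ)) * g ^ ((n + 1) * m) ∈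
      H0 (((e * ((n + 1) * m) : ℕ) : ℝ) • mx s) := fun α => by
    have a := sec_prod Finset.univ fun o _ =>
      ((g2 _ ⟨o, rfl⟩).pow (α o)).mul (g1.pow (m - α o))
    simp only [← add_smul, ← Nat.cast_add, Nat.add_sub_cancel' (le α _), mul_pow, mul_assoc,
      ← pow_add, Finset.prod_mul_distrib, Finset.prod_const, Finset.card_univ, hτ,
      ← pow_mul, smul_smul, ← Nat.cast_mul, ← add_mul] at a
    rw [Finset.sum_const, Finset.card_univ, hτ, ← Nat.cast_smul_eq_nsmul ℝ, smul_smul,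
      ← Nat.cast_mul, mul_comm m (n + 1), show (n + 1) * (m * e) = e * ((n + 1) * m) by ring] at a
    exact mem_H0.2 a
  have := fi n K hK _ (Submodule.smul_mem _ ((e * ((n + 1) * m) : ℕ) : ℝ) (mx_mem_Car s))
  have nl : ¬ LinearIndependent ℂ fun α => (⟨_, sc α⟩ : H0 _) := fun h => by
    have a := h.fintype_card_le_finrank
    rw [Fintype.card_fun, hτ, Fintype.card_fin] at a
    have b := hb n K hK s (e * ((n + 1) * m)) s1
    have c : (e * ((n + 1) * m) + n).choose n ≤ ((e + 1) * (n + 1)) ^ n * (m + 1) ^ n := by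
      rw [← mul_pow]
      exact (Nat.choose_le_pow _ _).trans (Nat.pow_le_pow_left (by nlinarith) _)
    have a' : ((m + 1 : ℕ) : ℝ) ^ (n + 1) ≤ h0 (((e * ((n + 1) * m) : ℕ) : ℝ) • mx s) := by
      rw [← Nat.cast_pow]
      exact Nat.cast_le.2 a
    have c' : (((e * ((n + 1) * m) + n).choose n : ℕ) : ℝ) ≤
        (((e + 1) * (n + 1) : ℕ) : ℝ) ^ n * ((m + 1 : ℕ) : ℝ) ^ n := by exact_mod_cast c
    have p : (0 : ℝ) < ((m + 1 : ℕ) : ℝ) ^ n := by positivity
    have q : (0 : ℝ) < (((e * ((n + 1) * m) + n).choose n : ℕ) : ℝ) := by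
      exact_mod_cast Nat.choose_pos (Nat.le_add_left _ _)
    have v0 : 0 ≤ vol n (mx s) := by
      by_contra! z
      linarith [mul_neg_of_neg_of_pos z q, pow_pos (show (0 : ℝ) < (m + 1 : ℕ) by positivity) (n + 1)]
    have d := (a'.trans b).trans ((mul_le_mul s2 c' q.le (v0.trans s2)))
    rw [pow_succ, ← mul_assoc, mul_comm, mul_le_mul_iff_left₀ p] at d
    push_cast at d hm
    linarith
  obtain ⟨c, c1, α, c2⟩ := Fintype.not_linearIndependent_iff.1 nl
  refine ⟨∑ α, MvPolynomial.monomial (ex α) (c α), fun z => c2 ?_,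
    MvPolynomial.totalDegree_finsetSum_le fun α _ => ?_, ?_⟩
  · have := congrArg (MvPolynomial.coeff (ex α)) z
    rwa [MvPolynomial.coeff_sum, Finset.sum_eq_single α (fun β _ h => by
      rw [MvPolynomial.coeff_monomial, if_neg fun w => h (funext fun o =>
        Fin.ext (DFunLike.congr_fun w o))]) (by simp), MvPolynomial.coeff_monomial, if_pos rfl] at this
  · refine (MvPolynomial.totalDegree_monomial_le _ _).trans ?_
    rw [Finsupp.sum_fintype _ _ fun _ => rfl]
    exact (Finset.sum_le_card_nsmul _ _ m fun o _ => le α o).trans_eq (by simp [hτ])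
  · refine mul_right_cancel₀ (pow_ne_zero ((n + 1) * m) g0) ?_
    have := congrArg Subtype.val c1
    rw [Submodule.coe_sum] at this
    rw [zero_mul, map_sum, Finset.sum_mul]
    refine (Finset.sum_congr rfl fun α _ => ?_).trans this
    rw [MvPolynomial.aeval_monomial, Finsupp.prod_fintype _ _ fun _ => pow_zero _, mul_assoc,
      ← Algebra.smul_def]
    rfl

theorem exists_sub (hK : FF K n) {σ : Type} {x : σ → K} (h : adjoin ℂ (range x) = ⊤) :
    ∃ j : Fin n → σ, AlgebraicIndependent ℂ fun k => x (j k) := by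
  have : Algebra.IsAlgebraic (Algebra.adjoin ℂ (range x)) K := ⟨fun g =>
    IntermediateField.isAlgebraic_adjoin_iff.1
      (isAlgebraic_algebraMap (⟨g, h ▸ trivial⟩ : adjoin ℂ (range x)))⟩
  obtain ⟨t, h1, h2⟩ := exists_isTranscendenceBasis_subset (R := ℂ) (range x)
  obtain ⟨f⟩ := Cardinal.eq.1 ((Cardinal.mk_fin n).trans (h2.cardinalMk_eq_trdeg.trans hK.trdeg).symm)
  choose j hj using fun k => h1 (f k).2
  exact ⟨j, funext hj ▸ h2.1.comp f f.injective⟩

theorem big_of_basis {ι : Type} {y : ι → K} (hy : IsTranscendenceBasis ℂ y) {w : Finset K}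
    (h1 : (1 : K) ∈ w) (h : ∀ a, y a ∈ w) : Big (mx w) := big_mx fun f => by
  have e : adjoin ℂ (range y) ≤ rts w := IntermediateField.adjoin_le_iff.2
    (range_subset_iff.2 fun a => div_one (y a) ▸ div_mem_rts (h a) h1)
  exact (hy.isAlgebraic_field.isAlgebraic f).ringHom_of_comp_eq
    (IntermediateField.inclusion e).toRingHom (RingHom.id K)
    (IntermediateField.inclusion_injective _) rfl

theorem big_of_rts {s : Finset K} (h : rts s = ⊤) : Big (mx s) := big_mx fun f =>
  isAlgebraic_algebraMap (⟨f, h ▸ trivial⟩ : rts s)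

theorem smul_mx_le {s w : Finset K} (h1 : (1 : K) ∈ w) (h : ∀ f ∈ s, f ∈ w ∧ f⁻¹ ∈ w) (c : ℝ) :
    c • mx s ≤ |c| • mx w := by
  have w0 := mx_nonneg h1
  by_cases hs : Nz s
  swap
  · rw [mx_of_not hs, smul_zero]
    exact smul_nonneg (abs_nonneg c) w0
  rcases le_total 0 c with hc | hc
  · rw [abs_of_nonneg hc]
    exact smul_le_smul_of_nonneg_left (mx_mono hs fun f hf => (h f hf).1) hc
  · obtain ⟨f, hf, f0⟩ := hs
    have a := dv_add_mx_nonneg hf f0
    have b := dv_add_mx_nonneg (h f hf).2 (inv_ne_zero f0)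
    rw [dv_inv] at b
    rw [abs_of_nonpos hc, ← sub_nonneg, neg_smul, ← neg_add', ← smul_add, ← neg_smul]
    exact smul_nonneg (neg_nonneg.2 hc) ((add_nonneg a b).trans_eq (by abel))

theorem div_mem_span {s : Set K} {f : K} (h : f ∈ Submodule.span ℂ s) (g : K) :
    f / g ∈ Submodule.span ℂ ((· / g) '' s) := by
  simp only [div_eq_mul_inv]
  exact Submodule.apply_mem_span_image_of_mem_span (LinearMap.mulRight ℂ g⁻¹) h

end cnt

variable {U : Ultrafilter ℕ}

/-- the constants in the form of `Ult` -/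
def Cq.cs (c : Cq U) : Cs U := ⟨c.q, c.surj, c.zero⟩

variable {c : Cq U} {n : ℕ} {K : ℕ → Type} [∀ i, Field (K i)] [∀ i, Algebra ℂ (K i)]

theorem alg_of_bnd (hb : HB) (fi : FIN) (c : Cq U) (hK : ∀ i, FF (K i) n) {y : Fin n → ∀ i, K i}
    (hy : ∀ᶠ i in U, AlgebraicIndependent ℂ fun a => y a i) {z : ∀ i, K i} {e : ℕ} {V : ℝ}
    (h : ∀ᶠ i in U, Bnd n e V ((range fun a => y a i) ∪ {z i})) :
    IsAlgebraic (adjoin ℂ (range fun a => c.cs.cl K (y a))) (c.cs.cl K z) := by
  obtain ⟨M, hM⟩ := cnt hb fi n e V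
  rw [alg_iff (c.cs.ind_up hy), ← Cs.opt_cl]
  exact c.cs.rel_up (d := M) (h.mono fun i a => hM _ (hK i) _ _ (by simp)
    (by rwa [Cs.opt_ev, range_opt]))

/-- **EX**: a bounded generating family has a limit -/
theorem exists_lm (hb : HB) (fi : FIN) (c : Cq U) (hK : ∀ i, FF (K i) n) {σ : Type} [Finite σ]
    (x : σ → ∀ i, K i) (hx : ∀ᶠ i in U, adjoin ℂ (range fun a => x a i) = ⊤) {e : ℕ} {V : ℝ}
    (h : ∀ᶠ i in U, Bnd n e V (range fun a => x a i)) :
    ∃ (L : Type) (_ : Field L) (_ : Algebra ℂ L) (D : Lm c n K L) (z : σ → L),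
      adjoin ℂ (range z) = ⊤ ∧ ∀ᶠ i in U, ∀ a, D.r i (z a) = x a i := by
  classical
  have := Fintype.ofFinite σ
  obtain ⟨j, hj⟩ := Ultrafilter.eventually_exists_iff.1 (hx.mono fun i a => exists_sub (hK i) a)
  let L := adjoin ℂ (range fun a => c.cs.cl K (x a))
  let z : σ → L := fun a => ⟨_, IntermediateField.subset_adjoin _ _ ⟨a, rfl⟩⟩
  choose r hr using fun f : L => c.cs.cl_surj (K := K) f
  have hz : ∀ᶠ i in U, ∀ a, r (z a) i = x a i := eventually_all.2 fun a => c.cs.cl_eq.1 (hr _)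
  have top : adjoin ℂ (range z) = ⊤ := IntermediateField.lift_injective L (by
    rw [IntermediateField.lift_adjoin, IntermediateField.lift_top, ← range_comp]
    rfl)
  have ind : AlgebraicIndependent ℂ fun k => z (j k) := (c.cs.ind_up hj).of_comp L.val
  have alg : ∀ a, IsAlgebraic (Algebra.adjoin ℂ (range fun k => z (j k))) (z a) := fun a => by
    have k := (alg_iff (c.cs.ind_up hj)).1 (alg_of_bnd hb fi c hK (y := fun k => x (j k)) hj
      (z := x a) (h.mono fun i b => b.mono (union_subset (range_subset_iff.2 fun k => ⟨_, rfl⟩)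
        (singleton_subset_iff.2 ⟨_, rfl⟩))))
    refine IntermediateField.isAlgebraic_adjoin_iff.1 ((alg_iff ind).2 fun w => k ?_)
    convert w.map' (f := L.val) Subtype.val_injective using 1
    exact funext fun o => by cases o <;> rfl
  have : Algebra.IsAlgebraic (Algebra.adjoin ℂ (range fun k => z (j k))) L := ⟨fun g =>
    IsAlgebraic.adjoin_of_forall_isAlgebraic (s := range z) (fun _ ⟨⟨a, ha⟩, _⟩ => ha ▸ alg a)
      (IntermediateField.isAlgebraic_adjoin_iff.1
        (isAlgebraic_algebraMap (⟨g, top ▸ trivial⟩ : adjoin ℂ (range z))))⟩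
  have : Algebra.EssFiniteType ℂ L :=
    IntermediateField.essFiniteType_iff.2 (IntermediateField.fg_adjoin_of_finite (finite_range _))
  refine ⟨L, inferInstance, inferInstance, ⟨fun i f => r f i, hK, Gm.ff_of_ess ?_,
    fun f g => (c.cs.cl_eq (y := r f + r g)).1 (by rw [map_add, hr, hr, hr]; rfl),
    fun f g => (c.cs.cl_eq (y := r f * r g)).1 (by rw [map_mul, hr, hr, hr]; rfl),
    fun w => c.cs.cl_eq.1 ((hr _).trans (c.cs.alg_q w)), Finset.univ.image z, ?_⟩, z, top, hz⟩
  · simpa using (ind.isTranscendenceBasis_iff_isAlgebraic.2 ‹_›).cardinalMk_eq_trdeg.symm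
  · filter_upwards [hx, hz] with i a b
    rw [Finset.coe_image, Finset.coe_univ, image_univ, ← range_comp, ← a]
    exact congrArg (fun v => adjoin ℂ (range v)) (funext b)

/-- **EX** for systems: after a normalisation, bounded birational systems have a limit -/
theorem exists_sys (hb : HB) (fi : FIN) (c : Cq U) (hK : ∀ i, FF (K i) n) (s : ∀ i, Finset (K i))
    (g : ∀ i, K i) {V : ℝ}
    (h : ∀ᶠ i in U, (g i ∈ s i ∧ g i ≠ 0) ∧ rts (s i) = ⊤ ∧ vol n (mx (s i)) ≤ V) :
    ∃ (L : Type) (_ : Field L) (_ : Algebra ℂ L) (D : Lm c n K L) (u : Finset L),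
      1 ∈ u ∧ adjoin ℂ (u : Set L) = ⊤ ∧ ∀ᶠ i in U, D.r i '' u ⊆ (· / g i) '' s i ∧
        Submodule.span ℂ (D.r i '' u) = Submodule.span ℂ ((· / g i) '' s i) := by
  classical
  obtain ⟨N, hN⟩ := exists_nat_ge (V * (n + 1))
  have hg := h.mono fun i a => a.1
  have h1 : ∀ᶠ i in U, ∃ k : Fin (N + 1), ∃ f : Fin k → K i, (∀ a, f a ∈ s i) ∧
      Submodule.span ℂ (range f) = Submodule.span ℂ (s i : Set (K i)) := h.mono fun i a => by
    obtain ⟨f, f1, f2, -⟩ := Submodule.exists_fun_fin_finrank_span_eq ℂ (s i : Set (K i))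
    have := fi n _ (hK i) _ (mx_mem_Car (s i))
    have b := hb n _ (hK i) (s i) 1 (big_of_rts a.2.1)
    rw [Nat.cast_one, one_smul, add_comm, Nat.choose_succ_self_right] at b
    have d : (Module.finrank ℂ (Submodule.span ℂ (s i : Set (K i))) : ℝ) ≤ N :=
      (Nat.cast_le.2 (Submodule.finrank_mono (span_le_H0 (s i)))).trans (b.trans (le_trans
        (by push_cast; exact mul_le_mul_of_nonneg_right a.2.2 (by positivity)) hN))
    exact ⟨⟨_, Nat.lt_succ_of_le (Nat.cast_le.1 d)⟩, f, f1, f2⟩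
  obtain ⟨k, hk⟩ := Ultrafilter.eventually_exists_iff.1 h1
  obtain ⟨f, hf⟩ := Filter.skolem.1 hk
  let x : Option (Fin k) → ∀ i, K i := fun o i => o.elim (g i) (f i) / g i
  have m : ∀ᶠ i in U, ∀ o : Option (Fin k), o.elim (g i) (f i) ∈ s i := (hg.and hf).mono
    fun i a o => by cases o; exacts [a.1.1, a.2.1 _]
  have sp : ∀ᶠ i in U, ∀ t ∈ s i, t / g i ∈ Submodule.span ℂ (range fun o => x o i) :=
    hf.mono fun i a t ht => Submodule.span_mono (by
      rintro _ ⟨_, ⟨b, rfl⟩, rfl⟩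
      exact ⟨some b, rfl⟩) (div_mem_span (a.2.ge (Submodule.subset_span ht)) (g i))
  obtain ⟨L, _, _, D, z, z1, z2⟩ := exists_lm hb fi c hK x (e := 1) (V := V) (by
    filter_upwards [h, hg, sp] with i a b d
    have e : ∀ t ∈ s i, t / g i ∈ adjoin ℂ (range fun o => x o i) := fun t ht =>
      (Submodule.span_le (p := (adjoin ℂ (range fun o => x o i)).toSubalgebra.toSubmodule)).2
        (IntermediateField.subset_adjoin _ _) (d t ht)
    refine eq_top_iff.2 (a.2.1.ge.trans (rts_le_iff.2 fun t ht t' ht' => ?_))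
    rw [← div_div_div_cancel_right₀ b.2]
    exact div_mem (e t ht) (e t' ht')) (by
    filter_upwards [h, hg, m] with i a b d
    refine ⟨s i, g i, big_of_rts a.2.1, a.2.2, b.2, ?_, forall_mem_range.2 fun o => ?_⟩
    · simpa using sec_of_mem b.1
    · simpa [x, div_mul_cancel₀ _ b.2] using sec_of_mem (d o))
  refine ⟨L, _, _, D, Finset.univ.image z, Finset.mem_image.2 ⟨none, Finset.mem_univ _,
    D.eq_of ?_⟩, by simpa using z1, ?_⟩
  · filter_upwards [z2, hg, D.one] with i a b d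
    rw [a, d]
    exact div_self b.2
  · filter_upwards [z2, m, sp] with i a d e
    have r : D.r i '' (Finset.univ.image z : Finset L) = range fun o => x o i := by
      rw [Finset.coe_image, Finset.coe_univ, image_univ, ← range_comp]
      exact congrArg range (funext a)
    have t : (range fun o => x o i) ⊆ (· / g i) '' s i := range_subset_iff.2 fun o => ⟨_, d o, rfl⟩
    rw [r]
    exact ⟨t, le_antisymm (Submodule.span_mono t)
      (Submodule.span_le.2 (image_subset_iff.2 e))⟩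

namespace Lm

variable {L : Type} [Field L] [Algebra ℂ L] (D : Lm c n K L) {σ : Type} {z : ∀ i, K i}

/-- the embedding into the ultraproduct -/
def rho : L →ₐ[ℂ] c.cs.Ul K where
  toFun f := c.cs.cl K fun i => D.r i f
  map_one' := (c.cs.cl_eq.2 D.one).trans (map_one _)
  map_zero' := c.cs.cl_zero.2 D.zero
  map_add' f g := (c.cs.cl_eq.2 (D.add f g)).trans (map_add _ _ _)
  map_mul' f g := (c.cs.cl_eq.2 (D.mul f g)).trans (map_mul _ _ _)
  commutes' a := by
    obtain ⟨w, rfl⟩ := c.surj a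
    exact (c.cs.cl_eq.2 (D.cst w)).trans (c.cs.alg_q w).symm

theorem rho_eq (f : L) : D.rho f = c.cs.cl K fun i => D.r i f := rfl

theorem rho_alg {x : σ → L} {f : L} (h : IsAlgebraic (adjoin ℂ (range x)) f) :
    IsAlgebraic (adjoin ℂ (range fun a => D.rho (x a))) (D.rho f) := by
  have e : ∀ g : adjoin ℂ (range x), D.rho g ∈ adjoin ℂ (range fun a => D.rho (x a)) := fun g => by
    have := (IntermediateField.mem_map _ (f := D.rho)).2 ⟨g, g.2, rfl⟩
    rwa [IntermediateField.adjoin_map, ← range_comp] at this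
  exact h.ringHom_of_comp_eq ((D.rho.toRingHom.comp (algebraMap _ L)).codRestrict _ e)
    D.rho.toRingHom (RingHom.injective _) rfl

/-- **ALG**: the limit is algebraically closed in the ultraproduct -/
theorem mem_of_alg {y : Fin n → L} (hy : AlgebraicIndependent ℂ y) {w : c.cs.Ul K}
    (hw : IsAlgebraic (adjoin ℂ (range fun a => D.rho (y a))) w) : ∃ f, D.rho f = w := by
  obtain ⟨s, hs⟩ := D.gen
  have k := c.cs.alg_mem (y := fun a i => D.r i (y a)) (x := fun (a : s) i => D.r i a) (D.ind hy)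
    (hs.mono fun i a => by rwa [image_eq_range] at a)
    (fun a => D.rho_alg ((D.ff.basis hy).isAlgebraic_field.isAlgebraic _)) hw
  have l : adjoin ℂ (range fun a => D.rho (y a)) ≤ D.rho.fieldRange :=
    IntermediateField.adjoin_le_iff.2 (range_subset_iff.2 fun a => ⟨_, rfl⟩)
  have m : w ∈ (adjoin (adjoin ℂ (range fun a => D.rho (y a)))
    (range fun a : s => D.rho a)).restrictScalars ℂ := k
  rw [IntermediateField.restrictScalars_adjoin] at m
  exact IntermediateField.adjoin_le_iff.2 (union_subset l (range_subset_iff.2 fun a => ⟨_, rfl⟩)) m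

theorem mem_of_alg' {w : c.cs.Ul K} (hw : IsAlgebraic D.rho.fieldRange w) : ∃ f, D.rho f = w := by
  obtain ⟨y, hy, -⟩ := D.ff
  refine D.mem_of_alg hy (IntermediateField.isAlgebraic_adjoin_iff.2
    (IsAlgebraic.adjoin_of_forall_isAlgebraic (s := range D.rho) (fun _ ⟨⟨a, ha⟩, _⟩ => ha ▸
      IntermediateField.isAlgebraic_adjoin_iff.1
        (D.rho_alg ((D.ff.basis hy).isAlgebraic_field.isAlgebraic a))) ?_))
  exact hw.tower_top_of_subalgebra_le (A := D.rho.fieldRange.toSubalgebra) Algebra.subset_adjoin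

/-- roots of a fixed polynomial are limits -/
theorem lim_root {ι : Type} (S : Finset ι) (a : ι → L) (k : ι → ℕ) (hk : InjOn k S)
    (a0 : ∃ j ∈ S, a j ≠ 0) (h : ∀ᶠ i in U, ∑ j ∈ S, D.r i (a j) * z i ^ k j = 0) :
    ∃ f, ∀ᶠ i in U, D.r i f = z i := by
  refine (D.mem_of_alg' (w := c.cs.cl K z) ⟨∑ j ∈ S, Polynomial.monomial (k j) ⟨_, a j, rfl⟩,
    fun e => ?_, ?_⟩).imp fun f e => c.cs.cl_eq.1 e
  · obtain ⟨j, hj, a0⟩ := a0
    have := congrArg (Polynomial.coeff · (k j)) e
    simp only [Polynomial.finsetSum_coeff, Polynomial.coeff_monomial] at this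
    rw [Finset.sum_eq_single_of_mem j hj fun b hb w => if_neg fun v => w (hk hb hj v),
      if_pos rfl] at this
    exact a0 ((map_eq_zero D.rho).1 (congrArg Subtype.val this))
  · rw [map_sum]
    refine (Finset.sum_congr rfl fun j _ => ?_).trans ((map_sum (c.cs.cl K)
      (fun j => (fun i => D.r i (a j)) * z ^ k j) S).symm.trans
        (c.cs.cl_zero.2 (h.mono fun i e => (Finset.sum_apply _ _ _).trans e)))
    rw [Polynomial.aeval_monomial, map_mul, map_pow]
    rfl

/-- functions which are bounded together with a transcendence basis are limits -/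
theorem lim_bnd (hb : HB) (fi : FIN) {y : Fin n → L} (hy : AlgebraicIndependent ℂ y) {e : ℕ} {V : ℝ}
    (h : ∀ᶠ i in U, Bnd n e V ((range fun a => D.r i (y a)) ∪ {z i})) :
    ∃ f, ∀ᶠ i in U, D.r i f = z i :=
  (D.mem_of_alg hy (alg_of_bnd hb fi c D.ffi (y := fun a i => D.r i (y a)) (D.ind hy) h)).imp
    fun _ e => c.cs.cl_eq.1 e

/-- generators come from generators -/
theorem top_of [Finite σ] {x : σ → L} (h : ∀ᶠ i in U, adjoin ℂ (range fun a => D.r i (x a)) = ⊤) :
    adjoin ℂ (range x) = ⊤ := by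
  obtain ⟨j, hj⟩ := Ultrafilter.eventually_exists_iff.1 (h.mono fun i a => exists_sub (D.ffi i) a)
  have a := fun f => D.rho_alg ((D.ff.basis (D.ind_of hj)).isAlgebraic_field.isAlgebraic f)
  refine eq_top_iff.2 fun f _ => ?_
  have m : D.rho f ∈ (adjoin (adjoin ℂ (range fun k => D.rho (x (j k))))
      (range fun a => D.rho (x a))).restrictScalars ℂ :=
    c.cs.alg_mem (y := fun k i => D.r i (x (j k))) (x := fun a i => D.r i (x a)) hj h
      (fun _ => a _) (a f)
  rw [IntermediateField.restrictScalars_adjoin] at m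
  have l : D.rho f ∈ (adjoin ℂ (range x)).map D.rho := by
    rw [IntermediateField.adjoin_map, ← range_comp]
    exact IntermediateField.adjoin_le_iff.2 (union_subset (IntermediateField.adjoin.mono _ _
      (range (D.rho ∘ x)) (range_subset_iff.2 fun k => ⟨j k, rfl⟩)) (IntermediateField.subset_adjoin _ _)) m
  obtain ⟨g, g1, g2⟩ := l
  exact D.rho.injective g2 ▸ g1

open Classical in
/-- **SEC**: sections of a fixed combination of systems are limits -/
theorem lim_cmb (hb : HB) (fi : FIN)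
    (hv : ∀ s : Finset L, ∃ V : ℝ, ∀ᶠ i in U, vol n (mx (s.image (D.r i))) ≤ V)
    (l : Finset L →₀ ℝ) (h : ∀ᶠ i in U, Sec (l.sum fun s a => a • mx (s.image (D.r i))) (z i)) :
    ∃ f, ∀ᶠ i in U, D.r i f = z i := by
  obtain ⟨y, hy, -⟩ := D.ff
  let T := l.support.biUnion id
  let W := insert 1 (Finset.univ.image y ∪ (T ∪ T.image (·⁻¹)))
  obtain ⟨V, hV⟩ := hv W
  obtain ⟨e, he⟩ := exists_nat_ge (1 + ∑ s ∈ l.support, |l s|)
  have p := Finset.sum_nonneg fun s (_ : s ∈ l.support) => abs_nonneg (l s)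
  refine D.lim_bnd hb fi hy (e := e) (V := V) ?_
  filter_upwards [h, hV, D.one, D.basis (D.ff.basis hy),
    (eventually_all_finset T).2 fun f _ => D.inv f] with i h1 h2 h3 h4 h5
  have w1 : 1 ∈ W.image (D.r i) := h3 ▸ Finset.mem_image_of_mem _ (Finset.mem_insert_self _ _)
  have w2 : ∀ a, D.r i (y a) ∈ W.image (D.r i) := fun a => Finset.mem_image_of_mem _ (by simp [W])
  have w0 := mx_nonneg w1
  have le : ∀ a : ℝ, a ≤ e → a • mx (W.image (D.r i)) ≤ (e : ℝ) • mx (W.image (D.r i)) :=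
    fun a k => smul_le_smul_of_nonneg_right k w0
  refine ⟨_, 1, big_of_basis h4 w1 w2, h2, one_ne_zero,
    sec_one.2 (smul_nonneg (Nat.cast_nonneg e) w0), ?_⟩
  rintro _ (⟨a, rfl⟩ | rfl) <;> rw [mul_one]
  · exact (sec_of_mem (w2 a)).mono ((one_smul ℝ _).ge.trans (le 1 (by linarith)))
  · refine h1.mono (le_trans ?_ (le (∑ s ∈ l.support, |l s|) (by linarith)))
    rw [Finset.sum_smul]
    refine Finset.sum_le_sum fun s hs => smul_mx_le w1 (fun f hf => ?_) _
    obtain ⟨f, hf', rfl⟩ := Finset.mem_image.1 hf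
    have t : f ∈ T := Finset.mem_biUnion.2 ⟨s, hs, hf'⟩
    exact ⟨Finset.mem_image_of_mem _ (by simp [W, t]),
      h5 f t ▸ Finset.mem_image_of_mem _ (Finset.mem_insert_of_mem (Finset.mem_union_right _
        (Finset.mem_union_right _ (Finset.mem_image_of_mem _ t))))⟩

end Lm

end Vale.Agent.P283B.U
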