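import Vale.Agent.P283B.U.Lm
import Vale.Agent.P287D.Va.Bas

/-!
# P283B, block U: the places of a limit field come from places of most factors
-/

set_option linter.unusedSectionVars false

open Set Filter MvPolynomial
open Vale.Agent.P297Z

noncomputable section

namespace Vale.Agent.P283B.U

open P287D P010MQ
open Cq (π)

section one

variable {K : Type} [Field K] [Algebra ℂ K] {n : ℕ} {P Q : Pl K} {A : Subalgebra ℂ K} {t f : K}

/-- `P` is the place of the prime element `t` of `A` -/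
structure Cht (P : Pl K) (A : Subalgebra ℂ K) (t : K) : Prop where
  sub : ∀ a ∈ A, a ∈ P.ring
  mem : t ∈ A
  ord : P.ord t = 1
  top : IntermediateField.adjoin ℂ (A : Set K) = ⊤
  dvd : ∀ a ∈ A, 0 < P.ord a → a / t ∈ A

theorem frac_of_top (h : IntermediateField.adjoin ℂ (A : Set K) = ⊤) (f : K) :
    ∃ a ∈ A, ∃ b ∈ A, b ≠ 0 ∧ f = a / b := by
  obtain ⟨a, ha, b, hb, rfl⟩ := IntermediateField.mem_adjoin_iff_div.1
    (show f ∈ IntermediateField.adjoin ℂ (A : Set K) from h ▸ trivial)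
  rw [Algebra.adjoin_eq] at ha hb
  by_cases b0 : b = 0
  · exact ⟨0, zero_mem _, 1, one_mem _, one_ne_zero, by simp [b0]⟩
  · exact ⟨a, ha, b, hb, b0, rfl⟩

theorem ne_of_ord (h : P.ord t ≠ 0) : t ≠ 0 := fun e => h (by simp [e])

/-- division by the prime element -/
theorem strip (sub : ∀ a ∈ A, a ∈ P.ring) (ht : 0 < P.ord t)
    (dvd : ∀ a ∈ A, 0 < P.ord a → a / t ∈ A) {a : K} (ha : a ∈ A) (a0 : a ≠ 0) :
    ∃ (k : ℕ) (b : K), b ∈ A ∧ b ≠ 0 ∧ P.ord b = 0 ∧ a = t ^ k * b := by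
  have t0 := ne_of_ord ht.ne'
  obtain ⟨m, hm⟩ := Int.eq_ofNat_of_zero_le (Pl.ord_nonneg_of_mem _ (sub a ha))
  induction m using Nat.strong_induction_on generalizing a with
  | _ m ih =>
    by_cases h : 0 < P.ord a
    · have h1 := dvd a ha h
      have h2 := div_ne_zero a0 t0
      obtain ⟨k, hk⟩ := Int.eq_ofNat_of_zero_le (Pl.ord_nonneg_of_mem _ (sub _ h1))
      obtain ⟨j, b, h3, h4, h5, h6⟩ := ih k (by
        rw [Pl.ord_div _ a0 t0] at hk
        omega) h1 h2 hk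
      exact ⟨j + 1, b, h3, h4, h5, by rw [pow_succ', mul_assoc, ← h6, mul_div_cancel₀ _ t0]⟩
    · exact ⟨0, a, ha, a0, by omega, by simp⟩

theorem Cht.ne (h : Cht P A t) : t ≠ 0 := ne_of_ord (by rw [h.ord]; exact one_ne_zero)

theorem Cht.rep (h : Cht P A t) (f0 : f ≠ 0) : ∃ a ∈ A, ∃ b ∈ A, a ≠ 0 ∧ b ≠ 0 ∧ P.ord a = 0 ∧
    P.ord b = 0 ∧ f = t ^ P.ord f * (a / b) := by
  obtain ⟨a, ha, b, hb, b0, rfl⟩ := frac_of_top h.top f
  have a0 : a ≠ 0 := fun e => f0 (by simp [e])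
  have ht : 0 < P.ord t := by rw [h.ord]; exact one_pos
  obtain ⟨k, a', h1, h2, h3, rfl⟩ := strip h.sub ht h.dvd ha a0
  obtain ⟨j, b', k1, k2, k3, rfl⟩ := strip h.sub ht h.dvd hb b0
  refine ⟨a', h1, b', k1, h2, k2, h3, k3, ?_⟩
  have t0 := h.ne
  rw [Pl.ord_div _ a0 b0, Pl.ord_mul _ (pow_ne_zero _ t0) h2, Pl.ord_mul _ (pow_ne_zero _ t0) k2,
    Pl.ord_pow, Pl.ord_pow, h.ord, h3, k3]
  simp only [mul_one, add_zero, zpow_sub₀ t0, zpow_natCast]
  field_simp

theorem Cht.loc (h : Cht P A t) (hf : f ∈ P.ring) :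
    ∃ a ∈ A, ∃ b ∈ A, b ≠ 0 ∧ P.ord b = 0 ∧ f = a / b := by
  by_cases f0 : f = 0
  · exact ⟨0, zero_mem _, 1, one_mem _, one_ne_zero, by simp, by simp [f0]⟩
  obtain ⟨a, ha, b, hb, -, b0, -, h1, e⟩ := h.rep f0
  obtain ⟨k, hk⟩ := Int.eq_ofNat_of_zero_le (Pl.ord_nonneg_of_mem _ hf)
  refine ⟨t ^ k * a, mul_mem (pow_mem h.mem k) ha, b, hb, b0, h1, ?_⟩
  rw [e, hk, zpow_natCast, mul_div_assoc]

/-- a place is determined by its centre on a chart -/
theorem Cht.eq (h : Cht P A t) (hQ : ∀ a ∈ A, a ∈ Q.ring)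
    (h0 : ∀ a ∈ A, a ≠ 0 → P.ord a = 0 → Q.ord a = 0) : P = Q := by
  refine Pl.ext' (congrArg _ (Pl.eq_of_le' fun f hf => ?_))
  obtain ⟨a, ha, b, hb, b0, h1, rfl⟩ := h.loc hf
  rw [div_eq_mul_inv]
  exact mul_mem (hQ a ha) ((Pl.ord_eq_zero_iff _ b0).1 (h0 b hb b0 h1)).2

theorem Cht.eq_of_ind (h : Cht P A t) (hK : FF K (n + 1)) (hQ : ∀ a ∈ A, a ∈ Q.ring)
    (ht : 0 < Q.ord t) {ι : Type} {y : ι → K} (hy : ∀ j, y j ∈ A)
    (hi : AlgebraicIndependent ℂ fun j => Q.rd (y j)) (e : (n : Cardinal) ≤ Cardinal.mk ι) :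
    P = Q := by
  refine h.eq hQ fun a ha a0 h0 => le_antisymm (not_lt.1 fun z => ?_)
    (Pl.ord_nonneg_of_mem _ (hQ a ha))
  have k1 := On.img_lt hQ h.sub (fun b hb w => by
    have b0 := ne_of_ord w.ne'
    have := Pl.ord_nonneg_of_mem _ (hQ _ (h.dvd b hb w))
    rw [Pl.ord_div _ b0 h.ne] at this
    omega) ha z (by omega)
  let z : ι → On.img Q A := fun j => ⟨_, On.mem_img Q (hy j)⟩
  have k0 : AlgebraicIndependent ℂ z := AlgebraicIndependent.of_comp (On.img Q A).val hi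
  have k2 : Cardinal.mk ι ≤ Algebra.trdeg ℂ (On.img Q A) := k0.cardinalMk_le_trdeg
  have k3 : Algebra.trdeg ℂ (On.img P A) ≤ n :=
    (trdeg_le_of_injective (On.img P A).val Subtype.val_injective).trans (Gm.trdeg_κ P hK).le
  have k4 := (add_le_add_left (e.trans k2) 1).trans (k1.trans k3)
  norm_cast at k4
  omega

theorem Cht.img (h : Cht P A t) : On.img P A = ⊤ := by
  refine eq_top_iff.2 fun z _ => ?_
  obtain ⟨⟨f, hf⟩, rfl⟩ := Gm.rdA_surj P z
  obtain ⟨a, ha, b, hb, b0, h1, rfl⟩ := h.loc hf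
  rw [← On.rd_eq P hf, On.rd_div P (h.sub a ha) (h.sub b hb) ((Pl.ord_eq_zero_iff _ b0).1 h1).2]
  exact div_mem (On.mem_img P ha) (On.mem_img P hb)

theorem rd_alg {S : Set K} (h : ∀ a ∈ S, a ∈ P.ring) {a : K} (ha : a ∈ Algebra.adjoin ℂ S) :
    a ∈ P.ring ∧ P.rd a ∈ Algebra.adjoin ℂ (P.rd '' S) := by
  induction ha using Algebra.adjoin_induction with
  | mem x hx => exact ⟨h x hx, Algebra.subset_adjoin ⟨x, hx, rfl⟩⟩
  | algebraMap a =>
    refine ⟨P.con a, ?_⟩
    rw [On.rd_eq P (P.con a), Gm.rdA_const]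
    exact algebraMap_mem _ a
  | add x y _ _ hx hy => exact ⟨add_mem hx.1 hy.1, On.rd_add P hx.1 hy.1 ▸ add_mem hx.2 hy.2⟩
  | mul x y _ _ hx hy => exact ⟨mul_mem hx.1 hy.1, On.rd_mul P hx.1 hy.1 ▸ mul_mem hx.2 hy.2⟩

theorem Cht.gen {S : Set K} (h : Cht P (Algebra.adjoin ℂ S) t) :
    IntermediateField.adjoin ℂ (P.rd '' S) = ⊤ := by
  refine eq_top_iff.2 (h.img ▸ IntermediateField.adjoin_le_iff.2 ?_)
  rintro _ ⟨a, ha, rfl⟩
  exact IntermediateField.algebra_adjoin_le_adjoin _ _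
    (rd_alg (fun a z => h.sub a (Algebra.subset_adjoin z)) ha).2

/-- the place of a prime element -/
theorem exists_cht_of_prime (hK : FF K (n + 1)) (hA : A.FG)
    (top : IntermediateField.adjoin ℂ (A : Set K) = ⊤) (ht : t ∈ A) (t0 : t ≠ 0)
    (hp : (Ideal.span {(⟨t, ht⟩ : A)}).IsPrime) : ∃ P : Pl K, Cht P A t := by
  have ha : Algebra.IsAlgebraic A K := ⟨fun f => by
    obtain ⟨a, ha, b, hb, b0, rfl⟩ := frac_of_top top f
    refine IsAlgebraic.of_smul (y := (⟨b, hb⟩ : A))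
      (mem_nonZeroDivisors_of_ne_zero fun e => b0 (congrArg Subtype.val e)) ?_
    rw [show (⟨b, hb⟩ : A) • (a / b) = b * (a / b) from rfl, mul_div_cancel₀ _ b0]
    exact isAlgebraic_algebraMap (⟨a, ha⟩ : A)⟩
  obtain ⟨P, h1, h2, h3⟩ := On.div_alg hK hA ha ht t0 fun z => hp.ne_top
    (Ideal.span_singleton_eq_top.2 (.of_mul_eq_one ⟨_, z⟩ (Subtype.ext (mul_inv_cancel₀ t0))))
  have hle : Ideal.span {(⟨t, ht⟩ : A)} ≤ RingHom.ker (On.rh P A h1) :=
    (Ideal.span_singleton_le_iff_mem _).2 ((On.mem_ker P h1 _).2 (Or.inr h2))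
  have dvd : ∀ a ∈ A, 0 < P.ord a → a / t ∈ A := fun a z w => by
    by_contra e
    have := (Ideal.Quotient.isDomain_iff_prime _).2 (RingHom.ker_isPrime (On.rh P A h1))
    have k1 := On.trdeg_lt (Ideal.Quotient.mkₐ ℂ (Ideal.span {(⟨t, ht⟩ : A)}))
      (Ideal.Quotient.mkₐ_surjective _ _) (b := ⟨t, ht⟩) (fun e => t0 (congrArg Subtype.val e))
      (Ideal.Quotient.eq_zero_iff_mem.2 (Ideal.mem_span_singleton_self _))
    have k2 := On.trdeg_lt (Ideal.Quotient.factorₐ ℂ hle) (Ideal.Quotient.factor_surjective hle)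
      (b := Ideal.Quotient.mk _ ⟨a, z⟩) (fun e' => e (by
        obtain ⟨c, hc⟩ := Ideal.mem_span_singleton.1 (Ideal.Quotient.eq_zero_iff_mem.1 e')
        rw [show a = t * c from congrArg Subtype.val hc, mul_div_cancel_left₀ _ t0]
        exact c.2))
      (Ideal.Quotient.eq_zero_iff_mem.2 ((On.mem_ker P h1 _).2 (Or.inr w)))
    have k3 : Algebra.trdeg ℂ (On.img P A) = n := by
      rw [← Gm.trdeg_κ P hK, ← trdeg_add_eq ℂ (On.img P A) (A := P.κ),
        trdeg_eq_zero (R := On.img P A), add_zero]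
    have k4 : Algebra.trdeg ℂ A ≤ (n + 1 : ℕ) :=
      hK.trdeg ▸ trdeg_le_of_injective A.val Subtype.val_injective
    rw [← On.trdeg_img P h1, k3] at k2
    have k5 := (add_le_add_left k2 1).trans (k1.trans k4)
    norm_cast at k5
    omega
  refine ⟨P, h1, ht, ?_, top, dvd⟩
  obtain ⟨a, ha, b, hb, b0, e⟩ := frac_of_top top P.t
  have a0 : a ≠ 0 := fun z => P.t_ne (by simp [e, z])
  obtain ⟨k, a', -, k2, k3, rfl⟩ := strip h1 h2 dvd ha a0
  obtain ⟨j, b', -, j2, j3, rfl⟩ := strip h1 h2 dvd hb b0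
  have := P.ord_t
  rw [e, Pl.ord_div _ a0 b0, Pl.ord_mul _ (pow_ne_zero _ t0) k2, Pl.ord_mul _ (pow_ne_zero _ t0) j2,
    Pl.ord_pow, Pl.ord_pow, k3, j3, add_zero, add_zero, ← sub_mul] at this
  exact Int.eq_one_of_mul_eq_one_left h2.le this

/-- clearing denominators in an integral equation -/
theorem clear_int {S : Type} [CommRing S] [Algebra S K] {B R : Subalgebra ℂ K} (h : R ≤ B)
    (hS : ∀ s, algebraMap S K s ∈ On.frc B R h) {x : K} (hx : IsIntegral S x) :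
    ∃ d ∈ R, d ≠ 0 ∧ IsIntegral B (d * x) := by
  obtain ⟨p, hm, hp⟩ := hx
  choose d hd d0 hdb using fun j => hS (p.coeff j)
  refine ⟨∏ j ∈ Finset.range p.natDegree, d j, prod_mem fun j _ => hd j,
    Finset.prod_ne_zero_iff.2 fun j _ => d0 j, ?_⟩
  set e := ∏ j ∈ Finset.range p.natDegree, d j with he
  have h1 := (Polynomial.monic_scaleRoots_iff e).2 (hm.map (algebraMap S K))
  obtain ⟨q, hq, -, h2⟩ := Polynomial.lifts_and_natDegree_eq_and_monic (f := algebraMap B K)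
    (p := (p.map (algebraMap S K)).scaleRoots e) (by
      refine (Polynomial.lifts_iff_coeff_lifts _).2 fun j => ?_
      rw [Polynomial.coeff_scaleRoots, hm.natDegree_map, Polynomial.coeff_map]
      rcases lt_trichotomy j p.natDegree with k | rfl | k
      · obtain ⟨m, hm⟩ := Nat.exists_eq_add_of_lt k
        refine ⟨⟨_, show algebraMap S K (p.coeff j) * e ^ (p.natDegree - j) ∈ B from ?_⟩, rfl⟩
        rw [show p.natDegree - j = m + 1 by omega, pow_succ', he,
          ← Finset.mul_prod_erase _ _ (Finset.mem_range.2 k), ← mul_assoc, ← mul_assoc,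
          mul_comm _ (d j)]
        exact mul_mem (mul_mem (hdb j) (prod_mem fun j _ => h (hd j))) (pow_mem (mul_mem
          (h (hd j)) (prod_mem fun j _ => h (hd j))) m)
      · exact ⟨1, by simp [hm.coeff_natDegree]⟩
      · exact ⟨0, by simp [Polynomial.coeff_eq_zero_of_natDegree_lt k]⟩) h1
  refine ⟨q, h2, ?_⟩
  rw [← Polynomial.eval_map, hq]
  have := Polynomial.scaleRoots_eval₂_eq_zero (p := p.map (algebraMap S K)) (RingHom.id K)
    (r := x) (s := e) (by rwa [Polynomial.eval₂_map, RingHom.id_comp])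
  exact this

/-- every place has a chart which contains a given finite set -/
theorem exists_cht (hK : FF K (n + 1)) (P : Pl K) (ht : P.ord t = 1) {S : Set K} (hS : S.Finite)
    (hP : ∀ a ∈ S, a ∈ P.ring) : ∃ (m : ℕ) (x : Fin m → K), S ⊆ range x ∧
      Cht P (Algebra.adjoin ℂ (range x)) t := by
  classical
  have t0 : t ≠ 0 := ne_of_ord (by rw [ht]; exact one_ne_zero)
  have tm : t ∈ P.ring := (Pl.ord_nonneg_iff _ t0).1 (by rw [ht]; exact zero_le_one)
  obtain ⟨y', hy⟩ := Gm.exists_basis ℂ P.κ (Gm.trdeg_κ P hK)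
  choose y hy' using fun j => Gm.rdA_surj P (y' j)
  obtain rfl : y' = fun j => Gm.rdA P (y j) := (funext hy').symm
  have k1 : IsTranscendenceBasis ℂ (Fin.cons P.t fun j => (y j : K) : Fin (n + 1) → K) :=
    (Gm.ind_cons P y hy.1).isTranscendenceBasis_of_trdeg_le_of_finite (by simp [hK.trdeg])
  have hE := On.trdeg_one k1 0
  rw [show (Fin.cons P.t fun j => (y j : K) : Fin (n + 1) → K) '' {0}ᶜ = range fun j => (y j : K) by
    ext z
    refine ⟨fun ⟨j, h, e⟩ => ?_, fun ⟨j, e⟩ => ⟨j.succ, j.succ_ne_zero, e⟩⟩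
    obtain ⟨j, rfl⟩ := Fin.exists_succ_eq.2 h
    exact ⟨j, e⟩] at hE
  set R := Algebra.adjoin ℂ (range fun j => (y j : K)) with hR
  have k2 : ∀ d ∈ R, d ∈ P.ring ∧ (d ≠ 0 → P.ord d = 0) := fun d hd => by
    rw [hR, Algebra.adjoin_range_eq_range_aeval] at hd
    obtain ⟨p, rfl⟩ := hd
    let ψ : MvPolynomial (Fin n) ℂ →+* P.ring := eval₂Hom (Gm.cR P) y
    have e1 : ((ψ p : P.ring) : K) = aeval (fun j => (y j : K)) p :=
      DFunLike.congr_fun (show P.ring.subtype.comp ψ = (aeval fun j => (y j : K)).toRingHom from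
        MvPolynomial.ringHom_ext (fun a => by simp [ψ, Gm.cR]) fun j => by simp [ψ]) p
    have e2 : Gm.rdA P (ψ p) = aeval (fun j => Gm.rdA P (y j)) p :=
      DFunLike.congr_fun (show (Gm.rdA P).comp ψ = (aeval fun j => Gm.rdA P (y j)).toRingHom from
        MvPolynomial.ringHom_ext (fun a => by
          simp only [ψ, RingHom.comp_apply, coe_eval₂Hom, eval₂_C]
          exact (Gm.rdA_const P a).trans (aeval_C _ a).symm)
          fun j => by simp [ψ]) p
    change aeval _ p ∈ _ ∧ (aeval _ p ≠ 0 → P.ord (aeval _ p) = 0)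
    rw [← e1]
    refine ⟨(ψ p).2, fun d0 => le_antisymm (not_lt.1 fun z => d0 ?_)
      (Pl.ord_nonneg_of_mem _ (ψ p).2)⟩
    have := (On.rd_zero_iff P (ψ p).2).2 (Or.inr z)
    rw [On.rd_eq P (ψ p).2, e2] at this
    rw [algebraicIndependent_iff.1 hy.1 p this, map_zero]
    rfl
  set E := IntermediateField.adjoin ℂ (range fun j => (y j : K))
  have hw : ∀ Q : Pl K, ∃ w ∈ P.ring, Q ≠ P → w ∉ Q.ring := fun Q => by
    by_contra e
    push Not at e
    exact (e 0 (zero_mem _)).1 (P287D.Pl.ext' (congrArg _ (Pl.eq_of_le' fun w z => (e w z).2))).symm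
  choose w w1 w2 using hw
  have := hK.ess
  obtain ⟨z, hz⟩ := IntermediateField.fg_top ℂ K
  let z' : K → K := fun a => if a ∈ P.ring then a else a⁻¹
  let T : Set K := (range fun j => (y j : K)) ∪ (insert t S ∪
    (w '' {Q | Hor E Q ∧ Q.ord t ≠ 0} ∪ z' '' z))
  have hT : T.Finite := (finite_range _).union ((hS.insert t).union
    (((On.hor_fin hK hE t).image w).union (z.finite_toSet.image z')))
  have hB : ∀ a ∈ Algebra.adjoin ℂ T, a ∈ P.ring := fun a ha => (rd_alg (by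
    rintro _ (⟨j, rfl⟩ | (rfl | h) | ⟨Q, -, rfl⟩ | ⟨a, -, rfl⟩)
    exacts [(y j).2, tm, hP _ h, w1 Q, by
      by_cases e : a ∈ P.ring
      · simp [z', e]
      · simpa [z', e] using (P.ring.mem_or_inv_mem a).resolve_left e]) ha).1
  set B := Algebra.adjoin ℂ T
  let A₀ : Subalgebra ℂ K := (integralClosure B K).restrictScalars ℂ
  have hle : B ≤ A₀ := fun a z => isIntegral_algebraMap (x := (⟨a, z⟩ : B))
  have hRB : R ≤ B := Algebra.adjoin_mono subset_union_left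
  have hA₀ : A₀.FG := On.fg_of_int hK (Subalgebra.fg_def.2 ⟨T, hT, rfl⟩) hle fun _ z => z
  have hP₀ : ∀ a ∈ A₀, a ∈ P.ring := fun a ha => by
    by_contra e
    let : Algebra B P.ring := (B.val.toRingHom.codRestrict P.ring fun a => hB a a.2).toAlgebra
    have : IsScalarTower B P.ring K := IsScalarTower.of_algebraMap_eq fun _ => rfl
    obtain ⟨c, hc⟩ := IsIntegrallyClosed.isIntegral_iff.1
      (IsIntegral.tower_top (R := B) (A := P.ring) (show IsIntegral B a from ha))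
    exact e (hc ▸ c.2)
  have k3 : ∀ a ∈ A₀, a = 0 ∨ 0 < P.ord a → ∃ d ∈ R, d ≠ 0 ∧ d * (a / t) ∈ A₀ := fun a ha h => by
    by_cases a0 : a = 0
    · exact ⟨1, one_mem _, one_ne_zero, by simp [a0]⟩
    have h := h.resolve_left a0
    refine clear_int (S := Algebra.adjoin E T) hRB (fun s => ?_) ?_
    · obtain ⟨s, hs⟩ := s
      change s ∈ _
      induction hs using Algebra.adjoin_induction with
      | mem x hx => exact ⟨1, one_mem _, one_ne_zero, by
          rw [one_mul]; exact Algebra.subset_adjoin hx⟩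
      | algebraMap a =>
        obtain ⟨r, hr, s, hs, e⟩ := IntermediateField.mem_adjoin_iff_div.1 a.2
        by_cases s0 : s = 0
        · rw [show algebraMap E K a = 0 from e.trans (by simp [s0])]
          exact zero_mem _
        · refine ⟨s, hs, s0, ?_⟩
          rw [show algebraMap E K a = r / s from e, mul_div_cancel₀ _ s0]
          exact hRB hr
      | add x y _ _ hx hy => exact add_mem hx hy
      | mul x y _ _ hx hy => exact mul_mem hx hy
    · by_contra e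
      obtain ⟨Q, h1, h2⟩ := On.val hK (k := E) (Subalgebra.fg_def.2 ⟨T, hT, rfl⟩) e
      have h3 : ∀ a ∈ T, a ∈ Q.ring := fun a z => h1 a (Algebra.subset_adjoin z)
      have h4 : Hor E Q := fun a z => h1 a ((Algebra.adjoin E T).algebraMap_mem ⟨a, z⟩)
      have h5 : a ∈ Q.ring := by
        by_contra e
        let : Algebra B Q.ring :=
          (B.val.toRingHom.codRestrict Q.ring fun a => (rd_alg h3 a.2).1).toAlgebra
        have : IsScalarTower B Q.ring K := IsScalarTower.of_algebraMap_eq fun _ => rfl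
        obtain ⟨c, hc⟩ := IsIntegrallyClosed.isIntegral_iff.1
          (IsIntegral.tower_top (R := B) (A := Q.ring) (show IsIntegral B a from ha))
        exact e (hc ▸ c.2)
      refine h2 ((Pl.ord_nonneg_iff _ (div_ne_zero a0 t0)).1 ?_)
      rw [Pl.ord_div _ a0 t0]
      by_cases e1 : Q.ord t = 0
      · have := Pl.ord_nonneg_of_mem _ h5
        omega
      · obtain rfl : Q = P := by_contra fun e2 =>
          w2 Q e2 (h3 _ (Or.inr (Or.inr (Or.inl ⟨Q, ⟨h4, e1⟩, rfl⟩))))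
        omega
  have : Algebra.FiniteType ℂ A₀ := (Subalgebra.fg_iff_finiteType _).1 hA₀
  have : IsNoetherianRing A₀ := Algebra.FiniteType.isNoetherianRing ℂ _
  obtain ⟨G, hG⟩ := IsNoetherian.noetherian (R := A₀) (RingHom.ker (On.rh P A₀ hP₀))
  choose d d1 d2 d3 using fun g : G => k3 g g.1.2
    ((On.mem_ker P hP₀ _).1 (hG ▸ Submodule.subset_span g.2))
  obtain ⟨T₀, hT₀, e₀⟩ := Subalgebra.fg_def.1 hA₀
  obtain ⟨m, x, hx⟩ := ((hT₀.union hT).union (finite_range fun g => (d g)⁻¹)).fin_param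
  have k4 : A₀ ≤ Algebra.adjoin ℂ (range x) :=
    e₀ ▸ Algebra.adjoin_mono (hx.2 ▸ subset_union_left.trans subset_union_left)
  have k5 : ∀ g, (d g)⁻¹ ∈ Algebra.adjoin ℂ (range x) := fun g =>
    Algebra.subset_adjoin (hx.2 ▸ Or.inr ⟨g, rfl⟩)
  have k6 : ∀ a ∈ Algebra.adjoin ℂ (range x), ∃ b ∈ A₀, ∃ u ∈ Algebra.adjoin ℂ (range x),
      u ≠ 0 ∧ P.ord u = 0 ∧ u⁻¹ ∈ A₀ ∧ a = b * u := fun a ha => by
    induction ha using Algebra.adjoin_induction with
    | mem a ha =>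
      rw [hx.2] at ha
      rcases ha with (ha | ha) | ⟨g, rfl⟩
      · exact ⟨a, e₀ ▸ Algebra.subset_adjoin ha, 1, one_mem _, one_ne_zero, by simp, by simp,
          by simp⟩
      · exact ⟨a, hle (Algebra.subset_adjoin ha), 1, one_mem _, one_ne_zero, by simp, by simp,
          by simp⟩
      · exact ⟨1, one_mem _, _, k5 g, inv_ne_zero (d2 g), by simp [(k2 _ (d1 g)).2 (d2 g)],
          by simpa using hle (hRB (d1 g)), by simp⟩
    | algebraMap a => exact ⟨_, algebraMap_mem _ a, 1, one_mem _, one_ne_zero, by simp, by simp,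
        by simp⟩
    | add a a' _ _ h h' =>
      obtain ⟨b, hb, u, hu, u0, u1, u2, rfl⟩ := h
      obtain ⟨b', hb', u', hu', u0', u1', u2', rfl⟩ := h'
      exact ⟨_, add_mem (mul_mem hb u2') (mul_mem hb' u2), _, mul_mem hu hu', mul_ne_zero u0 u0',
        by rw [Pl.ord_mul _ u0 u0', u1, u1', add_zero], by rw [mul_inv]; exact mul_mem u2 u2',
        by field_simp⟩
    | mul a a' _ _ h h' =>
      obtain ⟨b, hb, u, hu, u0, u1, u2, rfl⟩ := h
      obtain ⟨b', hb', u', hu', u0', u1', u2', rfl⟩ := h'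
      exact ⟨_, mul_mem hb hb', _, mul_mem hu hu', mul_ne_zero u0 u0',
        by rw [Pl.ord_mul _ u0 u0', u1, u1', add_zero], by rw [mul_inv]; exact mul_mem u2 u2',
        by ring⟩
  have k7 : T ⊆ range x := hx.2 ▸ subset_union_right.trans subset_union_left
  refine ⟨m, x, fun a ha => k7 (Or.inr (Or.inl (Or.inr ha))), fun a ha => ?_,
    Algebra.subset_adjoin (k7 (Or.inr (Or.inl (Or.inl rfl)))), ht, ?_, fun a ha h => ?_⟩
  · obtain ⟨b, hb, u, -, u0, u1, -, rfl⟩ := k6 a ha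
    exact mul_mem (hP₀ b hb) ((Pl.ord_eq_zero_iff _ u0).1 u1).1
  · refine eq_top_iff.2 (hz ▸ IntermediateField.adjoin_le_iff.2 fun a ha => ?_)
    have := IntermediateField.subset_adjoin ℂ (Algebra.adjoin ℂ (range x) : Set K)
      (Algebra.subset_adjoin (k7 (Or.inr (Or.inr (Or.inr ⟨a, ha, rfl⟩)))))
    by_cases e : a ∈ P.ring
    · simpa [z', e] using this
    · simpa [z', e] using this
  · obtain ⟨b, hb, u, hu, u0, u1, -, rfl⟩ := k6 a ha
    have b0 : b ≠ 0 := left_ne_zero_of_mul (ne_of_ord h.ne')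
    rw [Pl.ord_mul _ b0 u0, u1, add_zero] at h
    rw [mul_div_right_comm]
    refine mul_mem ?_ hu
    have h1 : (⟨b, hb⟩ : A₀) ∈ Submodule.span A₀ (G : Set A₀) :=
      hG ▸ (On.mem_ker P hP₀ _).2 (Or.inr h)
    have : ∀ c ∈ Submodule.span A₀ (G : Set A₀), (c : K) / t ∈ Algebra.adjoin ℂ (range x) := by
      intro c hc
      induction hc using Submodule.span_induction with
      | mem g hg =>
        have := mul_mem (k5 ⟨g, hg⟩) (k4 (d3 ⟨g, hg⟩))
        rwa [inv_mul_cancel_left₀ (d2 _)] at this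
      | zero => simp
      | add x y _ _ hx hy => simpa [add_div] using add_mem hx hy
      | smul a x _ hx => simpa [mul_div_assoc] using mul_mem (k4 a.2) hx
    exact this _ h1

theorem rd_unit (P : Pl K) {u : K} (u0 : u ≠ 0) (h : P.ord u = 0) : P.rd u ≠ 0 := fun e =>
  ((On.rd_zero_iff P ((Pl.ord_eq_zero_iff _ u0).1 h).1).1 e).elim u0 fun z => by omega

theorem rd_zpow (P : Pl K) {u : K} (u0 : u ≠ 0) (h : P.ord u = 0) (k : ℤ) :
    P.rd (u ^ k) = P.rd u ^ k := by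
  obtain ⟨h1, h2⟩ := (Pl.ord_eq_zero_iff _ u0).1 h
  have h3 : ∀ m : ℕ, P.rd (u ^ m) = P.rd u ^ m := fun m => by
    induction m with
    | zero => simpa using On.rd_one P
    | succ m ih => rw [pow_succ, On.rd_mul P (pow_mem h1 m) h1, ih, pow_succ]
  obtain ⟨m, rfl | rfl⟩ := k.eq_nat_or_neg
  · simpa using h3 m
  · rw [zpow_neg, zpow_neg, zpow_natCast, zpow_natCast, ← h3, ← one_div, ← one_div,
      On.rd_div P (one_mem _) (pow_mem h1 m) (inv_pow u m ▸ pow_mem h2 m), On.rd_one]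

end one

namespace Lm

variable {U : Ultrafilter ℕ} {c : Cq U} {n : ℕ} {K : ℕ → Type} [∀ i, Field (K i)]
  [∀ i, Algebra ℂ (K i)] {L : Type} [Field L] [Algebra ℂ L] (D : Lm c (n + 1) K L)
  {P Q : Pl L} {t f g : L}

/-- charts transfer -/
theorem cht_ev {σ : Type} [Finite σ] {x : σ → L} (h : Cht P (Algebra.adjoin ℂ (range x)) t) :
    ∃ R : ∀ i, Pl (K i),
      (∀ᶠ i in U, Cht (R i) (Algebra.adjoin ℂ (range fun j => D.r i (x j))) (D.r i t)) ∧
      ∀ f, f ≠ 0 → ∀ᶠ i in U, (R i).ord (D.r i f) = P.ord f := by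
  have ha : ∀ {a}, a ∈ Algebra.adjoin ℂ (range x) → ∃ p, MvPolynomial.aeval x
      (MvPolynomial.map c.q p) = a := fun ha => by
    rw [Algebra.adjoin_range_eq_range_aeval] at ha
    obtain ⟨p, rfl⟩ := ha
    obtain ⟨p, rfl⟩ := c.lift p
    exact ⟨p, rfl⟩
  have hm : ∀ p, MvPolynomial.aeval x p ∈ Algebra.adjoin ℂ (range x) := fun p => by
    rw [Algebra.adjoin_range_eq_range_aeval]
    exact ⟨p, rfl⟩
  obtain ⟨m, H, hH⟩ := c.exists_gen (RingHom.ker (MvPolynomial.aeval x : _ →ₐ[ℂ] L))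
  obtain ⟨T, hT⟩ := ha h.mem
  let F : Option (Fin m) → MvPolynomial σ (ℕ → ℂ) := fun o => o.elim T H
  have hJ : ∀ p, p ∈ Ideal.span (range fun o => MvPolynomial.map c.q (F o)) ↔
      MvPolynomial.aeval x p = 0 ∨ 0 < P.ord (MvPolynomial.aeval x p) := fun p => by
    rw [← On.nu_iff]
    refine ⟨fun hp => ?_, fun hp => ?_⟩
    · induction hp using Submodule.span_induction with
      | mem p hp =>
        obtain ⟨_ | j, rfl⟩ := hp
        · exact (On.nu_iff P).2 (Or.inr (by simp [F, hT, h.ord]))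
        · exact (On.nu_iff P).2 (Or.inl (RingHom.mem_ker.1 (hH ▸ Ideal.subset_span ⟨j, rfl⟩)))
      | zero => simp
      | add x y _ _ hx hy => rw [map_add]; exact add_mem hx hy
      | smul a p _ hp =>
        rw [smul_eq_mul, map_mul, On.nu_iff]
        by_cases e : MvPolynomial.aeval x a * MvPolynomial.aeval x p = 0
        · exact Or.inl e
        · have := Pl.ord_nonneg_of_mem _ (h.sub _ (hm a))
          have := ((On.nu_iff P).1 hp).resolve_left (right_ne_zero_of_mul e)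
          rw [Pl.ord_mul _ (left_ne_zero_of_mul e) (right_ne_zero_of_mul e)]
          exact Or.inr (by omega)
    · obtain ⟨b, hb⟩ := ha (a := MvPolynomial.aeval x p / t) (((On.nu_iff P).1 hp).elim
        (fun e => by simp [e]) (h.dvd _ (hm p)))
      have e : p - MvPolynomial.map c.q b * MvPolynomial.map c.q T ∈
          Ideal.span (range fun j => MvPolynomial.map c.q (H j)) := by
        rw [← hH, RingHom.mem_ker, map_sub, map_mul, hb, hT, div_mul_cancel₀ _ h.ne, sub_self]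
      rw [← sub_add_cancel p (MvPolynomial.map c.q b * MvPolynomial.map c.q T)]
      exact add_mem (Ideal.span_mono (by rintro _ ⟨j, rfl⟩; exact ⟨some j, rfl⟩) e)
        (Ideal.mul_mem_left _ _ (Ideal.subset_span ⟨none, rfl⟩))
  have hp : (Ideal.span (range fun o => MvPolynomial.map c.q (F o))).IsPrime := by
    have e : Ideal.span (range fun o => MvPolynomial.map c.q (F o)) =
        RingHom.ker ((On.rh P _ h.sub).comp ((MvPolynomial.aeval x).codRestrict _ hm)) :=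
      Ideal.ext fun p => (hJ p).trans (On.mem_ker P h.sub ⟨_, hm p⟩).symm
    exact e ▸ RingHom.ker_isPrime _
  have k0 : ∀ᶠ i in U, ∃ R : Pl (K i),
      Cht R (Algebra.adjoin ℂ (range fun j => D.r i (x j))) (D.r i t) ∧ ∀ p,
        0 < R.ord (MvPolynomial.aeval (fun j => D.r i (x j)) p) →
          p ∈ Ideal.span (range fun o => MvPolynomial.map (π i) (F o)) := by
    have e : IntermediateField.adjoin ℂ (range x) = ⊤ := eq_top_iff.2 (h.top ▸
      IntermediateField.adjoin_le_iff.2 (IntermediateField.algebra_adjoin_le_adjoin _ _))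
    filter_upwards [c.prime_ev F hp, D.ker x H hH, D.aeval x T, D.top e, D.ne h.ne]
      with i k1 k2 k3 k4 k5
    rw [hT] at k3
    have km : ∀ p, MvPolynomial.aeval (fun j => D.r i (x j)) p ∈
        Algebra.adjoin ℂ (range fun j => D.r i (x j)) := fun p => by
      rw [Algebra.adjoin_range_eq_range_aeval]
      exact ⟨p, rfl⟩
    let φ := (MvPolynomial.aeval fun j => D.r i (x j)).codRestrict _ km
    have hφ : Function.Surjective φ := fun z => by
      have : (z : K i) ∈ (MvPolynomial.aeval fun j => D.r i (x j) : _ →ₐ[ℂ] K i).range :=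
        Algebra.adjoin_range_eq_range_aeval ℂ (fun j => D.r i (x j)) ▸ z.2
      obtain ⟨p, hp⟩ := this
      exact ⟨p, Subtype.ext hp⟩
    have k6 : RingHom.ker φ ≤ Ideal.span (range fun o => MvPolynomial.map (π i) (F o)) :=
      fun p hp => Ideal.span_mono (by rintro _ ⟨j, rfl⟩; exact ⟨some j, rfl⟩)
        (k2.le (RingHom.mem_ker.2 (congrArg Subtype.val hp)))
    have k7 : (Ideal.span (range fun o => MvPolynomial.map (π i) (F o))).map φ =
        Ideal.span {⟨D.r i t, k3 ▸ km _⟩} := by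
      rw [Ideal.map_span]
      refine le_antisymm (Ideal.span_le.2 ?_) (Ideal.span_mono ?_)
      · rintro _ ⟨_, ⟨_ | j, rfl⟩, rfl⟩
        · exact Ideal.subset_span (Subtype.ext k3.symm)
        · rw [show φ (MvPolynomial.map (π i) (F (some j))) = 0 from
            Subtype.ext (RingHom.mem_ker.1 (k2.ge (Ideal.subset_span ⟨j, rfl⟩)))]
          exact zero_mem _
      · rintro _ rfl
        exact ⟨_, ⟨none, rfl⟩, Subtype.ext k3.symm⟩
    obtain ⟨R, hR⟩ := exists_cht_of_prime (D.ffi i)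
      (Subalgebra.fg_def.2 ⟨_, finite_range _, rfl⟩) (eq_top_iff.2 (k4.ge.trans
        (IntermediateField.adjoin.mono _ _ _ (by
          rintro _ ⟨_, ⟨j, rfl⟩, rfl⟩; exact Algebra.subset_adjoin ⟨j, rfl⟩)))) (k3 ▸ km _) k5
      (k7 ▸ Ideal.map_isPrime_of_surjective hφ k6)
    refine ⟨R, hR, fun p hp => ?_⟩
    have : φ p ∈ (Ideal.span (range fun o => MvPolynomial.map (π i) (F o))).map φ := by
      rw [k7]
      exact Ideal.mem_span_singleton'.2 ⟨⟨_, hR.dvd _ (km p) hp⟩,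
        Subtype.ext (div_mul_cancel₀ _ k5)⟩
    rw [← Ideal.mem_comap, Ideal.comap_map_of_surjective _ hφ] at this
    exact sup_le le_rfl k6 this
  have : ∀ i, Nonempty (Pl (K i)) := fun i =>
    ⟨(On.exists_unit (D.ffi i) finite_empty).choose⟩
  obtain ⟨R, hR⟩ := Filter.skolem.1 k0
  have k1 : ∀ a ∈ Algebra.adjoin ℂ (range x), a ≠ 0 → P.ord a = 0 →
      ∀ᶠ i in U, (R i).ord (D.r i a) = 0 := fun a z a0 w => by
    obtain ⟨p, rfl⟩ := ha z
    filter_upwards [hR, D.aeval x p, c.prime_ev F hp, c.up.nzd_ev F p fun f hf =>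
      (hp.mem_or_mem hf).resolve_left fun e => ((hJ _).1 e).elim a0 fun e => e.ne' w]
      with i h1 h2 h3 h4
    rw [h2]
    refine le_antisymm (not_lt.1 fun e => h3.ne_top ((Ideal.eq_top_iff_one _).2 (h4 1 ?_)))
      (Pl.ord_nonneg_of_mem _ (h1.1.sub _ ?_))
    · rw [mul_one]
      exact h1.2 _ e
    · rw [Algebra.adjoin_range_eq_range_aeval]
      exact ⟨_, rfl⟩
  refine ⟨R, hR.mono fun i h => h.1, fun f f0 => ?_⟩
  obtain ⟨a, ha, b, hb, a0, b0, h1, h2, e⟩ := h.rep f0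
  filter_upwards [hR, k1 a ha a0 h1, k1 b hb b0 h2, D.ne a0, D.ne b0, D.ne h.ne,
    D.mul (t ^ P.ord f) (a / b), D.zpow t (P.ord f), D.div a b] with i h3 h4 h5 h6 h7 h8 h9 h10 h11
  rw [← e, h10, h11] at h9
  rw [h9, Pl.ord_mul _ (zpow_ne_zero _ h8) (div_ne_zero h6 h7), Pl.ord_div _ h6 h7, h4, h5,
    Pl.ord_zpow, h3.1.ord]
  simp

theorem exists_sp (P : Pl L) : ∃ R : ∀ i, Pl (K i), (∀ f, f ≠ 0 →
    ∀ᶠ i in U, (R i).ord (D.r i f) = P.ord f) ∧ ∃ (m : ℕ) (x : Fin m → L),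
      Cht P (Algebra.adjoin ℂ (range x)) P.t ∧
      ∀ᶠ i in U, Cht (R i) (Algebra.adjoin ℂ (range fun j => D.r i (x j))) (D.r i P.t) := by
  obtain ⟨m, x, -, h⟩ := exists_cht D.ff P P.ord_t finite_empty (by simp)
  exact (D.cht_ev h).imp fun R k => ⟨k.2, m, x, h, k.1⟩

/-- the specialisation of a place -/
def sp (P : Pl L) : ∀ i, Pl (K i) := (D.exists_sp P).choose

theorem ord_sp' (P : Pl L) (h : f ≠ 0) : ∀ᶠ i in U, (D.sp P i).ord (D.r i f) = P.ord f :=
  (D.exists_sp P).choose_spec.1 f h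

theorem ord_sp (P : Pl L) (f : L) : ∀ᶠ i in U, (D.sp P i).ord (D.r i f) = P.ord f := by
  by_cases h : f = 0
  · exact D.zero.mono fun i e => by simp [h, e]
  · exact D.ord_sp' P h

theorem mem_sp_iff (P : Pl L) (f : L) : ∀ᶠ i in U, (D.r i f ∈ (D.sp P i).ring ↔ f ∈ P.ring) := by
  by_cases h : f = 0
  · exact D.zero.mono fun i e => by simp [h, e]
  · filter_upwards [D.ord_sp P f, D.ne h] with i h1 h2
    rw [← Pl.ord_nonneg_iff _ h2, h1, Pl.ord_nonneg_iff _ h]

theorem mem_sp (h : f ∈ P.ring) : ∀ᶠ i in U, D.r i f ∈ (D.sp P i).ring :=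
  (D.mem_sp_iff P f).mono fun _ e => e.2 h

theorem sp_ne (h : P ≠ Q) : ∀ᶠ i in U, D.sp P i ≠ D.sp Q i := by
  obtain ⟨f, h1, h2⟩ : ∃ f ∈ P.ring, f ∉ Q.ring := by
    by_contra e
    push Not at e
    exact h (P287D.Pl.ext' (congrArg _ (Pl.eq_of_le' e)))
  filter_upwards [D.mem_sp h1, D.mem_sp_iff Q f] with i k1 k2 e
  exact h2 (k2.1 (e ▸ k1))

theorem sp_injOn {T : Set (Pl L)} (hT : T.Finite) : ∀ᶠ i in U, InjOn (fun P => D.sp P i) T := by
  refine ((eventually_all_finite hT).2 fun P _ => (eventually_all_finite hT).2 fun Q _ =>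
    show ∀ᶠ i in U, D.sp P i = D.sp Q i → P = Q from ?_).mono fun i h P hP Q hQ => h P hP Q hQ
  by_cases e : P = Q
  · exact .of_forall fun _ _ => e
  · exact (D.sp_ne e).mono fun _ h h' => (h h').elim

theorem rd_zero (h : f ∈ P.ring) (e : P.rd f = 0) :
    ∀ᶠ i in U, (D.sp P i).rd (D.r i f) = 0 := by
  filter_upwards [D.mem_sp h, D.ord_sp P f, D.zero_iff f] with i h1 h2 h3
  rw [On.rd_zero_iff _ h1, h2, h3]
  exact (On.rd_zero_iff _ h).1 e

theorem rd_congr (h : f ∈ P.ring) (h' : g ∈ P.ring) (e : P.rd f = P.rd g) :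
    ∀ᶠ i in U, (D.sp P i).rd (D.r i f) = (D.sp P i).rd (D.r i g) := by
  have e1 := On.rd_add P (sub_mem h h') h'
  rw [sub_add_cancel, e, eq_comm, add_eq_right] at e1
  filter_upwards [D.rd_zero (sub_mem h h') e1, D.mem_sp h, D.mem_sp h', D.sub f g]
    with i h1 h2 h3 h4
  have := On.rd_add _ (sub_mem h2 h3) h3
  rwa [sub_add_cancel, ← h4, h1, zero_add] at this

/-- a lift of a residue -/
def lf (P : Pl L) (z : P.κ) : P.ring := (Gm.rdA_surj P z).choose

theorem rd_lf (P : Pl L) (z : P.κ) : P.rd (lf P z) = z :=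
  (On.rd_eq P (lf P z).2).trans (Gm.rdA_surj P z).choose_spec

/-- the residue field of `P` is the limit of the residue fields of the specialisations -/
def rs (P : Pl L) : Lm c n (fun i => (D.sp P i).κ) P.κ where
  r i z := (D.sp P i).rd (D.r i (lf P z))
  ffi i := Gm.ff_κ _ (D.ffi i)
  ff := Gm.ff_κ _ D.ff
  add a b := by
    filter_upwards [D.rd_congr (lf P (a + b)).2 (add_mem (lf P a).2 (lf P b).2)
      (by rw [On.rd_add P (lf P a).2 (lf P b).2, rd_lf, rd_lf, rd_lf]), D.add (lf P a) (lf P b),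
      D.mem_sp (lf P a).2, D.mem_sp (lf P b).2] with i h1 h2 h3 h4
    rw [h1, h2, On.rd_add _ h3 h4]
  mul a b := by
    filter_upwards [D.rd_congr (lf P (a * b)).2 (mul_mem (lf P a).2 (lf P b).2)
      (by rw [On.rd_mul P (lf P a).2 (lf P b).2, rd_lf, rd_lf, rd_lf]), D.mul (lf P a) (lf P b),
      D.mem_sp (lf P a).2, D.mem_sp (lf P b).2] with i h1 h2 h3 h4
    rw [h1, h2, On.rd_mul _ h3 h4]
  cst w := by
    filter_upwards [D.rd_congr (lf P (algebraMap ℂ P.κ (c.q w))).2 (P.con (c.q w))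
      (by rw [rd_lf, On.rd_eq P (P.con _), Gm.rdA_const]), D.cst w] with i h1 h2
    rw [h1, h2, On.rd_eq _ ((D.sp P i).con _), Gm.rdA_const]
  gen := by
    classical
    obtain ⟨m, x, h1, h2⟩ := (D.exists_sp P).choose_spec.2
    refine ⟨Finset.univ.image fun j => P.rd (x j), ?_⟩
    filter_upwards [h2, eventually_all.2 fun j => D.rd_congr (lf P (P.rd (x j))).2
      (h1.sub _ (Algebra.subset_adjoin ⟨j, rfl⟩)) (rd_lf P _)] with i h3 h4
    refine eq_top_iff.2 (h3.gen ▸ IntermediateField.adjoin.mono _ _ _ ?_)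
    rintro _ ⟨_, ⟨j, rfl⟩, rfl⟩
    exact ⟨P.rd (x j), by simp, h4 j⟩

theorem rs_rd (P : Pl L) (f : L) :
    ∀ᶠ i in U, (D.rs P).r i (P.rd f) = (D.sp P i).rd (D.r i f) := by
  by_cases h : f ∈ P.ring
  · exact D.rd_congr (lf P _).2 h (rd_lf P _)
  · filter_upwards [D.mem_sp_iff P f, (D.rs P).zero] with i h1 h2
    rw [show P.rd f = 0 from dif_neg h, h2]
    exact (show (D.sp P i).rd (D.r i f) = 0 from dif_neg fun e => h (h1.1 e)).symm

/-- every chart of `P` gives charts of the specialisations -/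
theorem cht_sp {σ : Type} [Finite σ] {x : σ → L} (h : Cht P (Algebra.adjoin ℂ (range x)) t) :
    ∀ᶠ i in U, Cht (D.sp P i) (Algebra.adjoin ℂ (range fun j => D.r i (x j))) (D.r i t) := by
  obtain ⟨R, h1, -⟩ := D.cht_ev h
  have : Algebra.IsAlgebraic (Algebra.adjoin ℂ (P.rd '' range x)) P.κ := ⟨fun z =>
    IntermediateField.isAlgebraic_adjoin_iff.1 (isAlgebraic_algebraMap
      (⟨z, h.gen ▸ trivial⟩ : IntermediateField.adjoin ℂ (P.rd '' range x)))⟩
  obtain ⟨B, h2, h3⟩ := exists_isTranscendenceBasis_subset (R := ℂ) (P.rd '' range x)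
  choose j hj using fun b : B => show ∃ j, P.rd (x j) = b from by
    obtain ⟨_, ⟨j, rfl⟩, e⟩ := h2 b.2
    exact ⟨j, e⟩
  have e : Cardinal.mk B = n := h3.cardinalMk_eq_trdeg.trans (Gm.trdeg_κ P D.ff)
  have : Finite B := Cardinal.lt_aleph0_iff_finite.1 (e ▸ Cardinal.natCast_lt_aleph0)
  filter_upwards [h1, (D.rs P).ind h3.1, eventually_all.2 fun b => D.rs_rd P (x (j b)),
    eventually_all.2 fun a => D.mem_sp (h.sub _ (Algebra.subset_adjoin ⟨a, rfl⟩)), D.ord_sp P t]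
    with i k1 k2 k3 k4 k5
  rwa [← k1.eq_of_ind (D.ffi i) (fun a z => (rd_alg (range_subset_iff.2 k4) z).1)
    (by rw [k5, h.ord]; exact one_pos) (y := fun b => D.r i (x (j b)))
    (fun b => Algebra.subset_adjoin ⟨_, rfl⟩) (by simpa only [← k3, hj] using k2) e.ge]

/-- recognition of the specialisation -/
theorem eq_sp {R : ∀ i, Pl (K i)} (h : ∀ f ∈ P.ring, ∀ᶠ i in U, D.r i f ∈ (R i).ring)
    (ht : ∀ᶠ i in U, 0 < (R i).ord (D.r i P.t)) {y : Fin n → L} (hy : ∀ j, y j ∈ P.ring)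
    (hi : ∀ᶠ i in U, AlgebraicIndependent ℂ fun j => (R i).rd (D.r i (y j))) :
    ∀ᶠ i in U, R i = D.sp P i := by
  obtain ⟨m, x, h1, h2⟩ := exists_cht D.ff P P.ord_t (finite_range y) (range_subset_iff.2 hy)
  filter_upwards [D.cht_sp h2, ht, hi,
    eventually_all.2 fun a => h _ (h2.sub _ (Algebra.subset_adjoin ⟨a, rfl⟩))] with i k1 k2 k3 k4
  refine (k1.eq_of_ind (D.ffi i) (fun a z => (rd_alg (range_subset_iff.2 k4) z).1) k2
    (fun j => ?_) k3 (by simp)).symm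
  obtain ⟨a, e⟩ := h1 ⟨j, rfl⟩
  exact Algebra.subset_adjoin ⟨a, congrArg _ e⟩

open Classical in
theorem mz_sp (P : Pl L) (s : Finset L) :
    ∀ᶠ i in U, (D.sp P i).mz (s.image (D.r i)) = P.mz s := by
  filter_upwards [(eventually_all_finset s).2 fun f _ => (D.ord_sp P f).and (D.zero_iff f)] with i h
  refine congrArg sSup (Set.ext fun k => ⟨?_, ?_⟩)
  · rintro ⟨_, ⟨h1, h2⟩, rfl⟩
    obtain ⟨f, hf, rfl⟩ := Finset.mem_image.1 h1
    exact ⟨f, ⟨hf, fun e => h2 ((h f hf).2.2 e)⟩, congrArg _ (h f hf).1.symm⟩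
  · rintro ⟨f, ⟨hf, h2⟩, rfl⟩
    exact ⟨_, ⟨Finset.mem_image_of_mem _ hf, fun e => h2 ((h f hf).2.1 e)⟩, congrArg _ (h f hf).1⟩

/-- the unit which compares the two uniformizers -/
def un (P : Pl L) (i : ℕ) : (D.sp P i).κ := (D.sp P i).rd ((D.sp P i).t / D.r i P.t)

theorem ord_un (P : Pl L) : ∀ᶠ i in U, (D.sp P i).t / D.r i P.t ≠ 0 ∧
    (D.sp P i).ord ((D.sp P i).t / D.r i P.t) = 0 := by
  filter_upwards [D.ord_sp P P.t, D.ne P.t_ne] with i h1 h2
  exact ⟨div_ne_zero (Pl.t_ne _) h2, by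
    rw [Pl.ord_div _ (Pl.t_ne _) h2, h1, Pl.ord_t, Pl.ord_t, sub_self]⟩

theorem un_ne (P : Pl L) : ∀ᶠ i in U, D.un P i ≠ 0 :=
  (D.ord_un P).mono fun _ h => rd_unit _ h.1 h.2

theorem rd_mul_t (P : Pl L) {k : ℤ} (h : f * P.t ^ k ∈ P.ring) : ∀ᶠ i in U,
    (D.sp P i).rd (D.r i f * (D.sp P i).t ^ k) =
      (D.rs P).r i (P.rd (f * P.t ^ k)) * D.un P i ^ k := by
  filter_upwards [D.ord_un P, D.rs_rd P (f * P.t ^ k), D.mem_sp h, D.mul f (P.t ^ k),
    D.zpow P.t k, D.ne P.t_ne] with i h1 h2 h3 h4 h5 h6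
  rw [h2, un, ← rd_zpow _ h1.1 h1.2, ← On.rd_mul _ h3 ((Pl.ord_nonneg_iff _
    (zpow_ne_zero _ h1.1)).1 (by rw [Pl.ord_zpow, h1.2, mul_zero])), h4, h5, div_zpow, mul_assoc,
    mul_div_cancel₀ _ (zpow_ne_zero _ h6)]

open Classical in
/-- the restriction of a system, up to a power of the unit `un` -/
theorem rs_sp (P : Pl L) (s : Finset L) : ∀ᶠ i in U, (D.sp P i).rs (s.image (D.r i)) =
    ((P.rs s).image ((D.rs P).r i)).image (· * D.un P i ^ P.mz s) := by
  filter_upwards [D.mz_sp P s, (eventually_all_finset s).2 fun f hf =>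
    D.rd_mul_t P (P.mem_ring_mz (Submodule.subset_span hf))] with i h1 h2
  rw [Pl.rs, Pl.rs, h1, Finset.image_image, Finset.image_image, Finset.image_image]
  exact Finset.image_congr fun f hf => h2 f hf

end Lm

end Vale.Agent.P283B.U
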