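import Vale.Agent.P283B.U.Tr
import Vale.Agent.P283B.U.Pl
import Vale.Agent.P283B.U.Ex
import Vale.Agent.P287D.Ad.Sep
import Vale.Agent.P287D.Cb.Ad

/-!
# P283B, block U: sections, primes and divisors of bounded degree are limits
-/

set_option linter.unusedSectionVars false

open Set Filter
open IntermediateField (adjoin)
open Vale.Agent.P297Z.Pl

noncomputable section

namespace Vale.Agent.P283B.U

open P287D

/-- the rows which are used -/
structure Hs : Prop where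
  md : MOD
  rs : RES
  it : INT
  vl : VOL
  ng : NEG
  ba : Loq.BALG
  hb : HB

theorem ex_of (hb : HB) (fi : FIN) : EX := fun U c n K _ _ s v hK h => by
  obtain ⟨L, _, _, D, u, u1, u2, u3⟩ := exists_sys hb fi c hK s 1 (V := v) (h.mono fun i a =>
    ⟨⟨a.1, one_ne_zero⟩, eq_top_iff.2 (a.2.1.ge.trans (IntermediateField.adjoin_le_iff.2
      fun f hf => div_one f ▸ div_mem_rts hf a.1)), a.2.2⟩)
  exact ⟨L, _, _, D, u, u1, u2, u3.mono fun i a => by simpa [Lm.im] using a.2⟩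

section one

variable {K : Type} [Field K] [Algebra ℂ K] {n : ℕ} {β Λ : BD K} {s : Finset K}

theorem bir_iff {ι : Type} {b : ι → K} (h : H0 β = Submodule.span ℂ (range b)) :
    Bir β ↔ adjoin ℂ (range fun p : ι × ι => b p.1 / b p.2) = ⊤ := by
  have m : ∀ a, Sec β (b a) := fun a => mem_H0.1 (h.ge (Submodule.subset_span ⟨a, rfl⟩))
  refine iff_of_eq (congrArg (· = ⊤) (le_antisymm (IntermediateField.adjoin_le_iff.2 ?_)
    (IntermediateField.adjoin.mono _ _ _ (range_subset_iff.2 fun p => ⟨_, _, m _, m _, rfl⟩))))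
  rintro _ ⟨f, g, hf, hg, rfl⟩
  by_cases e : ∃ k, b k ≠ 0
  · obtain ⟨k, e⟩ := e
    have a : ∀ f, Sec β f → f / b k ∈ adjoin ℂ (range fun p : ι × ι => b p.1 / b p.2) :=
      fun f hf => (Submodule.span_le (p := (adjoin ℂ
        (range fun p : ι × ι => b p.1 / b p.2)).toSubalgebra.toSubmodule)).2 (by
          rintro _ ⟨_, ⟨j, rfl⟩, rfl⟩
          exact IntermediateField.subset_adjoin _ _ ⟨(j, k), rfl⟩)
        (div_mem_span (h.le (mem_H0.2 hf)) (b k))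
    rw [← div_div_div_cancel_right₀ e]
    exact div_mem (a f hf) (a g hg)
  · have a : Submodule.span ℂ (range b) ≤ ⊥ :=
      Submodule.span_le.2 (range_subset_iff.2 fun k => not_not.1 fun z => e ⟨k, z⟩)
    rw [show g = 0 from a (h.le (mem_H0.2 hg)), div_zero]
    exact zero_mem _

theorem Hs.ml (H : Hs) (hK : FF K n) : In.MlOn (Car K) (I n K) := by
  cases n with
  | zero => exact ⟨fun _ i => i.elim0, fun _ i => i.elim0⟩
  | succ n =>
    have ib := (H.md.isb n K hK).1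
    exact ⟨fun β i a b h1 h2 h3 => H.it.add _ K hK β i a b (ib a h2) (ib b h3)
      (fun j => ib _ (h1 j)) (fun j _ => h1 j) fun _ => ⟨h2, h3⟩,
      fun β i c a h1 h2 => H.it.smul _ K hK β i c a (fun j _ => h1 j) fun _ => h2⟩

theorem Hs.vol_smul (H : Hs) (hK : FF K n) (c : ℝ) (h : β ∈ Car K) :
    vol n (c • β) = c ^ n * vol n β := by
  simpa [vol] using (H.ml hK).smul_all (fun _ => c) (fun _ => β) fun _ => h

theorem Hs.one_le (H : Hs) (hK : FF K n) (h : Big (mx s)) : 1 ≤ vol n (mx s) := by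
  cases n with
  | zero => exact le_rfl
  | succ n =>
    have p := (H.vl.big _ K hK _ (nef_mx s)).1 h
    obtain ⟨z, hz⟩ := H.it.int n K hK (mx s) (fun _ => mx s) (int_mx s)
      ((H.md.isb n K hK).1 _ (mx_mem_Car s)) fun _ => mx_mem_CarZ s
    rw [In.vol_succ, hz] at p ⊢
    exact_mod_cast p

theorem Hs.ne (H : Hs) (hK : FF K (n + 1)) : Nonempty (Pl K) := by
  by_contra k
  have := not_nonempty_iff.1 k
  obtain ⟨s, -, hs⟩ := exists_big hK
  have a := H.one_le hK hs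
  rw [In.vol_succ, In.I_cons, finsum_of_isEmpty] at a
  exact absurd a (by norm_num)

/-- the degrees of a prime divisor with respect to `Λ` and to a system -/
theorem Hs.deg_le (H : Hs) (hK : FF K (n + 1)) (hΛ : Smp Λ) {ε : ℝ} (e : 0 ≤ ε)
    (h : Smp (Λ - ε • mx s)) (Q : Pl K) : ε ^ n * vol n (mx (Q.rs s)) ≤ vol n (res Q Λ) := by
  have k := Gm.ff_κ Q hK
  have a := (H.rs.nef n K hK Q _ h.nef).psef
  rw [sub_eq_add_neg, ← neg_smul, H.rs.add n K hK Q _ hΛ.car _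
    (Submodule.smul_mem _ _ (mx_mem_Car s)), H.rs.smul n K hK Q _ _ (mx_mem_Car s),
    H.rs.sys n K hK, neg_smul, ← sub_eq_add_neg] at a
  rw [← H.vol_smul k ε (mx_mem_Car _)]
  exact H.vl.mono n _ k _ _ ((nef_mx _).smul e) (H.rs.nef n K hK Q _ hΛ.nef) a

/-- the degree of a Weil divisor -/
theorem Hs.deg_sum (H : Hs) (hK : FF K (n + 1)) (hΛ : Smp Λ) {Z : BD K} (S : Finset (Pl K))
    (h : ∀ Q, On n Λ Q → Z Q ≠ 0 → Q ∈ S) :
    I (n + 1) K (Fin.cons Z fun _ => Λ) = ∑ Q ∈ S, Z Q * vol n (res Q Λ) := by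
  refine finsum_eq_sum_of_support_subset (s := S) _ fun P hP => by_contra fun p => hP ?_
  by_cases o : On n Λ P
  · exact mul_eq_zero_of_left (not_not.1 fun z => p (h P o z)) _
  · exact mul_eq_zero_of_right _ (H.it.exc n K hK Λ P _ hΛ o fun _ => .refl hΛ)

theorem Hs.exists_ind (H : Hs) (hK : FF K n) (h : Big (mx s)) :
    ∃ y : Fin n → K, (∀ k, y k ∈ s) ∧ AlgebraicIndependent ℂ y := by
  have : Algebra.IsAlgebraic (Algebra.adjoin ℂ (s : Set K)) K := ⟨fun g =>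
    Loq.alg_of_le (by
      rintro _ ⟨a, ha, b, hb, rfl⟩
      exact div_mem (IntermediateField.subset_adjoin _ _ ha) (IntermediateField.subset_adjoin _ _ hb))
      (H.ba n K hK s h g)⟩
  obtain ⟨t, h1, h2⟩ := exists_isTranscendenceBasis_subset (R := ℂ) (s : Set K)
  obtain ⟨f⟩ := Cardinal.eq.1 ((Cardinal.mk_fin n).trans (h2.cardinalMk_eq_trdeg.trans hK.trdeg).symm)
  exact ⟨fun k => f k, fun k => h1 (f k).2, h2.1.comp f f.injective⟩

theorem exists_pos (hΛ : Smp Λ) (hb : Big Λ) (P : Pl K) :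
    ∃ G, Dsc Λ G ∧ 0 ≤ G ∧ 1 ≤ G P := by
  obtain ⟨ε, e, G, g0, g1⟩ := hb.exists_eff (pld_car P.t⁻¹)
  have a : pld P.t⁻¹ P = 1 := by simp [pld_apply, P.ord_t]
  refine ⟨ε⁻¹ • (G + ε • pld P.t⁻¹), ((Dsc.refl hΛ).congr (by
    rwa [← sub_add, sub_add_eq_add_sub] at g1)).smul _, smul_nonneg (inv_pos.2 e).le
      (add_nonneg g0 (smul_nonneg e.le (pld_nonneg _))), ?_⟩
  simp only [Pi.smul_apply, Pi.add_apply, a, smul_eq_mul, mul_one, mul_add, inv_mul_cancel₀ e.ne']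
  exact le_add_of_nonneg_left (mul_nonneg (inv_pos.2 e).le (g0 P))

end one

variable {U : Ultrafilter ℕ} {c : Cq U} {n : ℕ} {K : ℕ → Type} [∀ i, Field (K i)]
  [∀ i, Algebra ℂ (K i)] {L : Type} [Field L] [Algebra ℂ L]

namespace Lm

section sec

variable {D : Lm c n K L} {β : BD L} {f : L}

theorem RC.sec (rc : D.RC) (hβ : β ∈ Car L) (h : Sec β f) : ∀ᶠ i in U, Sec (D.tr i β) (D.r i f) := by
  rcases h with rfl | h
  · exact D.zero.mono fun i e => Or.inl e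
  · filter_upwards [rc.nn _ (add_mem (dv_mem_Car f) hβ) h, rc.add _ (dv_mem_Car f) _ hβ, rc.pri f]
      with i a b d
    rw [b, d] at a
    exact Or.inr a

theorem RC.sum (rc : D.RC) {ι : Type} (T : Finset ι) (a : ι → ℝ) {b : ι → BD L}
    (h : ∀ j ∈ T, b j ∈ Car L) :
    ∀ᶠ i in U, D.tr i (∑ j ∈ T, a j • b j) = ∑ j ∈ T, a j • D.tr i (b j) := by
  classical
  induction T using Finset.induction_on with
  | empty => simpa using rc.smul 0 0 (zero_mem _)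
  | insert j T hj ih =>
    have k := fun x hx => h x (Finset.mem_insert_of_mem hx)
    have l := h j (Finset.mem_insert_self _ _)
    filter_upwards [ih k, rc.smul (a j) _ l, rc.add _ (Submodule.smul_mem _ (a j) l) _
      (sum_mem fun x hx => Submodule.smul_mem _ (a x) (k x hx))] with i e f g
    rw [Finset.sum_insert hj, Finset.sum_insert hj, g, e, f]

theorem RC.vol (rc : D.RC) (hβ : β ∈ Car L) : ∀ᶠ i in U, vol n (D.tr i β) = vol n β :=
  rc.num (fun _ => β) fun _ => hβ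

theorem RC.lim (rc : D.RC) (hb : HB) (fi : FIN) (hβ : β ∈ Car L) {g : ∀ i, K i}
    (h : ∀ᶠ i in U, Sec (D.tr i β) (g i)) : ∃ f, ∀ᶠ i in U, D.r i f = g i := by
  have e := mem_Car.1 hβ
  refine D.lim_cmb hb fi (fun s => ⟨P287D.vol n (mx s), ?_⟩) e.choose (h.mono fun i a => ?_)
  · filter_upwards [rc.vol (mx_mem_Car s), rc.sys s] with i a b
    rw [b] at a
    exact a.le
  · rwa [tr, dif_pos e] at a

/-- the sections are spanned by the images of a basis -/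
theorem RC.span (rc : D.RC) (hb : HB) (fi : FIN) (hβ : β ∈ Car L)
    (hs : ∀ f, (∀ᶠ i in U, Sec (D.tr i β) (D.r i f)) → Sec β f) {ι : Type} [Finite ι] {b : ι → L}
    (h : H0 β = Submodule.span ℂ (range b)) :
    ∀ᶠ i in U, H0 (D.tr i β) = Submodule.span ℂ (range fun a => D.r i (b a)) := by
  have a : ∀ᶠ i in U, H0 (D.tr i β) ≤ Submodule.span ℂ (range fun a => D.r i (b a)) := by
    by_contra k
    obtain ⟨g, hg⟩ := Filter.skolem.1 ((Ultrafilter.eventually_not.2 k).mono fun i e =>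
      SetLike.not_le_iff_exists.1 e)
    obtain ⟨f, hf⟩ := rc.lim hb fi hβ (hg.mono fun i e => mem_H0.1 e.1)
    have m := D.mem_span (h.le (mem_H0.2 (hs f ((hg.and hf).mono fun i e =>
      e.2 ▸ mem_H0.1 e.1.1))))
    obtain ⟨i, e1, e2, e3⟩ := (m.and (hg.and hf)).exists
    rw [e3, ← range_comp] at e1
    exact e2.2 e1
  filter_upwards [a, eventually_all.2 fun j => rc.sec hβ
    (mem_H0.1 (h.ge (Submodule.subset_span ⟨j, rfl⟩)))] with i e k
  exact le_antisymm e (Submodule.span_le.2 (range_subset_iff.2 fun j => mem_H0.2 (k j)))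

theorem RC.rs (rc : D.RC) (hb : HB) (fi : FIN)
    (hs : ∀ β ∈ Car L, ∀ f, (∀ᶠ i in U, Sec (D.tr i β) (D.r i f)) → Sec β f) : D.RS := by
  have k : ∀ β ∈ Car L, ∃ b : Fin (Module.finrank ℂ (H0 β)) → L, LinearIndependent ℂ b ∧
      H0 β = Submodule.span ℂ (range b) := fun β hβ => by
    have := fi n L D.ff β hβ
    let b := Module.finBasis ℂ (H0 β)
    refine ⟨(H0 β).subtype ∘ b, b.linearIndependent.map' _ (Submodule.ker_subtype _), ?_⟩
    rw [range_comp, ← Submodule.map_span, b.span_eq, Submodule.map_subtype_top]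
  refine ⟨fun β hβ f => ⟨rc.sec hβ, hs β hβ f⟩, fun β hβ g => rc.lim hb fi hβ, fun β hβ => ?_,
    fun β hβ => ?_⟩
  · obtain ⟨b, b1, b2⟩ := k β hβ
    filter_upwards [rc.span hb fi hβ (hs β hβ) b2, D.lin b1] with i e l
    rw [h0, e, finrank_span_eq_card l, Fintype.card_fin, h0]
  · obtain ⟨b, -, b2⟩ := k β hβ
    have e : ∀ᶠ i in U, (Bir (D.tr i β) ↔
        adjoin ℂ (range fun p : _ × _ => D.r i (b p.1 / b p.2)) = ⊤) := by
      filter_upwards [rc.span hb fi hβ (hs β hβ) b2,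
        eventually_all.2 fun p : _ × _ => D.div (b p.1) (b p.2)] with i e l
      rw [bir_iff e, funext l]
    rw [bir_iff b2, eventually_congr e]
    exact ⟨fun h => (D.top h).mono fun i a => by rwa [← range_comp] at a, D.top_of⟩

end sec

variable (D : Lm c (n + 1) K L)

/-- the row `RP.val` -/
def Val : Prop := ∀ β ∈ Car L, ∀ P, ∀ᶠ i in U, D.tr i β (D.sp P i) = β P

/-- the row `RP.on` -/
def Ont : Prop := ∀ Λ ∈ Car L, ∀ P, ∀ᶠ i in U, (On n (D.tr i Λ) (D.sp P i) ↔ On n Λ P)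

/-- the row `RP.supp` -/
def Sup : Prop := ∀ Λ, Smp Λ → Big Λ → ∀ β ∈ Car L, ∀ᶠ i in U, ∀ Q, On n (D.tr i Λ) Q →
  D.tr i β Q ≠ 0 → ∃ P, On n Λ P ∧ β P ≠ 0 ∧ Q = D.sp P i

variable {D} {Λ β : BD L}

theorem Val.sec (v : D.Val) (rc : D.RC) (hβ : β ∈ Car L) (f : L)
    (h : ∀ᶠ i in U, Sec (D.tr i β) (D.r i f)) : Sec β f :=
  or_iff_not_imp_left.2 fun f0 P => by
    obtain ⟨i, e1, e2, e3, e4, e5⟩ := (h.and ((D.ne f0).and ((v β hβ P).and
      ((v _ (dv_mem_Car f) P).and (rc.pri f))))).exists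
    have := e1.resolve_left e2 (D.sp P i)
    rwa [Pi.add_apply, e3, ← e5, e4] at this

theorem Sup.fix (sp : D.Sup) (H : Hs) (hΛ : Smp Λ) (hb : Big Λ) (hβ : β ∈ Car L)
    {Q : ∀ i, Pl (K i)} (h : ∀ᶠ i in U, On n (D.tr i Λ) (Q i) ∧ D.tr i β (Q i) ≠ 0) :
    ∃ P, ∀ᶠ i in U, Q i = D.sp P i := by
  obtain ⟨s, -, hs⟩ := hΛ.exists_ampOn
  have f := (H.md.isb n L D.ff).1 β hβ s (hs.big_iff.1 hb)
  obtain ⟨P, -, k⟩ := (Ultrafilter.eventually_exists_mem_iff f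
    (P := fun P i => Q i = D.sp P i)).1 ((h.and (sp Λ hΛ hb β hβ)).mono fun i a =>
      let ⟨P, p1, p2, p3⟩ := a.2 _ a.1.1 a.1.2
      ⟨P, ⟨((H.ng.iso n L D.ff _ _ hΛ hs.smp hs).2.2.1 P).1 p1, p2⟩, p3⟩)
  exact ⟨P, k⟩

theorem RC.sub_mx (rc : D.RC) (hΛ : Smp Λ) {s : Finset L} {ε : ℝ} (h : Smp (Λ - ε • mx s)) :
    ∀ᶠ i in U, Smp (D.tr i Λ - ε • mx (D.im i s)) := by
  filter_upwards [rc.smp _ h, rc.add _ hΛ.car _ (Submodule.smul_mem _ (-ε) (mx_mem_Car s)),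
    rc.smul (-ε) _ (mx_mem_Car s), rc.sys s] with i a b d e
  rwa [sub_eq_add_neg, ← neg_smul, b, d, e, neg_smul, ← sub_eq_add_neg] at a

/-- **LPD**: prime divisors of bounded degree are limits -/
theorem lpd_of (H : Hs) (rc : D.RC) (sp : D.Sup) (hΛ : Smp Λ) (hb : Big Λ) (Q : ∀ i, Pl (K i))
    (v : ℝ) (h : ∀ᶠ i in U, On n (D.tr i Λ) (Q i) ∧ vol n (res (Q i) (D.tr i Λ)) ≤ v) :
    ∃ P, ∀ᶠ i in U, Q i = D.sp P i := by
  classical
  obtain ⟨s, s1, hs⟩ := hΛ.exists_ampOn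
  obtain ⟨ε, e, hε⟩ := hs.dsc.exists_sub
  obtain ⟨y, y1, y2⟩ := H.exists_ind D.ff (hs.big_iff.1 hb)
  by_cases k : ∀ᶠ i in U, (Q i).mz (D.im i s) = 0
  swap
  · refine sp.fix H hΛ hb (mx_mem_Car s) ?_
    filter_upwards [h, Ultrafilter.eventually_not.2 k, rc.sys s] with i a b d
    exact ⟨a.1, by rw [d, mx_apply]; exact_mod_cast b⟩
  obtain ⟨M, hM⟩ := cnt H.hb (fin_of H.md) n 1 (v / ε ^ n)
  have m : ∀ᶠ i in U, ∀ f ∈ s, D.r i f ∈ (Q i).ring ∧
      (Q i).rd (D.r i f) ∈ (Q i).rs (D.im i s) := k.mono fun i a f hf => by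
    have b : D.r i f ∈ D.im i s := Finset.mem_image_of_mem _ hf
    have d := (Q i).mem_ring_mz (Submodule.subset_span b)
    rw [a, zpow_zero, mul_one] at d
    exact ⟨d, Finset.mem_image.2 ⟨_, b, by rw [a, zpow_zero, mul_one]⟩⟩
  have r : ∀ᶠ i in U, ∃ p : MvPolynomial (Fin (n + 1)) ℂ, p ≠ 0 ∧ p.totalDegree ≤ M ∧
      MvPolynomial.aeval (fun k => (Q i).rd (D.r i (y k))) p = 0 := by
    filter_upwards [h, m, rc.sub_mx hΛ hε, rc.smp _ hΛ, rc.amp _ _ hs, rc.sys s, D.one]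
      with i a b d f g l o
    rw [l] at g
    have o1 : (1 : (Q i).κ) ∈ (Q i).rs (D.im i s) := by
      have := (b 1 s1).2
      rwa [o, ← map_one (algebraMap ℂ (K i)), Cb.rd_const, map_one] at this
    refine hM _ (Gm.ff_κ _ (D.ffi i)) _ _ (Fintype.card_fin _) ⟨(Q i).rs (D.im i s), 1,
      H.rs.sys n _ (D.ffi i) _ _ ▸ (H.rs.on n _ (D.ffi i) _ _ g.smp).1
        (((H.ng.iso n _ (D.ffi i) _ _ f g.smp g).2.2.1 _).1 a.1), ?_, one_ne_zero,
      by simpa using sec_of_mem o1, forall_mem_range.2 fun k => by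
        simpa using sec_of_mem (b _ (y1 k)).2⟩
    rw [le_div_iff₀' (pow_pos e n)]
    exact (H.deg_le (D.ffi i) f e.le d _).trans a.2
  obtain ⟨p, hp⟩ := Filter.skolem.1 r
  obtain ⟨g, hg⟩ := c.lim_deg M p (hp.mono fun i a => a.2.1)
  refine sp.fix H hΛ hb (dv_mem_Car (MvPolynomial.aeval y (MvPolynomial.map c.q g))) ?_
  filter_upwards [h, hp, hg, m, D.aeval y g, D.ind y2,
    rc.pri (MvPolynomial.aeval y (MvPolynomial.map c.q g))] with i a b d f l o t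
  refine ⟨a.1, ?_⟩
  have w := Cb.rd_aeval (fun k => (f _ (y1 k)).1) (p i)
  rw [b.2.2] at w
  rw [t, l, d, dv_apply]
  exact_mod_cast (Loq.ord_pos_of_rd (fun z => b.1 (algebraicIndependent_iff.1 o _ z))
    (Cb.adj_mem (range_subset_iff.2 fun k => (f _ (y1 k)).1)
      ((Algebra.adjoin_range_eq_range_aeval _ _).ge ⟨_, rfl⟩)) w).ne'

/-- **LZ**: effective integral divisors of bounded degree are limits -/
theorem lz_of (H : Hs) (rc : D.RC) (ot : D.Ont) (sp : D.Sup) (hΛ : Smp Λ) (hb : Big Λ)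
    (Z : ∀ i, BD (K i)) (v : ℝ)
    (h : ∀ᶠ i in U, IsB n (Z i) ∧ (∀ Q, On n (D.tr i Λ) Q → ∃ k : ℕ, Z i Q = k) ∧
      I (n + 1) (K i) (Fin.cons (Z i) fun _ => D.tr i Λ) ≤ v) :
    ∃ (T : Finset (Pl L)) (z : Pl L → ℕ), (∀ P ∈ T, On n Λ P) ∧ ∀ᶠ i in U, ∀ Q,
      On n (D.tr i Λ) Q → Z i Q = ∑ P ∈ T, z P * (D.sp P i).δ Q := by
  classical
  obtain ⟨s, s1, hs⟩ := hΛ.exists_ampOn
  obtain ⟨ε, e, hε⟩ := hs.dsc.exists_sub
  obtain ⟨N, hN⟩ := exists_nat_ge (v / ε ^ n)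
  have ne := fun i => H.ne (D.ffi i)
  have r : ∀ᶠ i in U, ∃ m : Fin (N + 1), ∃ z : Fin m → Fin (N + 1), ∃ q : Fin m → Pl (K i),
      Function.Injective q ∧ (∀ a, On n (D.tr i Λ) (q a) ∧ vol n (res (q a) (D.tr i Λ)) ≤ v) ∧
      ∀ Q, On n (D.tr i Λ) Q → Z i Q = ∑ a, (z a : ℕ) * (q a).δ Q := by
    filter_upwards [h, rc.sub_mx hΛ hε, rc.smp _ hΛ, rc.amp _ _ hs, rc.sys s, rc.big _ hΛ.car hb]
      with i a d f g l o
    rw [l] at g
    have on := (H.ng.iso n _ (D.ffi i) _ _ f g.smp g).2.2.1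
    have fin := a.1 _ (g.big_iff.1 o)
    have mem : ∀ Q, Q ∈ fin.toFinset ↔ On n (D.tr i Λ) Q ∧ Z i Q ≠ 0 := fun Q =>
      fin.mem_toFinset.trans (and_congr_left' (on Q).symm)
    have dg := a.2.2
    rw [H.deg_sum (D.ffi i) f fin.toFinset fun Q x w => (mem Q).2 ⟨x, w⟩] at dg
    have z1 : ∀ Q ∈ fin.toFinset, 1 ≤ Z i Q := fun Q hQ => by
      obtain ⟨k, hk⟩ := a.2.1 Q ((mem Q).1 hQ).1
      have := ((mem Q).1 hQ).2
      rw [hk] at this ⊢
      exact_mod_cast Nat.one_le_iff_ne_zero.2 (Nat.cast_ne_zero.1 this)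
    have v1 : ∀ Q ∈ fin.toFinset, ε ^ n ≤ vol n (res Q (D.tr i Λ)) := fun Q hQ =>
      (le_mul_of_one_le_right (pow_pos e n).le (H.one_le (Gm.ff_κ _ (D.ffi i))
        (H.rs.sys n _ (D.ffi i) _ _ ▸ (H.rs.on n _ (D.ffi i) _ _ g.smp).1
          ((on Q).1 ((mem Q).1 hQ).1)))).trans (H.deg_le (D.ffi i) f e.le d Q)
    have p := pow_pos e n
    have t : ∀ Q ∈ fin.toFinset, Z i Q * vol n (res Q (D.tr i Λ)) ≤ v := fun Q hQ =>
      (Finset.single_le_sum (f := fun Q => Z i Q * vol n (res Q (D.tr i Λ)))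
        (fun R hR => by nlinarith [z1 R hR, v1 R hR]) hQ).trans dg
    have cd : fin.toFinset.card ≤ N := by
      have := (Finset.card_nsmul_le_sum _ _ (ε ^ n) fun R hR =>
        show _ ≤ Z i R * vol n (res R (D.tr i Λ)) by nlinarith [z1 R hR, v1 R hR]).trans dg
      rw [nsmul_eq_mul, ← le_div_iff₀ p] at this
      exact_mod_cast this.trans hN
    let q := fin.toFinset.equivFin.symm
    choose k hk using fun b => a.2.1 (q b) ((mem _).1 (q b).2).1
    have kl : ∀ b, k b ≤ N := fun b => by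
      have := t _ (q b).2
      have w : (k b : ℝ) ≤ v / ε ^ n := (le_div_iff₀ p).2 (by
        rw [← hk]; nlinarith [z1 _ (q b).2, v1 _ (q b).2])
      exact_mod_cast w.trans hN
    refine ⟨⟨_, Nat.lt_succ_of_le cd⟩, fun b => ⟨k b, Nat.lt_succ_of_le (kl b)⟩, fun b => q b,
      Subtype.val_injective.comp q.injective, fun b => ⟨((mem _).1 (q b).2).1, by
        nlinarith [t _ (q b).2, z1 _ (q b).2, v1 _ (q b).2]⟩, fun Q hQ => ?_⟩
    by_cases w : Q ∈ fin.toFinset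
    · rw [Finset.sum_eq_single (q.symm ⟨Q, w⟩) (fun b _ x => mul_eq_zero_of_right _
        (Pl.δ_ne fun y => x (by simp [y]))) (by simp)]
      simp [← hk, Pl.δ_self]
    · rw [Finset.sum_eq_zero fun b _ => mul_eq_zero_of_right _
        (Pl.δ_ne fun y : Q = q b => w (y ▸ (q b).2))]
      exact not_not.1 fun x => w ((mem Q).2 ⟨hQ, x⟩)
  obtain ⟨m, r⟩ := Ultrafilter.eventually_exists_iff.1 r
  obtain ⟨z, r⟩ := Ultrafilter.eventually_exists_iff.1 r
  obtain ⟨q, r⟩ := Filter.skolem.1 r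
  choose P hP using fun a => lpd_of H rc sp hΛ hb (fun i => q i a) v (r.mono fun i b => b.2.1 a)
  have hP := eventually_all.2 hP
  have inj : Function.Injective P := fun a b w =>
    let ⟨i, x, y⟩ := (r.and hP).exists
    x.1 ((y a).trans (w ▸ (y b).symm))
  refine ⟨Finset.univ.image P, Function.extend P (fun a => z a) 0, fun _ w => ?_, ?_⟩
  · obtain ⟨a, -, rfl⟩ := Finset.mem_image.1 w
    obtain ⟨i, x, y, u⟩ := (r.and (hP.and (ot Λ hΛ.car (P a)))).exists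
    exact u.1 (y a ▸ (x.2.1 a).1)
  · filter_upwards [r, hP] with i x y Q hQ
    rw [x.2.2 Q hQ, Finset.sum_image inj.injOn]
    exact Finset.sum_congr rfl fun a _ => by rw [inj.extend_apply, y a]

/-- **LIMP**: functions with poles of bounded degree are limits -/
theorem limp_of (H : Hs) (rc : D.RC) (va : D.Val) (ot : D.Ont) (sp : D.Sup) (hΛ : Smp Λ)
    (hb : Big Λ) (g : ∀ i, K i) (v : ℝ)
    (h : ∀ᶠ i in U, I (n + 1) (K i) (Fin.cons (0 ⊔ -dv (g i)) fun _ => D.tr i Λ) ≤ v) :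
    ∃ f, ∀ᶠ i in U, D.r i f = g i := by
  obtain ⟨T, z, -, hz⟩ := lz_of H rc ot sp hΛ hb (fun i => pld (g i)) v (h.mono fun i a =>
    ⟨(H.md.isb n _ (D.ffi i)).1 _ (pld_car _), fun Q _ => ⟨(-Q.ord (g i)).toNat, by
      rw [pld_apply, ← Int.cast_natCast, Int.toNat_eq_max, max_comm]; push_cast; rfl⟩, a⟩)
  choose G g1 g2 g3 using exists_pos hΛ hb
  have b1 : Dsc Λ (∑ P ∈ T, (z P : ℝ) • G P) := Dsc.sum hΛ T fun P _ => (g1 P).smul _
  refine rc.lim H.hb (fin_of H.md) b1.car ?_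
  filter_upwards [hz, rc.sum T (fun P => (z P : ℝ)) fun P _ => (g1 P).car, rc.smp _ hΛ,
    rc.big _ hΛ.car hb, rc.des _ _ b1, (eventually_all_finset T).2 fun P _ =>
      (rc.nn _ (g1 P).car (g2 P)).and (va _ (g1 P).car P)] with i a b d e f k
  refine Or.inr (H.ng.nn n _ (D.ffi i) _ _ d e ((Dsc.dv d _).add f) fun Q hQ => ?_).1
  have l : pld (g i) Q ≤ D.tr i (∑ P ∈ T, (z P : ℝ) • G P) Q := by
    rw [a Q hQ, b, Finset.sum_apply]
    refine Finset.sum_le_sum fun P hP => mul_le_mul_of_nonneg_left ?_ (Nat.cast_nonneg _)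
    by_cases w : Q = D.sp P i
    · rw [w, Pl.δ_self, (k P hP).2]
      exact g3 P
    · rw [Pl.δ_ne w]
      exact (k P hP).1 Q
  exact neg_le_iff_add_nonneg'.1 ((le_max_right _ _).trans l)

end Lm

/-- **RS** -/
theorem rs_of (hb : HB) (fi : FIN) (rc : ForL 0 fun _ _ _ _ _ _ _ _ _ D => D.RC)
    (va : ForL 1 fun _ _ _ _ _ _ _ _ _ D => D.Val) : ForL 0 fun _ _ _ _ _ _ _ _ _ D => D.RS := by
  intro U c n K _ _ L _ _ D
  refine (rc U c n K L D).rs hb fi fun β hβ f => ?_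
  cases n with
  | zero => exact fun _ => Or.inr fun P => (Cb.no_pl D.ff P).elim
  | succ n => exact (va U c n K L D).sec (rc U c _ K L D) hβ f

end Vale.Agent.P283B.U
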