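import Vale.Agent.P283B.U.St
import Vale.Agent.P283B.U.Sec
import Vale.Agent.P287D.Cb.Kap

/-!
# P283B, block U: derivations and the canonical b-divisor along a limit of function fields
-/

set_option linter.unusedSectionVars false

open Set Filter
open Vale.Agent.P285N.Brep (jac Fr)
open Vale.Agent.P297Z

noncomputable section

namespace Vale.Agent.P283B.U

open P287D P287D.Cb

section one

variable {K : Type} [Field K] [Algebra ℂ K] {n : ℕ} {Q : Pl K} {S : Set K}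

/-- a derivation which preserves a chart is regular at the prime divisors of the chart -/
theorem rg_of_alg (hK : FF K (n + 1)) {u : Fin n → K} (a : Ada Q Q.t u) {d : K → K} (h : De d)
    (hc : ∀ c, d (algebraMap ℂ K c) = 0) {B : Subalgebra ℂ K} (hB : ∀ b ∈ B, b ∈ Q.ring)
    (top : IntermediateField.adjoin ℂ (B : Set K) = ⊤) (hd : ∀ b ∈ B, d b ∈ B)
    (hu : ∀ i, u i ∈ B) : Rg Q d := by
  by_cases ht : d Q.t ∈ Q.ring
  · exact a.rg hK h ht (fun i => hB _ (hd _ (hu i))) fun c => hc c ▸ zero_mem _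
  exfalso
  have t0 : d Q.t ≠ 0 := fun e => ht (e ▸ zero_mem _)
  have o : Q.ord (d Q.t) < 0 := not_le.1 fun e => ht (mem_ord e)
  have m : (d Q.t)⁻¹ ∈ Q.ring := mem_ord (by rw [Pl.ord_inv]; omega)
  have r : Rg Q fun x => (d Q.t)⁻¹ * d x := a.rg hK (h.smul _)
    (by rw [inv_mul_cancel₀ t0]; exact one_mem _) (fun i => mul_mem m (hB _ (hd _ (hu i))))
    fun c => by rw [hc, mul_zero]; exact zero_mem _
  have k : ∀ x, Q.ord x ≠ 0 → Q.ord (d x) = Q.ord x - (1 - Q.ord (d Q.t)) := fun x hx => by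
    have : CharZero K := charZero_of_injective_algebraMap (algebraMap ℂ K).injective
    have x0 := ne_of_ord hx
    obtain ⟨v, h1, h2, h3⟩ := ld_eq (h.smul (d Q.t)⁻¹) Q x0
    have g := mul_mem h2 (r v h1)
    have e : Q.t * ((d Q.t)⁻¹ * d x / x) = Q.t * (v⁻¹ * ((d Q.t)⁻¹ * d v)) + Q.ord x := by
      rw [h3, inv_mul_cancel₀ t0, mul_add, mul_left_comm Q.t (Q.ord x : K),
        mul_one_div_cancel Q.t_ne, mul_one]
    have w : ¬ Mx Q (Q.t * ((d Q.t)⁻¹ * d x / x)) := fun z => not_mx_one (P := Q) (by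
      have := (z.sub (mx_t g)).mul (int_inv_mem Q (Q.ord x))
      rwa [e, add_sub_cancel_left, inv_mul_cancel₀ (Int.cast_ne_zero.2 hx)] at this)
    have w1 := Pl.ord_nonneg_of_mem _ (e ▸ add_mem (mul_mem (t_mem Q) g) (int_mem Q (Q.ord x)))
    rw [mx_iff, not_or] at w
    have d0 : d x ≠ 0 := fun z => w.1 (by simp [z])
    rw [Pl.ord_mul _ Q.t_ne (right_ne_zero_of_mul w.1), Pl.ord_div _
      (mul_ne_zero (inv_ne_zero t0) d0) x0, Pl.ord_mul _ (inv_ne_zero t0) d0, Pl.ord_inv,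
      Q.ord_t] at w w1
    omega
  have l : ∀ m : ℕ, ∀ b ∈ B, Q.ord b = m → (1 - Q.ord (d Q.t)) ∣ Q.ord b := fun m => by
    induction m using Nat.strong_induction_on with
    | _ m ih =>
      intro b hb e
      by_cases z : Q.ord b = 0
      · simp [z]
      obtain ⟨j, hj⟩ := Int.eq_ofNat_of_zero_le (Pl.ord_nonneg_of_mem _ (hB _ (hd b hb)))
      have k1 := k b z
      simpa [k1] using (ih j (by omega) _ (hd b hb) hj).add dvd_rfl
  have l' : ∀ b ∈ B, (1 - Q.ord (d Q.t)) ∣ Q.ord b := fun b hb =>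
    (Int.eq_ofNat_of_zero_le (Pl.ord_nonneg_of_mem _ (hB b hb))).elim fun m e => l m b hb e
  obtain ⟨x, hx, y, hy, y0, e⟩ := frac_of_top top Q.t
  have z := (l' x hx).sub (l' y hy)
  rw [← Pl.ord_div _ (fun z => Q.t_ne (by simp [e, z])) y0, ← e, Q.ord_t] at z
  have := Int.le_of_dvd one_pos z
  omega

theorem der_alg (d : Derivation ℂ K K) {B : Subalgebra ℂ K} (hS : S ⊆ B) (h : ∀ s ∈ S, d s ∈ B)
    {b : K} (hb : b ∈ Algebra.adjoin ℂ S) : d b ∈ B := by
  induction hb using Algebra.adjoin_induction with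
  | mem a ha => exact h a ha
  | algebraMap a => exact d.map_algebraMap a ▸ zero_mem _
  | add a b _ _ ha hb => exact map_add d a b ▸ add_mem ha hb
  | mul a b ka kb ha hb =>
    exact d.leibniz a b ▸ add_mem (mul_mem (Algebra.adjoin_le hS ka) hb)
      (mul_mem (Algebra.adjoin_le hS kb) ha)

/-- a chart which is preserved by finitely many derivations -/
theorem exists_inv (hK : FF K n) {ι : Type} [Finite ι] (E : ι → Derivation ℂ K K) (hS : S.Finite) :
    ∃ s : Finset K, S ⊆ s ∧ IntermediateField.adjoin ℂ (s : Set K) = ⊤ ∧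
      ∀ j, ∀ f ∈ s, E j f ∈ Algebra.adjoin ℂ (s : Set K) := by
  have := hK.ess
  obtain ⟨z, hz⟩ := IntermediateField.fg_top ℂ K
  have top : IntermediateField.adjoin ℂ (S ∪ z) = ⊤ :=
    eq_top_iff.2 (hz.ge.trans (IntermediateField.adjoin.mono _ _ _ subset_union_right))
  have fin : Finite ↥(S ∪ z) := hS.union z.finite_toSet
  choose a ha b hb b0 e using fun p : ι × ↥(S ∪ z) =>
    frac_of_top (A := Algebra.adjoin ℂ (S ∪ z)) (eq_top_iff.2 (top.ge.trans
      (IntermediateField.adjoin.mono _ _ _ Algebra.subset_adjoin))) (E p.1 p.2)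
  let T := (S ∪ z) ∪ range fun p => (b p)⁻¹
  have hT : T.Finite := (hS.union z.finite_toSet).union (finite_range _)
  have le : Algebra.adjoin ℂ (S ∪ z) ≤ Algebra.adjoin ℂ T := Algebra.adjoin_mono subset_union_left
  have m : ∀ p, (b p)⁻¹ ∈ Algebra.adjoin ℂ T := fun p => Algebra.subset_adjoin (Or.inr ⟨p, rfl⟩)
  have k : ∀ j, ∀ f ∈ S ∪ z, E j f ∈ Algebra.adjoin ℂ T := fun j f hf => by
    rw [show E j f = _ from e (j, ⟨f, hf⟩), div_eq_mul_inv]
    exact mul_mem (le (ha _)) (m _)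
  refine ⟨hT.toFinset, ?_⟩
  rw [hT.coe_toFinset]
  refine ⟨subset_union_left.trans subset_union_left, eq_top_iff.2 (top.ge.trans
    (IntermediateField.adjoin.mono _ _ _ subset_union_left)), fun j f hf => ?_⟩
  rcases hT.mem_toFinset.1 hf with h | ⟨p, rfl⟩
  · exact k j f h
  · rw [Derivation.leibniz_inv, smul_eq_mul]
    exact mul_mem (neg_mem (pow_mem (m p) 2))
      (der_alg _ (subset_union_left.trans Algebra.subset_adjoin) (k j) (hb p))

/-- the canonical b-divisor vanishes at most prime divisors of a chart -/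
theorem kap_zero (H : Hs) {y : Fin (n + 1) → K} {E : Fin (n + 1) → Derivation ℂ K K} (h : Fr y E)
    {s : Finset K} (hy : ∀ k, y k ∈ s) (top : IntermediateField.adjoin ℂ (s : Set K) = ⊤)
    (hd : ∀ j, ∀ f ∈ s, E j f ∈ Algebra.adjoin ℂ (s : Set K)) (ho : On n (mx s) Q)
    (h0 : mx s Q = 0) : kap y Q = 0 := by
  have hK := ff_of h
  have z : Q.mz s = 0 := by rwa [mx_apply, Int.cast_eq_zero] at h0
  have m : ∀ f ∈ s, f ∈ Q.ring := fun f hf => by
    simpa [z] using Q.mem_ring_mz (Submodule.subset_span hf)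
  obtain ⟨v, v1, v2⟩ := H.exists_ind (Gm.ff_κ Q hK)
    (H.rs.sys n K hK Q s ▸ (H.rs.on n K hK _ Q (smp_mx s)).1 ho)
  choose u u1 u2 using fun k => show ∃ f ∈ s, Q.rd f = v k by simpa [Pl.rs, z] using v1 k
  rw [kap_eq (D := E) ⟨h, fun k => m _ (hy k), fun j => rg_of_alg hK
    ⟨Q.ord_t, fun k => m _ (u1 k), funext u2 ▸ v2⟩ (dr_of (E j)) (E j).map_algebraMap
    (fun b hb => adj_mem m hb) (eq_top_iff.2 (top.ge.trans
      (IntermediateField.adjoin.mono _ _ _ Algebra.subset_adjoin)))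
    (fun b hb => der_alg _ Algebra.subset_adjoin (hd j) hb)
    fun k => Algebra.subset_adjoin (u1 k)⟩, jac_self h]
  simp

theorem cy_fr (hK : FF K n) :
    (∃ E : Fin n → Derivation ℂ K K, Fr (cy K n) E) ∧ cn K n = kap (cy K n) := by
  have e : ∃ (y : Fin n → K) (D : Fin n → Derivation ℂ K K), Fr y D :=
    hK.elim fun y hy => ⟨y, fr_of hK hy.1⟩
  rw [cy, cn, dif_pos e, dif_pos e]
  exact ⟨e.choose_spec, rfl⟩

theorem Hs.fin (H : Hs) (hK : FF K (n + 1)) {Λ Z : BD K} (h1 : Smp Λ) (h2 : Big Λ) (h : IsB n Z) :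
    {P | On n Λ P ∧ Z P ≠ 0}.Finite := by
  obtain ⟨s, -, hs⟩ := exists_big hK
  refine ((H.md.exc n K hK _ _ h1 h2 (smp_mx s) hs).union (h s hs)).subset fun P a => ?_
  by_cases e : On n (mx s) P
  exacts [Or.inr ⟨e, a.2⟩, Or.inl ⟨a.1, e⟩]

end one

variable {U : Ultrafilter ℕ} {c : Cq U} {n : ℕ} {K : ℕ → Type} [∀ i, Field (K i)]
  [∀ i, Algebra ℂ (K i)] {L : Type} [Field L] [Algebra ℂ L]

namespace Lm

section any

variable (D : Lm c n K L) {y : Fin n → L} {E : Fin n → Derivation ℂ L L}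
  {E' : ∀ i, Fin n → Derivation ℂ (K i) (K i)}

theorem det {ι : Type} [Fintype ι] [DecidableEq ι] (M : Matrix ι ι L) :
    ∀ᶠ i in U, D.r i M.det = (Matrix.of fun a b => D.r i (M a b)).det := by
  filter_upwards [D.sum Finset.univ fun σ : Equiv.Perm ι =>
      ((Equiv.Perm.sign σ : ℤ) : L) * ∏ a, M (σ a) a, eventually_all.2 fun σ : Equiv.Perm ι =>
    (D.mul ((Equiv.Perm.sign σ : ℤ) : L) (∏ a, M (σ a) a)).and
      ((D.intCast (Equiv.Perm.sign σ)).and (D.prod Finset.univ fun a => M (σ a) a))] with i h1 h2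
  rw [Matrix.det_apply', Matrix.det_apply', h1]
  exact Finset.sum_congr rfl fun σ _ => by rw [(h2 σ).1, (h2 σ).2.1, (h2 σ).2.2]; rfl

/-- **DER**: the dual derivations transfer -/
theorem der (h : Fr y E) (h' : ∀ᶠ i in U, Fr (fun k => D.r i (y k)) (E' i)) (j : Fin n) (z : L) :
    ∀ᶠ i in U, E' i j (D.r i z) = D.r i (E j z) := by
  have k : Dr (D.rho : L →+* c.cs.Ul K) fun z => c.cs.cl K fun i => E' i j (D.r i z) :=
    ⟨fun a b => (c.cs.cl_eq.2 ((D.add a b).mono fun i e => by simp [e])).trans (map_add _ _ _),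
      fun a b => by
        simp only [RingHom.coe_coe, rho_eq, ← map_mul, ← map_add]
        exact c.cs.cl_eq.2 ((D.mul a b).mono fun i e => by simp [e])⟩
  have e := expand k (fun a => c.cs.cl_zero.2 ((D.cst' a).mono fun i ⟨b, e⟩ =>
    e ▸ Derivation.map_algebraMap _ b)) h z
  have d : ∀ l, (c.cs.cl K fun i => E' i j (D.r i (y l))) = if j = l then 1 else 0 := fun l => by
    rw [← map_one (c.cs.cl K), ← map_zero (c.cs.cl K), ← apply_ite (c.cs.cl K)]
    exact c.cs.cl_eq.2 (h'.mono fun i a => (a.dual j l).trans (by split_ifs <;> rfl))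
  simp only [d, ite_mul, one_mul, zero_mul, Finset.sum_ite_eq, Finset.mem_univ, if_true] at e
  exact c.cs.cl_eq.1 e

theorem jac_ev (h : Fr y E) (h' : ∀ᶠ i in U, Fr (fun k => D.r i (y k)) (E' i)) (z : Fin n → L) :
    ∀ᶠ i in U, jac (E' i) (fun k => D.r i (z k)) = D.r i (jac E z) := by
  filter_upwards [D.det (Matrix.of fun a b => E a (z b)),
    eventually_all.2 fun a => eventually_all.2 fun b => D.der h h' a (z b)] with i h1 h2
  exact (congrArg Matrix.det (Matrix.ext h2)).trans h1.symm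

theorem exists_fr (h : Fr y E) : ∃ E' : ∀ i, Fin n → Derivation ℂ (K i) (K i),
    ∀ᶠ i in U, Fr (fun k => D.r i (y k)) (E' i) :=
  Filter.skolem.1 ((D.ind ((jac_ne_iff h y).1 (jac_ne h h))).mono fun i => fr_of (D.ffi i))

theorem kap_ev (h : Fr y E) {z : Fin n → L} (hz : jac E z ≠ 0) : ∀ᶠ i in U,
    kap (fun k => D.r i (z k)) = kap (fun k => D.r i (y k)) + dv (D.r i (jac E z)) := by
  obtain ⟨E', h'⟩ := D.exists_fr h
  filter_upwards [h', D.jac_ev h h' z, D.ne hz] with i h1 h2 h3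
  exact h2 ▸ kap_chg h1 (h2 ▸ h3)

theorem jc_spec : ∀ᶠ i in U,
    D.jc i ≠ 0 ∧ kap (fun k => D.r i (cy L n k)) = cn (K i) n + dv (D.jc i) := by
  obtain ⟨E, h⟩ := (cy_fr D.ff).1
  filter_upwards [D.ind ((jac_ne_iff h _).1 (jac_ne h h))] with i h1
  have e := kap_cn (D.ffi i) h1
  rw [jc, dif_pos e]
  exact e.choose_spec

theorem dsc_tp (Γ : BD L) : ∀ᶠ i in U,
    dsc n (D.tp i Γ) = kap (fun k => D.r i (cy L n k)) - D.tr i Γ :=
  D.jc_spec.mono fun i h => by rw [h.2, dsc, tp]; abel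

theorem frm (pri : ∀ f, ∀ᶠ i in U, D.tr i (dv f) = dv (D.r i f)) {j : L}
    (hy : AlgebraicIndependent ℂ y) (j0 : j ≠ 0) (e : kap y = cn L n + dv j) :
    ∀ᶠ i in U, kap (fun k => D.r i (y k)) = cn (K i) n + dv (D.jc i * D.r i j) := by
  obtain ⟨⟨E, h⟩, k⟩ := cy_fr D.ff
  have a := (jac_ne_iff h y).2 hy
  rw [kap_chg h a, k, add_right_inj] at e
  filter_upwards [D.kap_ev h a, D.jc_spec, pri j, pri (jac E y), D.ne j0] with i h1 h2 h3 h4 h5
  rw [h1, h2.2, dv_mul h2.1 h5, ← h4, e, h3, add_assoc]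

end any

variable (D : Lm c (n + 1) K L) {P : Pl L}

theorem ada_sp {t : L} {u : Fin n → L} (a : Ada P t u) :
    ∀ᶠ i in U, Ada (D.sp P i) (D.r i t) fun k => D.r i (u k) := by
  filter_upwards [D.ord_sp P t, eventually_all.2 fun k => D.mem_sp (a.mem k), (D.rs P).ind a.ind,
    eventually_all.2 fun k => D.rs_rd P (u k)] with i h1 h2 h3 h4
  exact ⟨h1.trans a.ord, h2, funext h4 ▸ h3⟩

/-- the order of a form at the specialisation of a place -/
theorem kap_sp (P : Pl L) (y : Fin (n + 1) → L) :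
    ∀ᶠ i in U, kap (fun k => D.r i (y k)) (D.sp P i) = kap y P := by
  obtain ⟨u, a⟩ := exists_ada D.ff P
  obtain ⟨E, h⟩ := a.ad D.ff
  obtain ⟨E', h'⟩ := Filter.skolem.1 ((D.ada_sp a).mono fun i b => b.ad (D.ffi i))
  filter_upwards [h', D.jac_ev h.fr (h'.mono fun i b => by
    convert b.fr using 2 with k
    exact Fin.cases rfl (fun _ => rfl) k) y, D.ord_sp P (jac E y)] with i h1 h2 h3
  rw [kap_eq h1, kap_eq h, h2, h3]

theorem dsc_sp {Γ : BD L} (h : ∀ᶠ i in U, D.tr i Γ (D.sp P i) = Γ P) :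
    ∀ᶠ i in U, dsc (n + 1) (D.tp i Γ) (D.sp P i) = dsc (n + 1) Γ P := by
  filter_upwards [D.dsc_tp Γ, D.kap_sp P (cy L (n + 1)), h] with i h1 h2 h3
  rw [h1, Pi.sub_apply, h2, h3, dsc, (cy_fr D.ff).2, Pi.sub_apply]

/-- **RK** -/
theorem rk_of (H : Hs) (rc : D.RC) (rp : D.RP) : D.RK := by
  refine ⟨fun y j => D.frm rc.pri, fun Γ h P => D.dsc_sp (rp.val Γ h P), fun Λ h1 h2 Γ h => ?_⟩
  obtain ⟨E, hE⟩ := (cy_fr D.ff).1
  obtain ⟨E', hE'⟩ := D.exists_fr hE
  obtain ⟨s, s1, s2, s3⟩ := exists_inv D.ff E ((finite_range (cy L (n + 1))).insert 1)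
  have b : Big (mx s) := big_of_basis (D.ff.basis ((jac_ne_iff hE _).1 (jac_ne hE hE)))
    (s1 (Or.inl rfl)) fun a => s1 (Or.inr ⟨a, rfl⟩)
  have ib := (H.md.isb n L D.ff).1
  have fin := ((H.md.exc n L D.ff _ _ h1 h2 (smp_mx s) b).union
    (H.fin D.ff h1 h2 (ib _ (mx_mem_Car s)))).union (H.fin D.ff h1 h2 (ib _ h))
  filter_upwards [hE', D.top s2, D.dsc_tp Γ, rc.sys s, rp.exc _ _ (smp_mx s) b h1 h2,
    rp.supp _ h1 h2 _ (mx_mem_Car s), rp.supp _ h1 h2 _ h,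
    (eventually_all_finite fin).2 fun P _ => D.dsc_sp (rp.val Γ h P),
    eventually_all.2 fun j => (eventually_all_finset s).2 fun f hf =>
      (D.der hE hE' j f).and (D.mem_alg (s3 j f hf))] with i k1 k2 k3 k4 k5 k6 k7 k8 k9 Q q1 q2
  have e : (D.im i s : Set (K i)) = D.r i '' s := by simp [im]
  by_cases a : On n (D.tr i (mx s)) Q
  · by_cases a' : D.tr i (mx s) Q = 0
    · rw [k4] at a a'
      obtain ⟨P, p1, p2, rfl⟩ := k7 Q q1 fun z => q2 (by
        rw [k3, Pi.sub_apply, z, sub_zero]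
        refine kap_zero H k1 (fun k => Finset.mem_coe.1 (e ▸ ⟨_, s1 (Or.inr ⟨k, rfl⟩), rfl⟩))
          (e ▸ k2) (fun j f hf => ?_) a a'
        obtain ⟨g, hg, rfl⟩ := e.le hf
        exact e ▸ (k9 j g hg).1 ▸ (k9 j g hg).2)
      exact ⟨P, p1, k8 P (Or.inr ⟨p1, p2⟩) ▸ q2, rfl⟩
    · obtain ⟨P, p1, p2, rfl⟩ := k6 Q q1 a'
      exact ⟨P, p1, k8 P (Or.inl (Or.inr ⟨p1, p2⟩)) ▸ q2, rfl⟩
  · obtain ⟨P, p1, p2, rfl⟩ := k5 Q q1 a
    exact ⟨P, p1, k8 P (Or.inl (Or.inl ⟨p1, p2⟩)) ▸ q2, rfl⟩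

end Lm

end Vale.Agent.P283B.U
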