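import Vale.Agent.P283B.U.All0
import Vale.Agent.P283B.U.Der

/-!
# P283B, block U: the whole dictionary
-/

noncomputable section

namespace Vale.Agent.P283B.U

open P287D

variable {U : Ultrafilter ℕ} {c : Cq U} {n : ℕ} {K : ℕ → Type} [∀ i, Field (K i)]
  [∀ i, Algebra ℂ (K i)] {L : Type} [Field L] [Algebra ℂ L]

theorem Lm.rkA (D : Lm c (n + 1) K L) : D.RK := D.rk_of hs D.rcA D.rpA

theorem Lm.rlA (D : Lm c (n + 1) K L) : D.RL := Lm.rl_of D.rkA

/-- **the dictionary** -/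
theorem ua : UA := ua_of fun _ _ _ _ _ _ _ _ _ D => D.rkA

end Vale.Agent.P283B.U
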