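import Vale.Agent.P283B.U.Tr
import Vale.Agent.P287D.Pr.Ls
import Vale.Agent.P287D.Cb.Kap

/-!
# P283B, block U: log smooth models with finitely many charts exist
-/

set_option linter.unusedVariables false

open Set Filter Topology
open Vale.Agent.P297 (Place)
open Vale.Agent.P277Z Vale.Agent.P277Z.FI Vale.Agent.P277Z.F5

noncomputable section

namespace Vale.Agent.P283B.U

open P287D P287D.Ba P287D.Pr

variable {n : ℕ} {K : Type} [Field K] [Algebra ℂ K] {M : Mdl (n + 1) 0 K} {H : P277Z.Div K}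
  {W : Set (Place K)}

/-- the divisors which are effective at `x` are effective off a divisor which avoids `x` -/
theorem exists_bad (hM : M.Proj) (x : M.F) {σ : Type} [Fintype σ] (F : σ → P277Z.Div K)
    (h : ∀ s Q, M.On x Q → 0 ≤ F s Q) : ∃ B : P277Z.Div K, IsInt B ∧ 0 ≤ B ∧
      (∀ Q, M.On x Q → B Q = 0) ∧ ∀ c : ℝ, 1 ≤ c → ∀ s, 0 ≤ c • bar M B + bar M (F s) := by
  classical
  let B : P277Z.Div K :=
    (∑ s, (F s).mapRange (fun r => (⌈|r|⌉ : ℝ)) (by simp)).filter fun Q => ¬ M.On x Q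
  have e : ∀ Q, B Q = if ¬ M.On x Q then ∑ s, (⌈|F s Q|⌉ : ℝ) else 0 := fun Q => by
    simp only [B, Finsupp.filter_apply, Finsupp.finsetSum_apply, Finsupp.mapRange_apply]
  have p : ∀ s Q, (0 : ℝ) ≤ ⌈|F s Q|⌉ := fun s Q => (abs_nonneg _).trans (Int.le_ceil _)
  have b0 : 0 ≤ B := fun Q => by
    rw [e]
    split_ifs
    exacts [le_rfl, Finset.sum_nonneg fun s _ => p s Q]
  refine ⟨B, fun Q => ?_, b0, fun Q hQ => by rw [e, if_neg (not_not.2 hQ)], fun c hc s => ?_⟩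
  · rw [e]
    split_ifs
    exacts [⟨0, by simp⟩, ⟨∑ s, ⌈|F s Q|⌉, by simp⟩]
  · rw [← map_smul, ← map_add]
    refine bar_nonneg' hM fun Q _ => ?_
    rw [Finsupp.add_apply, Finsupp.smul_apply, smul_eq_mul]
    by_cases o : M.On x Q
    · exact add_nonneg (mul_nonneg (zero_le_one.trans hc) (b0 Q)) (h s Q o)
    · have a : |F s Q| ≤ B Q := by
        rw [e, if_pos o]
        exact (Int.le_ceil _).trans (Finset.single_le_sum (fun s _ => p s Q) (Finset.mem_univ s))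
      have b : 0 ≤ B Q := b0 Q
      nlinarith [neg_abs_le (F s Q)]

/-- the chart at a point -/
theorem exists_ch (hM : M.Proj) (hH : Pol M H) (sW : M.Snc W) {ι : Type} [Fintype ι]
    {p : ι → Pl K} (hp : Function.Injective p) (hW : ∀ a, (p a).toPlace ∈ W) (x : M.F) :
    ∃ (B : P277Z.Div K) (t : Fin (n + 1) → K) (j : K) (l : ι → Option (Fin (n + 1))) (e₀ : ℝ),
      (∀ Q, M.On x Q → B Q = 0) ∧ ∀ e, e₀ ≤ e → Ch n (bar M H) (bar M (KM M))
        (fun a => bar M (Finsupp.single (p a).toPlace 1)) (bar M B) t j l e := by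
  classical
  have hL := hloc hM
  obtain ⟨t, t1, t2⟩ := sW.2 x
  obtain ⟨D, d1, -⟩ := fr_coord hM t1
  have ti : AlgebraicIndependent ℂ t := (Cb.jac_ne_iff d1 t).1 (by rw [Cb.jac_self d1]; simp)
  obtain ⟨j, j0, j1⟩ := Cb.kap_cn (ff_model hM) ti
  have ex : ∀ a, ∃ o : Option (Fin (n + 1)), (∀ k, o = some k → M.Gn x (p a).toPlace (t k)) ∧
      ∀ Q, M.On x Q → Finsupp.single (p a).toPlace (1 : ℝ) Q = Q.ord (o.elim 1 t) := fun a => by
    by_cases o : M.On x (p a).toPlace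
    · obtain ⟨k, hk⟩ := t2 _ (hW a) o
      refine ⟨some k, fun k' e => Option.some.inj e ▸ hk, fun Q hQ => ?_⟩
      by_cases e : Q = (p a).toPlace
      · simp [e, hk.ord]
      · simp [Finsupp.single_eq_of_ne e, hL.other x _ Q _ hk hQ e]
    · exact ⟨none, by simp, fun Q hQ => by
        simp [Finsupp.single_eq_of_ne fun e : Q = (p a).toPlace => o (e ▸ hQ)]⟩
  choose l l1 l2 using ex
  have z1 : ∀ Q, M.On x Q → (KM M + M.div j) Q = 0 := fun Q hQ => by
    obtain ⟨P, rfl⟩ := Bm.pl_of_pr hM ⟨x, hQ⟩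
    have a := disc_kap hM t1 (ct_of_on hQ)
    rw [disc_pr hM ⟨x, hQ⟩, j1, Pi.add_apply, KM_pr hM ⟨x, hQ⟩, dv_apply] at a
    rw [Finsupp.add_apply, div_apply hL _ ⟨x, hQ⟩, ← a]
  have z2 : ∀ a Q, M.On x Q →
      (Finsupp.single (p a).toPlace (1 : ℝ) - M.div ((l a).elim 1 t)) Q = 0 := fun a Q hQ => by
    rw [Finsupp.sub_apply, div_apply hL _ ⟨x, hQ⟩, l2 a Q hQ, sub_self]
  obtain ⟨B, b1, b2, b3, b4⟩ := exists_bad hM x (σ := Fin (n + 1) ⊕ Bool × Option ι)
    (Sum.elim (fun k => M.div (t k)) fun q => (if q.1 then (1 : ℝ) else -1) • q.2.elim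
      (KM M + M.div j) fun a => Finsupp.single (p a).toPlace 1 - M.div ((l a).elim 1 t)) (by
      rintro (k | ⟨b, _ | a⟩) Q hQ
      · rw [Sum.elim_inl, div_apply hL _ ⟨x, hQ⟩]
        exact_mod_cast P297Z.Pl.ord_nonneg_of_mem Q (ct_of_on hQ _ (t1.1 k).1)
      · simp only [Sum.elim_inr, Option.elim, Finsupp.smul_apply, z1 Q hQ, smul_zero, le_refl]
      · simp only [Sum.elim_inr, Option.elim, Finsupp.smul_apply]
        exact (congrArg _ (z2 a Q hQ)).ge.trans' (smul_zero _).ge)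
  have d := dsc_bar hM hH.amp hH.dv B
  obtain ⟨c, -, hc⟩ := d.exists_add
  obtain ⟨c', -, hc'⟩ := d.neg.exists_add
  refine ⟨B, t, j, l, max 1 (max c c'), b3, fun e he => ?_⟩
  simp only [max_le_iff] at he
  refine ⟨bar_nonneg hM b2, bar_carZ hM b1, ⟨add_comm (bar M B) _ ▸ hc e he.2.1, ?_⟩, ti, j0, j1,
    fun k => ?_, ⟨?_, ?_⟩, fun a => ⟨?_, ?_⟩, fun a b k ha hb => ?_⟩
  · rw [sub_eq_neg_add]
    exact hc' e he.2.2
  · simpa [bar_div hM, add_comm] using b4 e he.1 (.inl k)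
  · simpa [bar_div hM] using b4 e he.1 (.inr (true, none))
  · simpa [bar_div hM, sub_eq_add_neg, add_comm] using b4 e he.1 (.inr (false, none))
  · simpa [bar_div hM] using b4 e he.1 (.inr (true, some a))
  · have := b4 e he.1 (.inr (false, some a))
    simp only [Sum.elim_inr, Option.elim, Bool.false_eq_true, if_false, neg_smul, one_smul,
      map_neg, map_sub, bar_div hM] at this
    exact sub_eq_add_neg (e • bar M B) _ ▸ this
  · by_contra z
    have := hL.other x _ _ _ (l1 a k ha) ⟨_, l1 b k hb⟩ fun w => z (hp (pl_inj w)).symm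
    rw [(l1 b k hb).ord] at this
    exact one_ne_zero this

theorem sm_of_mdl (hM : M.Proj) (hH : Pol M H) (sW : M.Snc W) {T : Finset (Pl K)}
    (hT : ∀ P ∈ T, P.toPlace ∈ W) : ∃ e, Sm n (bar M H) (bar M (KM M)) (fun a : T => a.1)
      (fun a => bar M (Finsupp.single a.1.toPlace 1)) e := by
  have l := ls_of hM hH sW hT
  choose B t j f e₀ b c using exists_ch hM hH sW (p := fun a : T => a.1) Subtype.val_injective
    fun a => hT a a.2
  have : CompactSpace M.F := isCompact_iff_compactSpace.1 M.cpt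
  obtain ⟨S, hS⟩ := CompactSpace.elim_nhds_subcover
    (fun x => {y : M.F | ∀ Q ∈ (B x).support, ¬ M.On y Q}) fun x =>
      (eventually_all_finset _).2 fun Q hQ => ((hloc hM).near x Q).mono fun y hy o =>
        Finsupp.mem_support_iff.1 hQ (b x Q (hy o))
  obtain ⟨e, he⟩ := ((S.finite_toSet.image e₀).insert 1).bddAbove
  let q : Fin S.card → M.F := fun k => S.equivFin.symm k
  refine ⟨e, one_pos.trans_le (he (mem_insert _ _)), l.smp, l.big, l.kz, l.term.hull,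
    Subtype.val_injective, fun a => l.on a a.2, fun a => l.hz a, fun a => l.hull a (l.on a a.2),
    S.card, fun k => bar M (B (q k)), fun k => t (q k), fun k => j (q k), fun k => f (q k),
    fun k => c _ e (he (mem_insert_of_mem _ ⟨_, (S.equivFin.symm k).2, rfl⟩)), fun Q => ?_⟩
  obtain ⟨y, hy⟩ := ct hM Q
  obtain ⟨x, hx, h⟩ := mem_iUnion₂.1 (hS.ge (mem_univ y))
  refine ⟨S.equivFin ⟨x, hx⟩, ?_⟩
  simp only [q, Equiv.symm_apply_apply]
  rw [bar_loc hM hy (E := 0) fun R hR => not_not.1 fun z => h R (Finsupp.mem_support_iff.2 z) hR,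
    map_zero, Pi.zero_apply]

/-- log resolutions with charts -/
theorem exists_sm (hK : FF K (n + 1)) {T₀ : Set (Pl K)} (hT : T₀.Finite) {B : Set (BD K)}
    (hB : B.Finite) (hc : B ⊆ Car K) : ∃ (s : Finset K) (κ : BD K) (T : Finset (Pl K))
    (h : Pl K → BD K) (e : ℝ), Sm n (mx s) κ (fun a : T => a.1) (fun a => h a.1) e ∧
      LS n (mx s) κ T h ∧ T₀ ⊆ T ∧ ∀ β ∈ insert κ B, Sup n (mx s) T β := by
  classical
  obtain ⟨M₀, h₀⟩ := Bm.exists_mdl hK
  obtain ⟨M, m, W, hM, u1, u2, u3, u4, u5, u6⟩ := com h₀ hB hc hT (KM M₀).support.finite_toSet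
  obtain ⟨H, s, hH, hs, -⟩ := exists_pol hM
  have f1 := u1.preimage (pl_inj (K := K)).injOn
  have k1 : ∀ P : Pl K, KM M P.toPlace ≠ 0 → P ∈ f1.toFinset := fun P hP => f1.mem_toFinset.2 (by
    have p := KM_dv hM _ (Finsupp.mem_support_iff.2 hP)
    by_cases k : M₀.Pr P.toPlace
    · exact u5 _ (Finsupp.mem_support_iff.2 (by rwa [← KM_pr h₀ k, KM_pr hM p])) p
    · exact u3 ⟨p, k⟩)
  obtain ⟨e, he⟩ := sm_of_mdl hM hH u2 (T := f1.toFinset) fun P => f1.mem_toFinset.1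
  refine ⟨s, _, f1.toFinset, _, e, hs ▸ he, hs ▸ ls_of hM hH u2 fun P => f1.mem_toFinset.1,
    fun P hP => f1.mem_toFinset.2 (u4 P hP), forall_mem_insert.2 ⟨hs ▸ sup_of hM hH k1,
      fun β hβ => ?_⟩⟩
  obtain ⟨E, -, rfl, b, -⟩ := u6 β hβ
  exact hs ▸ sup_of hM hH fun P hP => f1.mem_toFinset.2 (b (Finsupp.mem_support_iff.2 hP))

/-- **SM** -/
theorem sm : SM := fun n K _ _ hK T₀ B a b c =>
  let ⟨s, κ, T, h, e, x, y, z, w⟩ := exists_sm hK a b c
  ⟨s, κ, T, h, e, x, z, fun P => ⟨y.hz P, y.hull P⟩, w⟩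

/-- the same, `T` contains the primes which are exceptional over finitely many models -/
theorem exists_smx (hM : MOD) (hK : FF K (n + 1)) {T₀ : Set (Pl K)} (hT : T₀.Finite)
    {B : Set (BD K)} (hB : B.Finite) (hc : B ⊆ Car K) : ∃ (s : Finset K) (κ : BD K)
    (T : Finset (Pl K)) (h : Pl K → BD K) (e : ℝ),
      Sm n (mx s) κ (fun a : T => a.1) (fun a => h a.1) e ∧ LS n (mx s) κ T h ∧ T₀ ⊆ T ∧
      (∀ β ∈ insert κ B, Sup n (mx s) T β) ∧
      ∀ Λ ∈ B, Smp Λ → Big Λ → ∀ P, On n (mx s) P → On n Λ P ∨ P ∈ T := by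
  obtain ⟨s₁, κ₁, T₁, h₁, l₁, -⟩ := exists_ls hK finite_empty finite_empty (by simp)
  obtain ⟨s, κ, T, h, e, x, l, a, b⟩ := exists_sm hK (hT.union
    ((hB.subset (sep_subset B fun Λ => Smp Λ ∧ Big Λ)).biUnion fun Λ k =>
      hM.exc n K hK _ Λ l₁.smp l₁.big k.2.1 k.2.2)) (hB.insert κ₁)
    (insert_subset (CarZ.car l₁.kz) hc)
  refine ⟨s, κ, T, h, e, x, l, subset_union_left.trans a,
    fun β p => b β (insert_subset_insert (subset_insert _ _) p),
    fun Λ p q r P o => by_contra fun k => ?_⟩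
  rw [not_or] at k
  have x := l₁.one P fun w => k.2 (a (.inr (mem_biUnion (x := Λ) ⟨p, q, r⟩ ⟨w, k.1⟩)))
  have y := l.d0 o
  simp only [dsc, Pi.sub_apply, (b κ (by simp)).2 P o k.2, (b κ₁ (by simp)).2 P o k.2] at x y
  linarith

end Vale.Agent.P283B.U
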