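import Vale.Agent.P283B.U.Rl
import Vale.Agent.P283B.U.Sm

/-!
# P283B, block U: singularities of pairs transfer
-/

open Set Filter Function

noncomputable section

namespace Vale.Agent.P283B.U

open P287D

variable {U : Ultrafilter ℕ} {c : Cq U} {n : ℕ} {K : ℕ → Type} [∀ i, Field (K i)]
  [∀ i, Algebra ℂ (K i)] {L : Type} [Field L] [Algebra ℂ L]

namespace Lm

variable (Y : Ny) {D : Lm c (n + 1) K L} (rk : D.RK) {Γ : BD L}
include Y

/-- the formula for the log discrepancy on the factors -/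
theorem ld_tr {A κ : BD L} {T : Finset (Pl L)} {h : Pl L → BD L} (l : LS n A κ T h)
    (hΓ : Γ ∈ Car L) (s : P287D.Sup n A T (κ - Γ)) : ∀ᶠ i in U, ∀ Q, ld (n + 1) (D.tp i Γ) Q =
      ld (n + 1) (D.tp i κ) Q - ∑ P ∈ T, (1 - ld (n + 1) Γ P) * D.tr i (h P) Q := by
  have a := ((tf_tr (D := D) (CarZ.car l.kz)).sub (tf_tr hΓ)).uniq Y (by
    rw [l.exp s]
    exact Tf.sum T fun P _ => (tf_tr (CarZ.car (l.hz P))).smul _)
  filter_upwards [a] with i x Q
  have y := congrFun x Q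
  rw [Finset.sum_apply, Finset.sum_congr rfl fun P hP => show ((κ - Γ) P • D.tr i (h P)) Q =
    -((1 - ld (n + 1) Γ P) * D.tr i (h P) Q) by
      have := l.d0 (l.on P hP)
      simp only [ld, dsc, Pi.sub_apply, Pi.smul_apply, smul_eq_mul] at this ⊢
      rw [show κ P = cn L (n + 1) P by linarith]
      ring, Finset.sum_neg_distrib] at y
  simp only [ld, dsc, tp, Pi.sub_apply] at y ⊢
  linarith

include rk

/-- finitely many places bound the log discrepancies on the factors -/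
theorem exists_ld (hΓ : Γ ∈ Car L) : ∃ T : Finset (Pl L), ∀ ε : ℝ, 0 ≤ ε → ε ≤ 1 →
    (∀ P ∈ T, ε ≤ ld (n + 1) Γ P) → ∀ᶠ i in U, ∀ Q, ε ≤ ld (n + 1) (D.tp i Γ) Q := by
  obtain ⟨s, κ, T, h, e, x, l, -, w⟩ := exists_sm D.ff finite_empty (finite_singleton Γ)
    (singleton_subset_iff.2 hΓ)
  refine ⟨T, fun ε e0 e1 k => ?_⟩
  filter_upwards [ld_tr Y (D := D) l hΓ ((w κ (by simp)).sub (w Γ (by simp))),
    rl_sm Y rk _ _ _ _ _ _ x, (eventually_all_finset T).2 fun P hP =>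
      (tf_tr (D := D) (CarZ.car (l.hz P))).nn Y (l.nn (l.on P hP))] with i h1 h2 h3 Q
  have a := h2.snc (D.ffi i) Q
  have b := h2.one_le (D.ffi i) Q
  have d : ∑ P ∈ T, (1 - ld (n + 1) Γ P) * D.tr i (h P) Q ≤ ∑ P ∈ T, (1 - ε) * D.tr i (h P) Q :=
    Finset.sum_le_sum fun P hP => mul_le_mul_of_nonneg_right (by linarith [k P hP]) (h3 P hP Q)
  rw [Finset.sum_coe_sort T fun P => D.tr i (h P) Q] at a
  rw [← Finset.mul_sum] at d
  rw [h1]
  nlinarith [mul_le_mul_of_nonneg_left a (sub_nonneg.2 e1), mul_le_mul_of_nonneg_left b e0]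

/-- **the row `RL.elc`** -/
theorem rl_elc : ∀ Γ ∈ Car L, ∀ ε : ℝ, 0 ≤ ε → ε ≤ 1 → ELc n ε Γ All →
    ∀ᶠ i in U, ELc n ε (D.tp i Γ) All := fun _ hΓ ε a b k =>
  let ⟨_, h⟩ := exists_ld Y rk hΓ
  (h ε a b fun P _ => k P trivial).mono fun _ z Q _ => z Q

/-- **the row `RL.klt`** -/
theorem rl_klt : ∀ Γ ∈ Car L, Klt (n + 1) Γ → ∀ᶠ i in U, Klt (n + 1) (D.tp i Γ) := fun Γ hΓ k => by
  classical
  obtain ⟨T, h⟩ := exists_ld Y rk hΓ
  obtain ⟨b, b1, b2⟩ := (insert 1 (T.image (ld (n + 1) Γ))).exists_min_image id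
    (Finset.insert_nonempty _ _)
  have p : 0 < b := by
    rcases Finset.mem_insert.1 b1 with rfl | z
    · exact one_pos
    · obtain ⟨P, -, rfl⟩ := Finset.mem_image.1 z
      exact neg_lt_iff_pos_add.1 (k P)
  exact (h b p.le (b2 1 (Finset.mem_insert_self _ _)) fun P q =>
    b2 _ (Finset.mem_insert_of_mem (Finset.mem_image_of_mem _ q))).mono fun _ z Q =>
      neg_lt_iff_pos_add.2 (p.trans_le (z Q))

end Lm

end Vale.Agent.P283B.U
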