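import Vale.Agent.P283B.U.Rf
import Vale.Agent.P283B.U.Rl2
import Vale.Agent.P283B.Tool.Mmp

/-!
# P283B, block U: the dictionary from the rows on the canonical b-divisor
-/

noncomputable section

namespace Vale.Agent.P283B.U

open P287D

theorem ny : Ny := ⟨In.hy, res', Api.neg, Ba.Vl.bigv, In.klm⟩

theorem hb : HB := hb_of Api.mod res' Api.int Api.vol Api.neg bert

theorem fi : FIN := fin_of Api.mod

theorem hs : Hs := ⟨Api.mod, res', Api.int, Api.vol, Api.neg, balg, hb⟩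

theorem ex : EX := ex_of hb fi

theorem sl : SL := sl_of In.hy res' Api.neg hb fi

variable {U : Ultrafilter ℕ} {c : Cq U} {n : ℕ} {K : ℕ → Type} [∀ i, Field (K i)]
  [∀ i, Algebra ℂ (K i)] {L : Type} [Field L] [Algebra ℂ L]

namespace Lm

theorem rcA (D : Lm c n K L) : D.RC := rc ny D

theorem rsA (D : Lm c n K L) : D.RS :=
  rs_of hb fi (fun _ _ _ _ _ _ _ _ _ D => D.rcA) (fun _ _ _ _ _ _ _ _ _ D => rp_val ny D)
    U c n K L D

theorem rpA (D : Lm c (n + 1) K L) : D.RP :=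
  ⟨rp_val ny D, rp_rst ny D, rp_deg ny D, rp_on ny D, rp_supp ny D, rp_exc ny D,
    fun _ a b => lpd_of hs D.rcA (rp_supp ny D) a b,
    fun _ a b => lz_of hs D.rcA (rp_on ny D) (rp_supp ny D) a b,
    fun _ a b => limp_of hs D.rcA (rp_val ny D) (rp_on ny D) (rp_supp ny D) a b⟩

variable {D : Lm c (n + 1) K L} (rk : D.RK)
include rk

theorem chs : D.Chs := fun _ _ _ _ _ _ _ s _ _ _ _ _ k w =>
  (Filter.eventually_all.2 fun b => ch_tr ny rk s.smp.car (CarZ.car s.kz)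
    (fun a => CarZ.car (s.hz a)) (k b)).and (cov_tr ny (fun b => (k b).car) (fun b => (k b).nn) w)

theorem rl_of : D.RL :=
  ⟨rl_sm ny rk, rl_tor ny rk, rl_elc ny rk, rl_klt ny rk, fun _ a b _ x y =>
    rfin_of hs In.hy D.rcA (rp_on ny D) (rp_supp ny D) (rp_exc ny D) rk (chs rk) a b x y⟩

end Lm

theorem ua_of (rk : ForL 1 fun _ _ _ _ _ _ _ _ _ D => D.RK) : UA :=
  ⟨ex, sm, sl, fun _ _ _ _ _ _ _ _ _ D => D.rcA, fun _ _ _ _ _ _ _ _ _ D => D.rsA,
    fun _ _ _ _ _ _ _ _ _ D => D.rpA, rk, fun U c n K _ _ L _ _ D => Lm.rl_of (rk U c n K L D)⟩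

end Vale.Agent.P283B.U
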