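import Vale.Agent.P283B.U.Supp

/-!
# P283B, block U: the rows on Cartier b-divisors and on prime divisors
-/

set_option linter.unusedSectionVars false

open Set Filter Function
open Vale.Agent.P297Z

noncomputable section

namespace Vale.Agent.P283B.U

open P287D Nm

variable {U : Ultrafilter ℕ} {c : Cq U} {n : ℕ} {K : ℕ → Type} [∀ i, Field (K i)]
  [∀ i, Algebra ℂ (K i)] {L : Type} [Field L] [Algebra ℂ L]

namespace Lm

/-- **SUPP**, with the values -/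
theorem Tf.supp' (H : In.Hy) (R : RES) {D : Lm c (n + 1) K L} {β Λ : BD L} {γ Λ' : ∀ i, BD (K i)}
    (h : D.Tf β γ) (hΛ : D.Tf Λ Λ') (a : Nef Λ) (b : ∀ᶠ i in U, Nef (Λ' i)) :
    ∀ᶠ i in U, ∀ Q, On n (Λ' i) Q → γ i Q ≠ 0 → ∃ P, On n Λ P ∧ γ i Q = β P ∧ Q = D.sp P i := by
  obtain ⟨T, x, y, z⟩ := h.su H R hΛ a b
  filter_upwards [z, (eventually_all_finite x).2 fun P _ => h.val P] with i h1 h2 Q q e
  obtain ⟨P, u, rfl⟩ := h1 Q q e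
  exact ⟨P, y P u, h2 P u, rfl⟩

section any

variable (Y : Ny) {D : Lm c n K L} {β β' Λ G : BD L} {γ γ' Λ' G' : ∀ i, BD (K i)}
include Y

/-- **MONO** -/
theorem Tf.nn (h : D.Tf β γ) (h0 : 0 ≤ β) : ∀ᶠ i in U, 0 ≤ γ i := by
  cases n with
  | zero => exact .of_forall fun i P => (Cb.no_pl (D.ffi i) P).elim
  | succ n =>
    obtain ⟨A, A', a1, -, a3⟩ := exists_big Y D
    obtain ⟨Λ, Λ', b1, -, b3⟩ := h.exists_dsc
    have s := (a1.add b1).smp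
    filter_upwards [a1.smp.2, a3, b3, s.2, h.supp' Y.hy Y.res (.sy (a1.add b1)) s.1.nef
      (s.2.mono fun _ k => k.nef)] with i h1 h2 h3 h4 h5
    refine (Y.neg.nn n _ (D.ffi i) _ _ h4 (h2.add_smp h3.smp) (h3.add_left' h1) fun Q q => ?_).1
    by_cases e : γ i Q = 0
    · exact e.ge
    · obtain ⟨P, -, x, -⟩ := h5 Q q e
      exact x ▸ h0 P

theorem Tf.le (h : D.Tf β γ) (h' : D.Tf β' γ') (e : β ≤ β') : ∀ᶠ i in U, γ i ≤ γ' i :=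
  ((h'.sub h).nn Y (sub_nonneg.2 e)).mono fun _ => sub_nonneg.1

/-- the transfer is well defined -/
theorem Tf.uniq (h : D.Tf β γ) (h' : D.Tf β γ') : ∀ᶠ i in U, γ i = γ' i :=
  ((h.le Y h' le_rfl).and (h'.le Y h le_rfl)).mono fun _ k => le_antisymm k.1 k.2

theorem Tf.eq_tr (h : D.Tf β γ) : ∀ᶠ i in U, D.tr i β = γ i := (tf_tr h.car.1).uniq Y h

theorem Tf.carZ (h : D.Tf β γ) (k : β ∈ CarZ L) : ∀ᶠ i in U, γ i ∈ CarZ (K i) := by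
  obtain ⟨s, u, -, -, rfl⟩ := mem_CarZ.1 k
  exact (h.uniq Y ((tf_mx s).sub (tf_mx u))).mono fun _ e =>
    e ▸ sub_mem (mx_mem_CarZ _) (mx_mem_CarZ _)

theorem Tf.carQ (h : D.Tf β γ) (k : CarQ β) : ∀ᶠ i in U, CarQ (γ i) :=
  let ⟨m, a, b⟩ := k
  ((h.smul m).carZ Y b).mono fun _ e => ⟨m, a, e⟩

theorem Tf.prn (h : D.Tf β γ) (k : β ∈ Prn L) : ∀ᶠ i in U, γ i ∈ Prn (K i) := by
  obtain ⟨T, a, -, rfl⟩ := mem_Prn.1 k
  exact (h.uniq Y (Tf.sum T fun f _ => (tf_dv f).smul (a f))).mono fun _ e =>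
    e ▸ sum_mem fun _ _ => Submodule.smul_mem _ _ (dv_mem_Prn _)

theorem Tf.smp (h : D.Tf β γ) (k : Smp β) : ∀ᶠ i in U, Smp (γ i) := by
  obtain ⟨l, a, rfl⟩ := k
  exact (h.uniq Y (Tf.sum l.support fun s _ => (tf_mx s).smul (l s))).mono fun _ e =>
    e ▸ Smp.sum _ fun s _ => (smp_mx _).smul (a s)

theorem Tf.des (hΛ : D.Tf Λ Λ') (h : D.Tf β γ) (k : Dsc Λ β) : ∀ᶠ i in U, Dsc (Λ' i) (γ i) :=
  let ⟨ε, e, a, b⟩ := k
  (((hΛ.add (h.smul ε)).smp Y a).and ((hΛ.sub (h.smul ε)).smp Y b)).mono fun _ z => ⟨ε, e, z⟩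

theorem Tf.amp (hΛ : D.Tf Λ Λ') (h : D.Tf β γ) (k : AmpOn Λ β) :
    ∀ᶠ i in U, AmpOn (Λ' i) (γ i) :=
  ((hΛ.des Y h k.dsc).and (h.des Y hΛ k.dsc')).mono fun _ z => .of_dsc z.1 z.2

theorem Tf.rep (h : D.Tf β γ) (hG : D.Tf G G') (k : Rep β G) : ∀ᶠ i in U, Rep (γ i) (G' i) :=
  (hG.nn Y k.1).and ((hG.sub h).prn Y k.2)

theorem Tf.eff (h : D.Tf β γ) (k : Eff β) : ∀ᶠ i in U, Eff (γ i) :=
  let ⟨_, a⟩ := k
  (h.rep Y (tf_tr (a.car h.car.1)) a).mono fun _ z => z.eff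

theorem Tf.big (h : D.Tf β γ) (k : Big β) : ∀ᶠ i in U, Big (γ i) := by
  obtain ⟨A, A', a1, -, a3⟩ := exists_big Y D
  obtain ⟨ε, e, b⟩ := k.exists_eff a1.smp.1.car
  filter_upwards [a3, (h.sub ((Tf.sy a1).smul ε)).eff Y b] with i h1 h2
  exact (h1.smul e).of_sub h2.psef

theorem Tf.sup (h : D.Tf β γ) (h' : D.Tf β' γ') (k : β ∈ CarZ L) (k' : β' ∈ CarZ L) :
    β ⊔ β' ∈ CarZ L ∧ D.Tf (β ⊔ β') fun i => γ i ⊔ γ' i := by
  obtain ⟨s, u, -, -, rfl⟩ := mem_CarZ.1 k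
  obtain ⟨s', u', -, -, rfl⟩ := mem_CarZ.1 k'
  have e : ∀ {X : Type} (a b a' b' : X → ℝ),
      (a - b) ⊔ (a' - b') = (a + b') ⊔ (a' + b) - (b + b') := fun a b a' b' => by
    rw [sup_sub, add_sub_add_right_eq_sub, add_comm b, add_comm a', add_comm b',
      add_sub_add_left_eq_sub]
  have a := ((D.sy_mx s).add (D.sy_mx u')).sup ((D.sy_mx s').add (D.sy_mx u))
  have b := (D.sy_mx u).add (D.sy_mx u')
  refine ⟨?_, ?_⟩
  · obtain ⟨_, -, x, -⟩ := a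
    rw [e, x]
    exact sub_mem (mx_mem_CarZ _) (add_mem (mx_mem_CarZ _) (mx_mem_CarZ _))
  · rw [e]
    refine ((Tf.sy a).sub (.sy b)).congr ?_
    filter_upwards [h.uniq Y ((tf_mx s).sub (tf_mx u)), h'.uniq Y ((tf_mx s').sub (tf_mx u'))]
      with i h1 h2
    rw [h1, h2, e]

end any

section pos

variable (Y : Ny) {D : Lm c (n + 1) K L} {β β' Λ Ω G : BD L} {γ γ' Λ' Ω' G' : ∀ i, BD (K i)}
include Y

/-- the restriction of the transfer, for any transfer of the restriction -/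
theorem Tf.rst (h : D.Tf β γ) (P : Pl L) {δ : ∀ i, BD (D.sp P i).κ}
    (k : (D.rs P).Tf (P287D.res P β) δ) :
    ∀ᶠ i in U, P287D.res (D.sp P i) (γ i) = δ i + β P • dv (D.wt P i) := by
  obtain ⟨_, a, b⟩ := h.res Y.hy P
  exact (b.and (a.uniq Y k)).mono fun _ z => z.2 ▸ z.1

/-- **EXC**: the exceptional primes come from the limit -/
theorem Tf.exc (hΛ : D.Tf Λ Λ') (hΩ : D.Tf Ω Ω') (a : Smp Λ) (b : Big Λ) (a' : Smp Ω) :
    ∀ᶠ i in U, ∀ Q, On n (Ω' i) Q → ¬ On n (Λ' i) Q →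
      ∃ P, On n Ω P ∧ ¬ On n Λ P ∧ Q = D.sp P i := by
  obtain ⟨ε, e, G, g⟩ := b.exists_eff a'.car
  have f := hΛ.sub (hΩ.smul ε)
  have t : D.Tf G _ := tf_tr (g.car f.car.1)
  obtain ⟨T, x, y, z⟩ := t.su Y.hy Y.res hΩ a'.nef ((hΩ.smp Y a').mono fun _ k => k.nef)
  filter_upwards [z, f.rep Y t g, hΛ.smp Y a, hΩ.smp Y a', t.car.2,
    (eventually_all_finite x).2 fun P _ => hΛ.on Y.hy Y.res P] with i h1 h2 h3 h4 h5 h6 Q q q'
  have w : D.tr i G Q ≠ 0 := fun k => q' (on_of_psef Y.hy (D.ffi i) h3.nef h4.nef e (by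
    have m := Submodule.smul_mem _ ε h4.car
    rw [← Y.hy.smul n _ (D.ffi i) Q ε _ h4.car, ← Y.hy.res_sub (D.ffi i) Q h3.car m]
    refine (Eff.psef ⟨_, Y.res.nn n _ (D.ffi i) Q _ h5 h2.1 k, ?_⟩)
    rw [← Y.hy.res_sub (D.ffi i) Q h5 (sub_mem h3.car m)]
    exact Y.hy.res_prn (D.ffi i) Q h2.2) q)
  obtain ⟨P, u, rfl⟩ := h1 Q q w
  exact ⟨P, y P u, fun k => q' ((h6 P u).2 k), rfl⟩

end pos

/-- nef classes have a nef limit -/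
theorem nef_of (Y : Ny) (n : ℕ) : ∀ (K : ℕ → Type) [∀ i, Field (K i)] [∀ i, Algebra ℂ (K i)]
    (L : Type) [Field L] [Algebra ℂ L] (D : Lm c n K L) (β : BD L) (γ : ∀ i, BD (K i)),
    D.Tf β γ → (∀ᶠ i in U, Nef (γ i)) → Nef β := by
  induction n with
  | zero =>
    intro K _ _ L _ _ D β γ _ _
    rw [show β = 0 from funext fun P => (Cb.no_pl D.ff P).elim]
    exact Nef.zero
  | succ n ih =>
    intro K _ _ L _ _ D β γ h k
    cases n with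
    | zero =>
      obtain ⟨i, h1, h2⟩ := (k.and (h.vol Y.hy Y.res)).exists
      refine (Cv.nef1 D.ff β (Y.hy.isb 0 L D.ff β h.car.1)).2.1.2 ?_
      exact (h2 ▸ Y.hy.vol_nonneg (D.ffi i) h1 : 0 ≤ vol 1 β)
    | succ n =>
      refine Y.klm n L D.ff β h.car.1 fun P => ?_
      obtain ⟨δ, a, b⟩ := h.res Y.hy P
      refine ih _ _ (D.rs P) _ δ a ?_
      filter_upwards [k, b] with i h1 h2
      refine (Y.hy.res_nef (D.ffi i) (D.sp P i) h1).congr ?_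
      rw [h2, sub_add_cancel_left]
      exact neg_mem (Submodule.smul_mem _ _ (dv_mem_Prn _))

theorem Tf.nef (Y : Ny) {D : Lm c n K L} {β : BD L} {γ : ∀ i, BD (K i)} (h : D.Tf β γ)
    (k : ∀ᶠ i in U, Nef (γ i)) : Nef β := nef_of Y n K L D β γ h k

theorem tr_car (D : Lm c n K L) (i : ℕ) (β : BD L) : D.tr i β ∈ Car (K i) := by
  unfold tr
  split_ifs
  exacts [Submodule.sum_mem _ fun _ _ => Submodule.smul_mem _ _ (mx_mem_Car _), zero_mem _]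

/-- **RC** -/
theorem rc (Y : Ny) (D : Lm c n K L) : D.RC where
  car := D.tr_car
  add _ a _ b := ((tf_tr a).add (tf_tr b)).eq_tr Y
  smul t _ a := ((tf_tr a).smul t).eq_tr Y
  sys s := (tf_mx s).eq_tr Y
  pri f := (tf_dv f).eq_tr Y
  nn _ a := (tf_tr a).nn Y
  sup _ a _ b := ((tf_tr (CarZ.car a)).sup Y (tf_tr (CarZ.car b)) a b).imp_right fun k => k.eq_tr Y
  carZ _ a := (tf_tr (CarZ.car a)).carZ Y a
  prn _ a := (tf_tr (Prn_le_Car a)).prn Y a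
  smp _ a := (tf_tr a.car).smp Y a
  des _ _ a := (tf_tr a.smp.car).des Y (tf_tr a.car) a
  amp _ _ a := (tf_tr a.smp_left.car).amp Y (tf_tr a.car) a
  rep _ a _ b := (tf_tr a).rep Y (tf_tr (b.car a)) b
  big _ a := (tf_tr a).big Y
  num _ a := Tf.num Y.hy Y.res fun j => tf_tr (a j)
  nef _ a := (tf_tr a).nef Y

variable (Y : Ny) (D : Lm c (n + 1) K L)
include Y

theorem rp_val : ∀ β ∈ Car L, ∀ P, ∀ᶠ i in U, D.tr i β (D.sp P i) = β P :=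
  fun _ a => (tf_tr a).val

theorem rp_rst : ∀ β ∈ Car L, ∀ P, ∀ᶠ i in U,
    res (D.sp P i) (D.tr i β) - (D.rs P).tr i (res P β) ∈ Prn (D.sp P i).κ ∧
      (β P = 0 → res (D.sp P i) (D.tr i β) = (D.rs P).tr i (res P β)) := fun β a P =>
  ((tf_tr a).rst Y P (tf_tr (In.res_car P β))).mono fun _ k =>
    ⟨by rw [k, add_sub_cancel_left]; exact Submodule.smul_mem _ _ (dv_mem_Prn _),
      fun e => by rw [k, e, zero_smul, add_zero]⟩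

theorem rp_deg : ∀ β : Fin n → BD L, (∀ j, β j ∈ Car L) → ∀ P, ∀ᶠ i in U,
    I n (D.sp P i).κ (fun j => res (D.sp P i) (D.tr i (β j))) = I n P.κ fun j => res P (β j) :=
  fun _ a => Tf.deg Y.hy Y.res fun j => tf_tr (a j)

theorem rp_on : ∀ Λ ∈ Car L, ∀ P, ∀ᶠ i in U, (On n (D.tr i Λ) (D.sp P i) ↔ On n Λ P) :=
  fun _ a => (tf_tr a).on Y.hy Y.res

theorem rp_supp : ∀ Λ, Smp Λ → Big Λ → ∀ β ∈ Car L, ∀ᶠ i in U, ∀ Q, On n (D.tr i Λ) Q →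
    D.tr i β Q ≠ 0 → ∃ P, On n Λ P ∧ β P ≠ 0 ∧ Q = D.sp P i := fun _ a _ _ b =>
  (tf_tr b).supp Y.hy Y.res (tf_tr a.car) a.nef (((tf_tr a.car).smp Y a).mono fun _ k => k.nef)

theorem rp_exc : ∀ Λ Λ', Smp Λ → Big Λ → Smp Λ' → Big Λ' → ∀ᶠ i in U, ∀ Q, On n (D.tr i Λ') Q →
    ¬ On n (D.tr i Λ) Q → ∃ P, On n Λ' P ∧ ¬ On n Λ P ∧ Q = D.sp P i := fun _ _ a b a' _ =>
  (tf_tr a.car).exc Y (tf_tr a'.car) a b a'

end Lm

end Vale.Agent.P283B.U
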