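import Vale.Agent.P287D.Pb.Deg
import Vale.Agent.P287D.Cb.Ad

/-!
# P283B, block U: certificates in one field. Degrees, volumes of systems, polarisation
-/

set_option linter.unusedSectionVars false

open Set Function MvPolynomial
open Vale.Agent.P297Z

noncomputable section

namespace Vale.Agent.P283B.U.Nm

open P287D IntermediateField

section abs

variable {A F K : Type} [CommRing A] [IsDomain A] [Field F] [Algebra A F] [IsFractionRing A F]
  [Field K] [Algebra F K] [Algebra A K] [IsScalarTower A F K]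

theorem finrank_eq [IsGCDMonoid A] {θ : K} {p : Polynomial A} (hi : Irreducible p)
    (h0 : Polynomial.aeval θ p = 0) (ht : F⟮θ⟯ = ⊤) : Module.finrank F K = p.natDegree := by
  have inj : Injective (algebraMap A K) := by
    rw [IsScalarTower.algebraMap_eq A F K]
    exact (algebraMap F K).injective.comp (IsFractionRing.injective A F)
  have d : p.natDegree ≠ 0 := fun e => by
    rw [Polynomial.eq_C_of_natDegree_eq_zero e, Polynomial.aeval_C,
      map_eq_zero_iff _ inj] at h0
    exact hi.ne_zero (by rw [Polynomial.eq_C_of_natDegree_eq_zero e, h0, map_zero])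
  have i' := ((hi.isPrimitive d).irreducible_iff_irreducible_map_fraction_map (K := F)).1 hi
  have z : Polynomial.aeval θ (p.map (algebraMap A F)) = 0 := by
    rwa [Polynomial.aeval_map_algebraMap]
  have l := Polynomial.leadingCoeff_ne_zero.2 i'.ne_zero
  have int : IsIntegral F θ := IsAlgebraic.isIntegral ⟨_, i'.ne_zero, z⟩
  rw [← finrank_top' (F := F), ← ht, adjoin.finrank int, ← minpoly.eq_of_irreducible i' z,
    Polynomial.natDegree_mul_C (inv_ne_zero l),
    Polynomial.natDegree_map_eq_of_injective (IsFractionRing.injective A F)]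

theorem exists_irr [CharZero F] [FiniteDimensional F K] : ∃ (θ : K) (p : Polynomial A),
    Irreducible p ∧ p.Monic ∧ Polynomial.aeval θ p = 0 ∧ F⟮θ⟯ = ⊤ := by
  obtain ⟨α, hα⟩ := Field.exists_primitive_element F K
  have a : IsAlgebraic A α :=
    (IsFractionRing.isAlgebraic_iff A F K).2 (Algebra.IsAlgebraic.isAlgebraic α)
  obtain ⟨y, y0, hy⟩ := a.exists_integral_multiple
  refine ⟨y • α, _, minpoly.irreducible hy, minpoly.monic hy, minpoly.aeval _ _, ?_⟩
  rw [eq_top_iff, ← hα, adjoin_simple_le_iff]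
  rw [← algebraMap_smul F y α]
  have := F⟮algebraMap A F y • α⟯.smul_mem (mem_adjoin_simple_self F _) (x := (algebraMap A F y)⁻¹)
  rwa [inv_smul_smul₀ ((map_ne_zero_iff _ (IsFractionRing.injective A F)).2 y0)] at this

end abs

variable {K : Type} [Field K] [Algebra ℂ K] {n : ℕ}

/-- the field of rational functions -/
abbrev Rn (n : ℕ) : Type := FractionRing (MvPolynomial (Fin n) ℂ)

/-- the variables -/
def xv (n : ℕ) (i : Fin n) : Rn n := algebraMap (MvPolynomial (Fin n) ℂ) (Rn n) (X i)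

/-- the substitution of independent elements -/
def hm {x : Fin n → K} (hx : AlgebraicIndependent ℂ x) : Rn n →ₐ[ℂ] K :=
  IsFractionRing.liftAlgHom (g := aeval x) hx

theorem hm_alg {x : Fin n → K} (hx : AlgebraicIndependent ℂ x) (p : MvPolynomial (Fin n) ℂ) :
    hm hx (algebraMap _ _ p) = aeval x p := IsFractionRing.lift_algebraMap hx p

theorem hm_xv {x : Fin n → K} (hx : AlgebraicIndependent ℂ x) (i : Fin n) :
    hm hx (xv n i) = x i := (hm_alg hx _).trans (aeval_X _ _)

theorem hm_mem {x : Fin n → K} (hx : AlgebraicIndependent ℂ x) (a : Rn n) :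
    hm hx a ∈ adjoin ℂ (range x) := by
  obtain ⟨p, q, -, rfl⟩ := IsFractionRing.div_surjective (A := MvPolynomial (Fin n) ℂ) a
  rw [map_div₀, hm_alg, hm_alg]
  exact (mem_adjoin_range_iff ℂ x _).2 ⟨p, q, rfl⟩

theorem aeval_xv (p : MvPolynomial (Fin n) ℂ) : aeval (xv n) p = algebraMap _ (Rn n) p :=
  DFunLike.congr_fun (algHom_ext (f := aeval (xv n))
    (g := IsScalarTower.toAlgHom ℂ (MvPolynomial (Fin n) ℂ) (Rn n)) fun _ => aeval_X _ _) p

theorem ff_Rn (n : ℕ) : FF (Rn n) n := by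
  have t : adjoin ℂ (range (xv n)) = ⊤ := eq_top_iff.2 fun a _ => by
    obtain ⟨p, q, -, rfl⟩ := IsFractionRing.div_surjective (A := MvPolynomial (Fin n) ℂ) a
    exact (mem_adjoin_range_iff ℂ _ _).2 ⟨p, q, by rw [aeval_xv, aeval_xv]⟩
  refine ⟨xv n, fun p q e => IsFractionRing.injective _ (Rn n) ?_, ?_⟩
  · rwa [aeval_xv, aeval_xv] at e
  · rw [t]
    exact Module.Finite.of_surjective (Algebra.linearMap _ _) fun a => ⟨⟨a, mem_top⟩, rfl⟩

theorem aeval_opt (x : Fin n → K) (θ : K) (G : MvPolynomial (Option (Fin n)) ℂ) :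
    aeval (fun o : Option (Fin n) => o.elim θ x) G =
      (optionEquivLeft ℂ (Fin n) G).eval₂ (aeval x : MvPolynomial (Fin n) ℂ →ₐ[ℂ] K) θ := by
  induction G using MvPolynomial.induction_on with
  | C a => simp [optionEquivLeft_C]
  | add p q hp hq => simp only [map_add, Polynomial.eval₂_add, hp, hq]
  | mul_X p i hp =>
    rw [map_mul, map_mul, Polynomial.eval₂_mul, hp]
    cases i <;> simp

/-- the certificate of the degree of `K` over the field of `x` -/
structure Pm (x : Fin n → K) (θ : K) (G : MvPolynomial (Option (Fin n)) ℂ) : Prop where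
  irr : Irreducible G
  zero : aeval (fun o : Option (Fin n) => o.elim θ x) G = 0
  top : adjoin ℂ (range fun o : Option (Fin n) => o.elim θ x) = ⊤

theorem Pm.rk {x : Fin n → K} {θ : K} {G : MvPolynomial (Option (Fin n)) ℂ} (h : Pm x θ G)
    (hx : AlgebraicIndependent ℂ x) : Pb.rk (hm hx : Rn n →+* K) = G.degreeOf none := by
  let _ := (hm hx : Rn n →+* K).toAlgebra
  let _ := (aeval x : MvPolynomial (Fin n) ℂ →ₐ[ℂ] K).toRingHom.toAlgebra
  have : IsScalarTower (MvPolynomial (Fin n) ℂ) (Rn n) K :=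
    IsScalarTower.of_algebraMap_eq fun p => (hm_alg hx p).symm
  have : IsScalarTower ℂ (Rn n) K := IsScalarTower.of_algebraMap_eq fun c => ((hm hx).commutes c).symm
  rw [← natDegree_optionEquivLeft]
  refine finrank_eq (θ := θ) ((MulEquiv.irreducible_iff (optionEquivLeft ℂ (Fin n))).2 h.irr)
    ((aeval_opt x θ G).symm.trans h.zero) ?_
  rw [← restrictScalars_eq_top_iff (K := ℂ), eq_top_iff, ← h.top, adjoin_le_iff]
  rintro _ ⟨_ | i, rfl⟩
  · exact mem_adjoin_simple_self _ θ
  · have : hm hx (xv n i) ∈ (Rn n)⟮θ⟯ := (Rn n)⟮θ⟯.algebraMap_mem (xv n i)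
    rwa [hm_xv] at this

theorem exists_pm (hK : FF K n) {x : Fin n → K} (hx : AlgebraicIndependent ℂ x) :
    ∃ θ G, Pm x θ G := by
  let _ := (hm hx : Rn n →+* K).toAlgebra
  let _ := (aeval x : MvPolynomial (Fin n) ℂ →ₐ[ℂ] K).toRingHom.toAlgebra
  have : IsScalarTower (MvPolynomial (Fin n) ℂ) (Rn n) K :=
    IsScalarTower.of_algebraMap_eq fun p => (hm_alg hx p).symm
  have : IsScalarTower ℂ (Rn n) K := IsScalarTower.of_algebraMap_eq fun c => ((hm hx).commutes c).symm
  have := Pb.fin_of_ff (ff_Rn n) hK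
  have : CharZero (Rn n) := charZero_of_injective_algebraMap (algebraMap ℂ _).injective
  obtain ⟨θ, p, a, -, b, c⟩ := exists_irr (A := MvPolynomial (Fin n) ℂ) (F := Rn n) (K := K)
  refine ⟨θ, (optionEquivLeft ℂ (Fin n)).symm p,
    (MulEquiv.irreducible_iff (optionEquivLeft ℂ (Fin n)).symm).2 a, ?_, eq_top_iff.2 fun z hz => ?_⟩
  · rw [aeval_opt, AlgEquiv.apply_symm_apply]
    exact b
  · replace hz : z ∈ (Rn n)⟮θ⟯ := c ▸ mem_top
    induction hz using adjoin_induction with
    | mem y hy => exact hy ▸ subset_adjoin _ _ ⟨none, rfl⟩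
    | algebraMap a => exact adjoin.mono _ _ _ (by rintro _ ⟨i, rfl⟩; exact ⟨some i, rfl⟩) (hm_mem hx a)
    | add a b _ _ u v => exact add_mem u v
    | inv a _ u => exact inv_mem u
    | mul a b _ _ u v => exact mul_mem u v

/-! ### volumes of systems -/

open Classical in
/-- the system of a tuple -/
def tu {ι : Type} [Fintype ι] (v : ι → K) : Finset K := Finset.univ.image v

theorem mem_tu {ι : Type} [Fintype ι] {v : ι → K} {f : K} : f ∈ tu v ↔ ∃ i, v i = f := by
  simp [tu]

theorem tu_mem {ι : Type} [Fintype ι] (v : ι → K) (i : ι) : v i ∈ tu v := mem_tu.2 ⟨i, rfl⟩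

theorem exists_tu (s : Finset K) : ∃ (k : ℕ) (v : Fin k → K), tu v = s :=
  ⟨s.card, fun i => s.equivFin.symm i, Finset.ext fun f => mem_tu.trans
    ⟨fun ⟨i, e⟩ => e ▸ (s.equivFin.symm i).2, fun h => ⟨s.equivFin ⟨f, h⟩, by simp⟩⟩⟩

/-- one member of a system with a relation is superfluous -/
theorem tu_red {k : ℕ} {v : Fin (k + 1) → K} {j : Fin (k + 1)} (hj : v j ≠ 0)
    {G : MvPolynomial (Fin k) ℂ} {c : Fin k → ℂ}
    (h0 : aeval (fun i => v (j.succAbove i) / v j) G = 0) (hc : eval c G ≠ 0) :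
    mx (tu v) = mx (tu fun i => v (j.succAbove i) - c i • v j) := by
  set w := fun i => v (j.succAbove i) - c i • v j with hw
  have e : ∀ i, v (j.succAbove i) / v j = w i / v j + algebraMap ℂ K (c i) := fun i => by
    simp only [hw, Algebra.smul_def]
    field_simp
    ring
  have key : ∀ P : Pl K, ∃ i, w i ≠ 0 ∧ P.ord (w i) ≤ P.ord (v j) := fun P => by
    by_contra! hP
    have m : ∀ i, Cb.Mx P (w i / v j) := fun i => Cb.mx_iff.2 (by
      by_cases z : w i = 0
      · simp [z]
      · rw [Pl.ord_div _ z hj, sub_pos]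
        exact Or.inr (hP i z))
    have a := Cb.rd_aeval (P := P) (u := fun i => v (j.succAbove i) / v j)
      (fun i => e i ▸ add_mem (m i).mem (P.con _)) G
    have b : (fun i => P.rd (v (j.succAbove i) / v j)) = algebraMap ℂ P.κ ∘ c := funext fun i => by
      rw [e, Cb.rd_add (m i).mem (P.con _), (Cb.rd_eq_zero (m i).mem).2 (m i), zero_add,
        Cb.rd_const, comp_apply]
    rw [h0, (Cb.rd_eq_zero (zero_mem _)).2 Cb.mx_zero, b, aeval_algebraMap_apply,
      eq_comm, map_eq_zero] at a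
    exact hc a
  funext P
  obtain ⟨i, i0, -⟩ := key P
  have nz : Nz (tu w) := ⟨_, tu_mem w i, i0⟩
  have sj : Sec (mx (tu w)) (v j) := Or.inr fun Q => by
    obtain ⟨i, a, b⟩ := key Q
    have := Q.le_mz (tu_mem w i) a
    change (0 : ℝ) ≤ Q.ord (v j) + Q.mz (tu w)
    exact_mod_cast (by omega : 0 ≤ Q.ord (v j) + Q.mz (tu w))
  refine congrFun (le_antisymm (mx_le ⟨_, tu_mem v j, hj⟩ fun f hf => ?_)
    (mx_le_of_span nz fun f hf => ?_)) P
  · obtain ⟨l, rfl⟩ := mem_tu.1 hf
    refine j.succAboveCases sj (fun l => ?_) l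
    simpa [hw] using (sec_of_mem (tu_mem w l)).add (sj.smul (c l))
  · obtain ⟨l, rfl⟩ := mem_tu.1 hf
    exact sub_mem (Submodule.subset_span (tu_mem v _))
      (Submodule.smul_mem _ _ (Submodule.subset_span (tu_mem v j)))

/-- the hyperplane class -/
def hx (k : ℕ) : BD (Rn k) := mx (tu (Fin.cons 1 (xv k) : Fin (k + 1) → Rn k))

theorem tu_eq (hK : FF K n) {k : ℕ} {v : Fin (k + 1) → K} {j : Fin (k + 1)} (hj : v j ≠ 0)
    (h : AlgebraicIndependent ℂ fun i => v (j.succAbove i) / v j) :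
    mx (tu v) = pb (hm h : Rn k →+* K) (hx k) - dv (v j) := by
  classical
  rw [hx, ((Cst.of_lin (φ := (hm h : Rn k →+* K)) (hm h).commutes).ok (ff_Rn k) hK).pb_mx, eq_sub_iff_add_eq,
    ← sub_neg_eq_add, ← dv_inv, ← mx_image_mul ⟨_, tu_mem v j, hj⟩ (inv_ne_zero hj)]
  congr 1
  ext f
  simp only [Finset.mem_image, Pb.mem_im, mem_tu, exists_exists_eq_and]
  rw [Fin.exists_iff_succAbove j, Fin.exists_fin_succ]
  simp [hj, hm_xv, div_eq_mul_inv]

variable (H : In.Hy) (R : RES)
include H R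

theorem vol_lt (hK : FF K n) {k : ℕ} {v : Fin (k + 1) → K} {j : Fin (k + 1)} (hj : v j ≠ 0)
    (h : AlgebraicIndependent ℂ fun i => v (j.succAbove i) / v j) (hk : k < n) :
    vol n (mx (tu v)) = 0 := by
  have c := Cst.of_lin (φ := (hm h : Rn k →+* K)) (hm h).commutes
  have m := (c.ok (ff_Rn k) hK).car (mx_mem_Car _ : hx k ∈ _)
  rw [vol, Pb.I_congr H hK (β := fun _ => pb (hm h : Rn k →+* K) (hx k)) (fun _ => m) fun _ => by
    rw [tu_eq hK hj h, sub_sub_cancel_left]; exact neg_mem (dv_mem_Prn _)]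
  exact Pb.low H R n k _ K _ (ff_Rn k) hK c _ Finset.univ (by simpa using hk) (fun _ _ => m)
    fun _ _ => ⟨_, mx_mem_Car _, rfl⟩

theorem vol_eq (hK : FF K n) {v : Fin (n + 1) → K} {j : Fin (n + 1)} (hj : v j ≠ 0)
    (h : AlgebraicIndependent ℂ fun i => v (j.succAbove i) / v j) :
    vol n (mx (tu v)) = Pb.rk (hm h : Rn n →+* K) * vol n (hx n) := by
  have c := Cst.of_lin (φ := (hm h : Rn n →+* K)) (hm h).commutes
  have m := (c.ok (ff_Rn n) hK).car (mx_mem_Car _ : hx n ∈ _)
  rw [vol, Pb.I_congr H hK (β := fun _ => pb (hm h : Rn n →+* K) (hx n)) (fun _ => m) fun _ => by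
    rw [tu_eq hK hj h, sub_sub_cancel_left]; exact neg_mem (dv_mem_Prn _)]
  exact Pb.deg H R n _ K _ (hm h).commutes (ff_Rn n) hK _ fun _ _ => mx_mem_Car _

/-- a system of positive volume has enough independent members -/
theorem exists_ind (hK : FF K n) {s : Finset K} (h1 : 0 < vol n (mx s)) :
    ∃ u : Fin n → K, (∀ i, u i ∈ s) ∧ AlgebraicIndependent ℂ u := by
  classical
  let F := adjoin ℂ (s : Set K)
  obtain ⟨m, hm, hF⟩ := Gm.ff_sub hK F
  have c : Cst (inc F) := Cst.of_lin fun _ => rfl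
  have e : mx s = pb (inc F) (mx (s.attach.image fun f => ⟨f.1, subset_adjoin _ _ f.2⟩)) := by
    rw [(c.ok hF hK).pb_mx]
    congr 1
    ext f
    simpa [Pb.mem_im] using fun h : f ∈ s => subset_adjoin ℂ _ h
  obtain rfl : m = n := hm.eq_or_lt.resolve_right fun k => h1.ne' (Pb.low H R n m F K _ hF hK c _
    Finset.univ (by simpa using k) (fun _ _ => mx_mem_Car s) fun _ _ => ⟨_, mx_mem_Car _, e⟩)
  have := Pb.fin_of_ff hF hK
  have : Algebra.IsAlgebraic (Algebra.adjoin ℂ (s : Set K)) K :=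
    isAlgebraic_adjoin_iff_top.1 inferInstance
  obtain ⟨t, ht, b⟩ := exists_isTranscendenceBasis_subset (R := ℂ) (s : Set K)
  have d := b.cardinalMk_eq_trdeg
  rw [hK.trdeg, ← Cardinal.mk_fin, Cardinal.eq] at d
  obtain ⟨d⟩ := d
  exact ⟨fun i => d.symm i, fun i => ht (d.symm i).2, b.1.comp _ d.symm.injective⟩

omit H R

theorem card_le (hK : FF K n) {k : ℕ} {x : Fin k → K} (h : AlgebraicIndependent ℂ x) : k ≤ n := by
  have := h.cardinalMk_le_trdeg
  rw [hK.trdeg, Cardinal.mk_fin] at this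
  exact_mod_cast this

theorem vol_zero {K' : Type} [Field K'] [Algebra ℂ K'] :
    vol n (0 : BD K) = vol n (0 : BD K') := by
  cases n with
  | zero => rfl
  | succ n => simp [In.vol_succ, In.I_cons]

/-! ### polarisation -/

open Classical in
/-- the number of the surjective maps -/
def sj (n : ℕ) : ℕ := (Finset.univ.filter fun r : Fin n → Fin n => Surjective r).card

theorem sj_pos (n : ℕ) : 0 < sj n := by
  classical
  exact Finset.card_pos.2 ⟨id, by simpa using surjective_id⟩

theorem polar {V : Type} [AddCommGroup V] [Module ℝ V]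
    (G : MultilinearMap ℝ (fun _ : Fin n => V) ℝ)
    (hs : ∀ (a : Fin n → V) (σ : Equiv.Perm (Fin n)), G (a ∘ σ) = G a) (a : Fin n → V) :
    ∑ T : Finset (Fin n), (-1 : ℝ) ^ T.card * G (fun _ => ∑ j ∈ Tᶜ, a j) = sj n * G a := by
  classical
  have e : ∀ T : Finset (Fin n), G (fun _ => ∑ j ∈ Tᶜ, a j) = ∑ r : Fin n → Fin n,
      if T ∈ (Finset.univ.image r)ᶜ.powerset then G (a ∘ r) else 0 := fun T => by
    rw [G.map_sum_finset (fun _ j => a j) fun _ => Tᶜ, ← Finset.sum_filter]
    refine Finset.sum_congr ?_ fun _ _ => rfl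
    ext r
    simp only [Fintype.mem_piFinset, Finset.mem_compl, Finset.mem_filter, Finset.mem_univ,
      true_and, Finset.mem_powerset, Finset.subset_iff, Finset.mem_image, not_exists]
    exact ⟨fun k x hx i z => k i (z ▸ hx), fun k i hi => k hi i rfl⟩
  simp only [e, Finset.mul_sum, mul_ite, mul_zero]
  rw [Finset.sum_comm, sj, Finset.card_filter, Nat.cast_sum, Finset.sum_mul]
  refine Finset.sum_congr rfl fun r _ => ?_
  rw [Finset.sum_ite_mem, Finset.univ_inter, ← Finset.sum_mul]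
  have z : ∑ T ∈ (Finset.univ.image r)ᶜ.powerset, (-1 : ℝ) ^ T.card =
      if (Finset.univ.image r)ᶜ = ∅ then 1 else 0 := by
    exact_mod_cast congrArg (Int.cast (R := ℝ)) (Finset.sum_powerset_neg_one_pow_card
      (x := (Finset.univ.image r)ᶜ))
  have y : (Finset.univ.image r)ᶜ = ∅ ↔ Surjective r := by
    simp [Finset.eq_univ_iff_forall, Surjective]
  rw [z]
  by_cases k : Surjective r
  · rw [if_pos (y.2 k), if_pos k, Nat.cast_one, ← hs a
      (Equiv.ofBijective r (Finite.surjective_iff_bijective.1 k))]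
    rfl
  · rw [if_neg fun q => k (y.1 q), if_neg k, Nat.cast_zero, zero_mul, zero_mul]

theorem I_polar (H : In.Hy) (hK : FF K n) {β : Fin n → BD K} (hβ : ∀ j, β j ∈ Car K) :
    ∑ T : Finset (Fin n), (-1 : ℝ) ^ T.card * vol n (∑ j ∈ Tᶜ, β j) = sj n * I n K β := by
  have r := (H.row n K hK).ml
  have u : ∀ (m : Fin n → Car K) (i : Fin n) (x : Car K),
      (fun j => (update m i x j : BD K)) = update (fun j => (m j : BD K)) i x := fun m i x =>
    comp_update Subtype.val m i x
  have := polar (V := Car K) (MultilinearMap.mk' (fun m => I n K fun j => m j)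
    (fun m i x y => by
      rw [u, u, u]
      exact r.add _ i _ _ (fun j => (m j).2) x.2 y.2)
    fun m i c x => by
      rw [u, u]
      exact r.smul _ i c _ (fun j => (m j).2) x.2)
    (fun a σ => H.perm n K hK (fun j => a j) σ fun j => (a j).2) fun j => ⟨β j, hβ j⟩
  simpa [vol] using this

end Vale.Agent.P283B.U.Nm
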