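import Vale.Agent.P283B.U.Sl
import Vale.Agent.P283B.U.Sm
import Vale.Agent.P283B.U.Sec
import Vale.Agent.P283B.U.St

/-!
# P283B, block U: toroidal places and places of small log discrepancy are limits
-/

set_option linter.unusedVariables false
set_option linter.unusedSectionVars false

open Set Filter

noncomputable section

namespace Vale.Agent.P283B.U

open P287D P287D.Cb

section one

variable {K : Type} [Field K] [Algebra ℂ K] {n : ℕ} {ι : Type} {A κ E : BD K} {h : ι → BD K}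
  {t : Fin (n + 1) → K} {j : K} {l : ι → Option (Fin (n + 1))} {e : ℝ} {Q : Pl K}

open Classical in
/-- the system of a weighted blow up -/
def ms (t : Fin (n + 1) → K) (k : Fin (n + 1)) (w : Fin (n + 1) → ℕ) : Finset K :=
  insert 1 (Finset.univ.image (mon t k w))

theorem ms_one (k : Fin (n + 1)) (w : Fin (n + 1) → ℕ) : (1 : K) ∈ ms t k w := by
  classical exact Finset.mem_insert.2 (.inl rfl)

theorem ms_mem (k : Fin (n + 1)) (w : Fin (n + 1) → ℕ) (a : Fin (n + 1)) :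
    mon t k w a ∈ ms t k w := by
  simp [ms]

theorem ms_big (hK : FF K (n + 1)) (ht : AlgebraicIndependent ℂ t) {k : Fin (n + 1)}
    {w : Fin (n + 1) → ℕ} (hw : w k ≠ 0) : Big (mx (ms t k w)) :=
  big_of_ind hK (eff_mx _) (.refl _) (mon_kap hK ht hw).1 fun a => by
    simpa using (sec_of_mem (ms_mem (t := t) k w a)).div_mem (sec_of_mem (ms_one k w))

namespace Ch

variable (c : Ch n A κ h E t j l e) (hy : In.Hy) (hR : RES) (hK : FF K (n + 1)) (hQ : E Q = 0)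
include c hQ

theorem nn' (a : ι) : 0 ≤ h a Q := by
  rw [c.val hQ]
  rcases l a with _ | k
  · simp
  · exact_mod_cast P297Z.Pl.ord_nonneg_of_mem Q.toPlace (c.mem hQ k)

include hy hR hK

/-- a place with a small log discrepancy is the divisor of a weighted blow up -/
theorem tor [Fintype ι] {N : ℕ} (h0 : ld (n + 1) κ Q ≤ N) (h1 : ld (n + 1) κ Q < 1 + ∑ a, h a Q) :
    ∃ (k : Fin (n + 1)) (w : Fin (n + 1) → Fin (N + 1)), (w k : ℕ) ≠ 0 ∧
      On n (mx (ms t k fun a => w a)) Q ∧ dv (t k) Q ≠ 0 := by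
  have m := c.mem hQ
  have o := fun k => P297Z.Pl.ord_nonneg_of_mem Q.toPlace (m k)
  have s := sum_le_kap hK c.ind Q
  have x := (h1.trans_le (add_le_add_right (c.sum_le hQ) 1))
  rw [c.ld_eq hQ] at h0 x
  choose v hv using fun k => Int.eq_ofNat_of_zero_le (o k)
  have b : ∀ a, v a < N + 1 := fun a => by
    have := (ord_le_sum m {a}).trans (s.trans h0)
    rw [Finset.sum_singleton, hv] at this
    exact Nat.lt_succ_of_le (by exact_mod_cast this)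
  simp only [hv, Int.cast_natCast] at x
  obtain ⟨k, -, hk⟩ := Finset.exists_ne_zero_of_sum_ne_zero
    (((kap_nonneg hK m).trans_lt (by linarith : kap t Q < ∑ a, (v a : ℝ))).ne')
  have k0 : v k ≠ 0 := Nat.cast_ne_zero.1 hk
  obtain ⟨u, i⟩ := mon_ind hK c.ind k0 hv (by linarith)
  refine ⟨k, fun a => ⟨v a, b a⟩, k0, on_of_ind hy hR hK (.refl (smp_mx _)) (mx_nonneg (ms_one k v))
    ?_ (finSuccAboveEquiv k) (fun a => sec_of_mem (ms_mem k v a)) i, by rwa [dv_apply, hv]⟩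
  rw [mx_apply, Q.mz_eq (ms_one k v) one_ne_zero fun g hg _ => ?_]
  · simp
  simp only [ms, Finset.mem_insert, Finset.mem_image] at hg
  rcases hg with rfl | ⟨a, -, rfl⟩
  · rfl
  by_cases z : a = k
  · simpa [mon, z] using o k
  · simp [u a z]

theorem low [Fintype ι] (he : 0 < e) {b : ι → ℝ} {δ : ℝ} (h0 : 0 < δ) (h1 : δ ≤ 1)
    (hb : ∀ a, b a ≤ 1 - δ) (hΓ : ld (n + 1) (κ + ∑ a, b a • h a) Q ≤ 1) :
    On n A Q ∨ ld (n + 1) κ Q ≤ δ⁻¹ ∧ ld (n + 1) κ Q < 1 + ∑ a, h a Q := by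
  have x : ∑ a, b a * h a Q ≤ (1 - δ) * ∑ a, h a Q := by
    rw [Finset.mul_sum]
    exact Finset.sum_le_sum fun a _ => mul_le_mul_of_nonneg_right (hb a) (c.nn' hQ a)
  have y : ld (n + 1) (κ + ∑ a, b a • h a) Q = ld (n + 1) κ Q - ∑ a, b a * h a Q := by
    simp only [ld, dsc, Pi.sub_apply, Pi.add_apply, Finset.sum_apply, Pi.smul_apply, smul_eq_mul]
    ring
  have s := (c.sum_le hQ).trans (sum_le_kap hK c.ind Q)
  rw [← c.ld_eq hQ] at s
  rcases (Finset.sum_nonneg fun a (_ : a ∈ Finset.univ) => c.nn' hQ a).eq_or_lt with z | z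
  · obtain ⟨k, hk⟩ := exists_ind hK c.ind (c.mem hQ) (by
      have := c.ld_eq hQ
      rw [← z] at x
      linarith)
    exact .inl (c.isOn hy hR hK he hQ hk)
  · refine .inr ⟨?_, by nlinarith⟩
    rw [← one_div, le_div_iff₀ h0]
    nlinarith

end Ch

end one

variable {U : Ultrafilter ℕ} {c : Cq U} {n : ℕ} {K : ℕ → Type} [∀ i, Field (K i)]
  [∀ i, Algebra ℂ (K i)] {L : Type} [Field L] [Algebra ℂ L]

namespace Lm

variable (D : Lm c (n + 1) K L)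

/-- the transfer of charts -/
def Chs : Prop := ∀ (A κ : BD L) (ι : Type) [Fintype ι] (p : ι → Pl L) (h : ι → BD L) (e : ℝ),
  Sm n A κ p h e → ∀ (m : ℕ) (E : Fin m → BD L) (t : Fin m → Fin (n + 1) → L) (j : Fin m → L)
    (l : Fin m → ι → Option (Fin (n + 1))), (∀ b, Ch n A κ h (E b) (t b) (j b) (l b) e) →
    (∀ Q, ∃ b, E b Q = 0) → ∀ᶠ i in U, (∀ b, Ch n (D.tr i A) (D.tp i κ) (fun a => D.tr i (h a))
      (D.tr i (E b)) (fun k => D.r i (t b k)) (D.jc i * D.r i (j b)) (l b) e) ∧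
      ∀ Q, ∃ b, D.tr i (E b) Q = 0

theorem ms_im (t : Fin (n + 1) → L) (k : Fin (n + 1)) (w : Fin (n + 1) → ℕ) :
    ∀ᶠ i in U, D.im i (ms t k w) = ms (fun a => D.r i (t a)) k w := by
  classical
  filter_upwards [D.one, eventually_all.2 fun a => (D.div (t a ^ w k) (t k ^ w a)).and
    ((D.pow (t a) (w k)).and (D.pow (t k) (w a)))] with i o x
  have y : D.r i ∘ mon t k w = mon (fun a => D.r i (t a)) k w := funext fun a => by
    simp only [Function.comp, mon]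
    split_ifs
    · rfl
    · rw [(x a).1, (x a).2.1, (x a).2.2]
  simp only [im, ms, Finset.image_insert, Finset.image_image, o, y]

variable {D} {A κ : BD L} {ι : Type} [Fintype ι] {p : ι → Pl L} {h : ι → BD L} {e : ℝ}

/-- the uniform form of **TOR** -/
theorem tor_fin (H : Hs) (hy : In.Hy) (rc : D.RC) (sp : D.Sup) (ch : D.Chs)
    (s : Sm n A κ p h e) (v : ℝ) : ∃ T : Set (Pl L), T.Finite ∧
      (∀ Q, ld (n + 1) κ Q ≤ v → ld (n + 1) κ Q < 1 + ∑ a, h a Q → Q ∈ T) ∧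
      ∀ᶠ i in U, ∀ Q, ld (n + 1) (D.tp i κ) Q ≤ v →
        ld (n + 1) (D.tp i κ) Q < 1 + ∑ a, D.tr i (h a) Q → ∃ P ∈ T, Q = D.sp P i := by
  obtain ⟨N, hN⟩ := exists_nat_ge v
  obtain ⟨m, E, t, j, l, c, w⟩ := s.ch
  let S := fun x : Fin m × Fin (n + 1) × (Fin (n + 1) → Fin (N + 1)) =>
    {P | (x.2.2 x.2.1 : ℕ) ≠ 0 ∧ On n (mx (ms (t x.1) x.2.1 fun a => x.2.2 a)) P ∧
      dv (t x.1 x.2.1) P ≠ 0}
  refine ⟨⋃ x, S x, finite_iUnion fun x => ?_, fun Q a b => ?_, ?_⟩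
  · by_cases z : (x.2.2 x.2.1 : ℕ) = 0
    · exact finite_empty.subset fun P hP => hP.1 z
    · exact (Gs.isb_fin D.ff H.ng (smp_mx _) (ms_big D.ff (c x.1).ind (w := fun a => x.2.2 a) z)
        (hy.isb n L D.ff _ (dv_mem_Car _))).subset fun P hP => hP.2
  · obtain ⟨x, hx⟩ := w Q
    obtain ⟨k, u, y⟩ := (c x).tor hy H.rs D.ff hx (a.trans hN) b
    exact mem_iUnion.2 ⟨(x, k, u), y⟩
  · have k : ∀ x : Fin m × Fin (n + 1) × (Fin (n + 1) → Fin (N + 1)), ∀ᶠ i in U,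
        (x.2.2 x.2.1 : ℕ) ≠ 0 → ∀ Q,
        On n (mx (ms (fun a => D.r i (t x.1 a)) x.2.1 fun a => x.2.2 a)) Q →
        dv (D.r i (t x.1 x.2.1)) Q ≠ 0 → ∃ P ∈ S x, Q = D.sp P i := fun x => by
      by_cases z : (x.2.2 x.2.1 : ℕ) = 0
      · exact .of_forall fun i y => absurd z y
      filter_upwards [sp _ (smp_mx _) (ms_big D.ff (c x.1).ind (w := fun a => x.2.2 a) z) _
        (dv_mem_Car (t x.1 x.2.1)), rc.sys (ms (t x.1) x.2.1 fun a => x.2.2 a),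
        D.ms_im (t x.1) x.2.1 fun a => x.2.2 a, rc.pri (t x.1 x.2.1)] with i a b d f _ Q y u
      rw [b, d, f] at a
      obtain ⟨P, p1, p2, p3⟩ := a Q y u
      exact ⟨P, ⟨z, p1, p2⟩, p3⟩
    filter_upwards [ch A κ ι p h e s m E t j l c w, eventually_all.2 k] with i a b Q x y
    obtain ⟨z, hz⟩ := a.2 Q
    obtain ⟨k, u, y⟩ := (a.1 z).tor hy H.rs (D.ffi i) hz (x.trans hN) y
    obtain ⟨P, p1, p2⟩ := b (z, k, u) y.1 Q y.2.1 y.2.2
    exact ⟨P, mem_iUnion.2 ⟨_, p1⟩, p2⟩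

/-- **TOR** -/
theorem rtor_of (H : Hs) (hy : In.Hy) (rc : D.RC) (sp : D.Sup) (ch : D.Chs) (s : Sm n A κ p h e)
    (Q : ∀ i, Pl (K i)) (v : ℝ) (hQ : ∀ᶠ i in U, ld (n + 1) (D.tp i κ) (Q i) ≤ v ∧
      ld (n + 1) (D.tp i κ) (Q i) < 1 + ∑ a, D.tr i (h a) (Q i)) :
    ∃ P, ∀ᶠ i in U, Q i = D.sp P i := by
  obtain ⟨T, f, -, k⟩ := tor_fin H hy rc sp ch s v
  obtain ⟨P, -, a⟩ := (Ultrafilter.eventually_exists_mem_iff f
    (P := fun P i => Q i = D.sp P i)).1 ((hQ.and k).mono fun i a => a.2 _ a.1.1 a.1.2)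
  exact ⟨P, a⟩

/-- the row `RP.exc` -/
def Exc (D : Lm c (n + 1) K L) : Prop := ∀ Λ Λ', Smp Λ → Big Λ → Smp Λ' → Big Λ' →
  ∀ᶠ i in U, ∀ Q, On n (D.tr i Λ') Q → ¬ On n (D.tr i Λ) Q →
    ∃ P, On n Λ' P ∧ ¬ On n Λ P ∧ Q = D.sp P i

/-- **FIN** -/
theorem rfin_of (H : Hs) (hy : In.Hy) (rc : D.RC) (ot : D.Ont) (sp : D.Sup) (ex : D.Exc)
    (rk : D.RK) (ch : D.Chs) {Λ Γ : BD L} (hΛ : Smp Λ) (hb : Big Λ) (hΓ : Γ ∈ Car L)
    (hk : Klt (n + 1) Γ) : {P | ¬ On n Λ P ∧ ld (n + 1) Γ P ≤ 1}.Finite ∧ ∀ᶠ i in U, ∀ Q,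
      ¬ On n (D.tr i Λ) Q → ld (n + 1) (D.tp i Γ) Q ≤ 1 →
      ∃ P, ¬ On n Λ P ∧ ld (n + 1) Γ P ≤ 1 ∧ Q = D.sp P i := by
  classical
  obtain ⟨s, κ, T, h, e, x, l, -, u⟩ := exists_sm D.ff finite_empty (finite_singleton Γ)
    (singleton_subset_iff.2 hΓ)
  have g : Γ = κ + ∑ a : T, (Γ - κ) a • h a := by
    rw [Finset.sum_coe_sort T fun a => (Γ - κ) a • h a,
      ← l.exp ((u Γ (by simp)).sub (u κ (by simp))), add_sub_cancel]
  obtain ⟨δ, d0, d1, d2⟩ : ∃ δ : ℝ, 0 < δ ∧ δ ≤ 1 ∧ ∀ a : T, (Γ - κ) a ≤ 1 - δ := by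
    obtain ⟨o, ho⟩ := Finite.exists_min fun o : Option T => o.elim 1 fun a => ld (n + 1) Γ a
    refine ⟨_, ?_, ho none, fun a => ?_⟩
    · rcases o with _ | a
      exacts [one_pos, neg_lt_iff_pos_add.1 (hk a)]
    · have y := ho (some a)
      have z := l.d0 (l.on a a.2)
      simp only [ld, dsc, Pi.sub_apply, Option.elim_some] at y z ⊢
      linarith
  obtain ⟨S, f, s1, s2⟩ := tor_fin H hy rc sp ch x δ⁻¹
  have f' := f.union (H.md.exc n L D.ff _ Λ x.smp x.big hΛ hb)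
  obtain ⟨m, E, t, j, o, c, w⟩ := x.ch
  have kc := CarZ.car x.kz
  have hc := fun a : T => CarZ.car (x.hz a)
  refine ⟨f'.subset fun P hP => ?_, ?_⟩
  · obtain ⟨b, hb⟩ := w P
    exact ((c b).low hy H.rs D.ff hb x.pos d0 d1 d2 (g ▸ hP.2)).elim (fun z => .inr ⟨z, hP.1⟩)
      fun z => .inl (s1 P z.1 z.2)
  filter_upwards [s2, ch _ κ T _ _ e x m E t j o c w, ex Λ _ hΛ hb x.smp x.big,
    (eventually_all_finite f').2 fun P _ => (ot Λ hΛ.car P).and (rk.val Γ hΓ P),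
    rc.add κ kc _ (sum_mem fun (a : T) (_ : a ∈ Finset.univ) =>
      Submodule.smul_mem _ ((Γ - κ) a) (hc a)),
    rc.sum Finset.univ (fun a : T => (Γ - κ) a) fun a _ => hc a] with i a1 a2 a3 a4 a5 a6 Q y z
  have k : ∃ P ∈ S ∪ {P | On n (mx s) P ∧ ¬ On n Λ P}, Q = D.sp P i := by
    obtain ⟨b, hb⟩ := a2.2 Q
    rcases (a2.1 b).low hy H.rs (D.ffi i) hb x.pos d0 d1 d2 (by
      rwa [tp, sub_add_eq_add_sub, ← a6, ← a5, ← g]) with k | k
    · obtain ⟨P, p1, p2, p3⟩ := a3 Q k y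
      exact ⟨P, .inr ⟨p1, p2⟩, p3⟩
    · obtain ⟨P, p1, p2⟩ := a1 Q k.1 k.2
      exact ⟨P, .inl p1, p2⟩
  obtain ⟨P, p1, rfl⟩ := k
  exact ⟨P, mt (a4 P p1).1.2 y, by rwa [ld, (a4 P p1).2] at z, rfl⟩

end Lm

end Vale.Agent.P283B.U
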