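import Vale.Agent.P283B.U.Tr
import Vale.Agent.P283B.U.Lg
import Vale.Agent.P283B.U.Ex
import Vale.Agent.P287D.In.Int
import Vale.Agent.P287D.Gs.Ful

/-!
# P283B, block U: discrepancies and multiplicities on a log smooth model with charts
-/

set_option linter.unusedVariables false

open Set Function MvPolynomial
open Vale.Agent.P297Z

noncomputable section

namespace Vale.Agent.P283B.U

open P287D P287D.Cb

variable {K : Type} [Field K] [Algebra ℂ K] {n : ℕ} {ι : Type}

theorem big_of_ind (hK : FF K n) {Λ : BD K} (h : Eff Λ) {u : ι → K} (e : Fin n ≃ ι)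
    (hu : AlgebraicIndependent ℂ u) (hm : ∀ a, u a ∈ fld Λ) : Big Λ := by
  refine (big_iff_fld h).2 (eq_top_iff.2 fun f _ => (cld_fld Λ).of_le
    (L := IntermediateField.adjoin ℂ (range (u ∘ e))) ?_ ?_)
  · exact IntermediateField.adjoin_le_iff.2 (range_subset_iff.2 fun a => hm _)
  · exact (hK.basis (hu.comp e e.injective)).isAlgebraic_field.isAlgebraic f

/-- a hypersurface through a big subvariety -/
theorem hyp (hb : HB) (fi : FIN) (hK : FF K n) (u : Fin (n + 1) → K) {s : Finset K}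
    (h1 : (1 : K) ∈ s) (hu : ∀ k, u k ∈ s) (hs : Big (mx s)) {M : ℕ}
    (hM : (n + 1) * vol n (mx s) < M + n + 1) :
    ∃ p : MvPolynomial (Fin (n + 1)) ℂ, p ≠ 0 ∧ p.totalDegree ≤ M ∧ aeval u p = 0 := by
  classical
  let S := (Finset.univ : Finset (Fin (n + 2))).finsuppAntidiag M
  have sm : ∀ d : S, d.1 0 + ∑ k, d.1.tail k = M := fun d => by
    have := (Finset.mem_finsuppAntidiag.1 d.2).1
    rwa [Fin.sum_univ_succ] at this
  have sc : ∀ d : S, ∏ k, u k ^ d.1.tail k ∈ H0 ((M : ℝ) • mx s) := fun d => by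
    have a := sec_prod Finset.univ fun k _ => (sec_of_mem (hu k)).pow (d.1.tail k)
    rw [← Finset.sum_smul, ← Nat.cast_sum] at a
    exact mem_H0.2 (a.mono (smul_le_smul_of_nonneg_right (Nat.cast_le.2 (by have := sm d; omega))
      (mx_nonneg h1)))
  have := fi n K hK _ (Submodule.smul_mem _ (M : ℝ) (mx_mem_Car s))
  have nl : ¬ LinearIndependent ℂ fun d => (⟨_, sc d⟩ : H0 _) := fun h => by
    have a := h.fintype_card_le_finrank
    rw [Fintype.card_coe, Finset.card_finsuppAntidiag_nat_eq_choose, Finset.card_univ,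
      Fintype.card_fin, show n + 2 + M - 1 = M + (n + 1) by omega, Nat.choose_symm_add] at a
    have a' : ((M + (n + 1)).choose (n + 1) : ℝ) ≤ h0 ((M : ℝ) • mx s) := Nat.cast_le.2 a
    have b := hb n K hK s M hs
    have c : ((M + n + 1 : ℕ) : ℝ) * (M + n).choose n = (M + (n + 1)).choose (n + 1) * (n + 1) := by
      exact_mod_cast Nat.add_one_mul_choose_eq (M + n) n
    have q : (0 : ℝ) < ((M + n).choose n : ℕ) := by
      exact_mod_cast Nat.choose_pos (Nat.le_add_left _ _)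
    push_cast at c
    nlinarith [mul_le_mul_of_nonneg_right (a'.trans b) (by positivity : (0 : ℝ) ≤ n + 1),
      mul_lt_mul_of_pos_right hM q]
  obtain ⟨c, c1, d, c2⟩ := Fintype.not_linearIndependent_iff.1 nl
  refine ⟨∑ d : S, monomial d.1.tail (c d), fun z => c2 ?_,
    totalDegree_finsetSum_le fun d _ => ?_, ?_⟩
  · have := congrArg (coeff d.1.tail) z
    rwa [coeff_sum, Finset.sum_eq_single d (fun d' _ h => by
      rw [coeff_monomial, if_neg fun w => h (Subtype.ext (by
        have a := sm d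
        have b := sm d'
        rw [w] at b
        rw [← d.1.cons_tail, ← d'.1.cons_tail, w, show d'.1 0 = d.1 0 by omega]))])
      (by simp), coeff_monomial, if_pos rfl] at this
  · refine (totalDegree_monomial_le _ _).trans ?_
    rw [Finsupp.sum_fintype _ _ fun _ => rfl]
    exact Nat.le.intro ((add_comm _ _).trans (sm d))
  · have := congrArg Subtype.val c1
    rw [Submodule.coe_sum] at this
    rw [map_sum]
    refine (Finset.sum_congr rfl fun d _ => ?_).trans this
    rw [aeval_monomial, Finsupp.prod_fintype _ _ fun _ => pow_zero _, ← Algebra.smul_def]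
    rfl

variable {A κ E G : BD K} {p : ι → Pl K} {h : ι → BD K} {t : Fin (n + 1) → K} {j : K}
  {l : ι → Option (Fin (n + 1))} {e : ℝ} {Q : Pl K}

/-- coordinates of a place which is a prime divisor -/
theorem exists_ind (hK : FF K (n + 1)) (ht : AlgebraicIndependent ℂ t) (hm : ∀ k, t k ∈ Q.ring)
    (h0 : kap t Q < 1) :
    ∃ k : Fin (n + 1), AlgebraicIndependent ℂ fun a : {a // a ≠ k} => Q.rd (t a) := by
  obtain ⟨a, f, h1, h2, h3⟩ := exists_rel hK ht injective_id (Q := Q) hm fun z => by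
    have := z.cardinalMk_le_trdeg
    rw [trdeg_κ hK, Cardinal.mk_fin, Nat.cast_le] at this
    omega
  refine ⟨a, by_contra fun z => ?_⟩
  have k := gap_le hK h2 (Q := Q) (fun b => by
    by_cases c : b = a
    · subst c; simpa using mem_ord h1.le
    · simpa [c] using hm b) a (by
    rwa [show (fun b : {b // b ≠ a} => Q.rd (update t (id a) (aeval (fun b => t (id b)) f) b)) =
      fun b : {b // b ≠ a} => Q.rd (t b) from funext fun b => by rw [id, update_of_ne b.2]])
  rw [h3, id, update_self] at k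
  have : (1 : ℝ) ≤ Q.ord (aeval (fun b => t (id b)) f) := by exact_mod_cast h1
  linarith

/-- independent residues of sections -/
theorem on_of_ind (hy : In.Hy) (hR : RES) (hK : FF K (n + 1)) (hd : Dsc A G) (h0 : 0 ≤ G)
    (hQ : G Q = 0) {σ : Type} {u : σ → K} (f : Fin n ≃ σ) (hu : ∀ a, Sec G (u a))
    (hi : AlgebraicIndependent ℂ fun a => Q.rd (u a)) : On n A Q := by
  refine (hR.on n K hK A Q hd.smp).2 (big_of_ind (hy.rsd n K hK Q) (hy.res_smp hK Q hd.smp).eff f hi
    fun a => (hR.des n K hK A G Q hd).fld_le ?_)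
  simpa using (hR.sec n K hK Q G hd.car _ hQ (hu a)).div_mem
    (sec_one.2 (hR.nn n K hK Q G hd.car h0 hQ))

namespace Ch

variable (c : Ch n A κ h E t j l e)
include c

theorem mem (hQ : E Q = 0) (k : Fin (n + 1)) : t k ∈ Q.ring := by
  have := c.reg k Q
  simp only [Pi.add_apply, Pi.smul_apply, hQ, smul_zero, add_zero, Pi.zero_apply, dv_apply] at this
  exact mem_ord (by exact_mod_cast this)

theorem dsc_eq (hQ : E Q = 0) : dsc (n + 1) κ Q = kap t Q := by
  have a := c.can.1 Q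
  have b := c.can.2 Q
  simp only [Pi.add_apply, Pi.sub_apply, Pi.smul_apply, hQ, smul_zero, Pi.zero_apply] at a b
  rw [c.form, dsc, Pi.sub_apply, Pi.add_apply]
  linarith

theorem ld_eq (hQ : E Q = 0) : ld (n + 1) κ Q = kap t Q + 1 := by rw [ld, c.dsc_eq hQ]

theorem val (hQ : E Q = 0) (a : ι) : h a Q = Q.ord ((l a).elim 1 t) := by
  have x := (c.cut a).1 Q
  have y := (c.cut a).2 Q
  simp only [Pi.add_apply, Pi.sub_apply, Pi.smul_apply, hQ, smul_zero, Pi.zero_apply,
    dv_apply] at x y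
  linarith

theorem dscE (he : 0 < e) : Dsc A E := ⟨e⁻¹, inv_pos.2 he,
  by simpa [smul_smul, inv_mul_cancel₀ he.ne'] using c.des.1.smul (inv_pos.2 he).le,
  by simpa [smul_sub, smul_smul, inv_mul_cancel₀ he.ne'] using c.des.2.smul (inv_pos.2 he).le⟩

theorem sec (k : Fin (n + 1)) : Sec (e • E) (t k) := Or.inr (c.reg k)

theorem isOn (hy : In.Hy) (hR : RES) (hK : FF K (n + 1)) (he : 0 < e) (hQ : E Q = 0)
    {k : Fin (n + 1)} (hi : AlgebraicIndependent ℂ fun a : {a // a ≠ k} => Q.rd (t a)) :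
    On n A Q :=
  on_of_ind hy hR hK ((c.dscE he).smul e) (smul_nonneg he.le c.nn) (by simp [hQ])
    (finSuccAboveEquiv k) (fun a => c.sec a) hi

/-- the primes cut out by the coordinates -/
theorem sum_le [Fintype ι] (hQ : E Q = 0) : ∑ a, h a Q ≤ ∑ k, (Q.ord (t k) : ℝ) := by
  classical
  have o : ∀ k, (0 : ℝ) ≤ Q.ord (t k) := fun k => by
    exact_mod_cast Pl.ord_nonneg_of_mem Q.toPlace (c.mem hQ k)
  have x : ∀ a, h a Q = ∑ k, if l a = some k then (Q.ord (t k) : ℝ) else 0 := fun a => by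
    rw [c.val hQ]
    rcases l a with _ | k <;> simp
  rw [Finset.sum_congr rfl fun a _ => x a, Finset.sum_comm]
  refine Finset.sum_le_sum fun k _ => ?_
  by_cases z : ∃ a, l a = some k
  · obtain ⟨a, ha⟩ := z
    rw [Finset.sum_eq_single a (fun b _ hb => if_neg fun w => hb (c.inj b a k w ha)) (by simp),
      if_pos ha]
  · rw [Finset.sum_eq_zero fun a _ => if_neg fun w => z ⟨a, w⟩]
    exact o k

/-- a prime divisor which meets the chart lies in a hypersurface of bounded degree -/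
theorem hyp (hy : In.Hy) (hR : RES) (hb : HB) (fi : FIN) (hK : FF K (n + 1)) (he : 0 < e)
    (hQ : E Q = 0) (h0 : dsc (n + 1) κ Q = 0) : ∃ f : MvPolynomial (Fin (n + 1)) ℂ, f ≠ 0 ∧
      (f.totalDegree : ℝ) ≤ (n + 1) * e ^ (2 * n) * vol n (res Q A) ∧ 0 < Q.ord (aeval t f) := by
  classical
  have hF := hy.rsd n K hK Q
  have m := c.mem hQ
  obtain ⟨k, hk⟩ := exists_ind hK c.ind m (by rw [← c.dsc_eq hQ, h0]; exact one_pos)
  let s : Finset Q.κ := insert 1 (Finset.univ.image fun k => Q.rd (t k))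
  have s1 : (1 : Q.κ) ∈ s := Finset.mem_insert_self _ _
  have s2 : ∀ k, Q.rd (t k) ∈ s := fun k =>
    Finset.mem_insert_of_mem (Finset.mem_image_of_mem _ (Finset.mem_univ k))
  have bg : Big (mx s) := big_of_ind hF (eff_mx s) (finSuccAboveEquiv k) hk fun a => by
    simpa using (sec_of_mem (s2 a)).div_mem (sec_of_mem s1)
  have d := c.dscE he
  have ec : e • E ∈ Car K := Submodule.smul_mem _ _ d.car
  have eQ : (e • E) Q = 0 := by simp [hQ]
  have le : mx s ≤ res Q (e • E) := mx_le ⟨1, s1, one_ne_zero⟩ fun f hf => by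
    rcases Finset.mem_insert.1 hf with rfl | hf
    · exact sec_one.2 (hR.nn n K hK Q _ ec (smul_nonneg he.le c.nn) eQ)
    · obtain ⟨k, -, rfl⟩ := Finset.mem_image.1 hf
      exact hR.sec n K hK Q _ ec _ eQ (c.sec k)
  have v : vol n (mx s) ≤ e ^ (2 * n) * vol n (res Q A) := by
    have a := hy.res_smp hK Q (c.des.2.smul he.le)
    rw [smul_sub, smul_smul, hy.res_sub hK Q (Submodule.smul_mem _ _ d.smp.car) ec,
      hy.smul n K hK Q _ _ d.smp.car] at a
    rw [pow_mul, ← (hy.row n _ hF).vol_smul _ (In.res_car Q A), sq]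
    exact hy.vol_mono hF (nef_mx s) ((hy.res_smp hK Q d.smp).smul (by positivity)).nef
      (a.psef.mono (sub_le_sub_left le _))
  have v0 := hy.vol_nonneg hF (nef_mx s)
  obtain ⟨f, f0, f1, f2⟩ := U.hyp hb fi hF _ s1 s2 bg (M := ⌊(n + 1) * vol n (mx s)⌋₊)
    (by linarith [Nat.lt_floor_add_one ((n + 1) * vol n (mx s)), Nat.cast_nonneg (α := ℝ) n])
  refine ⟨f, f0, ((Nat.cast_le.2 f1).trans (Nat.floor_le (by positivity))).trans ?_, ?_⟩
  · rw [mul_assoc]
    exact mul_le_mul_of_nonneg_left v (by positivity)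
  · rw [← rd_aeval m, rd_eq_zero (aeval_mem m f), mx_iff] at f2
    exact f2.resolve_left fun z => f0 (algebraicIndependent_iff.1 c.ind f z)

end Ch

namespace Sm

variable (s : Sm n A κ p h e) (hy : In.Hy) (hR : RES) (hK : FF K (n + 1))
include s hK

theorem one_le (Q : Pl K) : 1 ≤ ld (n + 1) κ Q := by
  obtain ⟨m, E, t, j, l, c, w⟩ := s.ch
  obtain ⟨b, hb⟩ := w Q
  rw [(c b).ld_eq hb]
  linarith [kap_nonneg hK ((c b).mem hb)]

theorem snc [Fintype ι] (Q : Pl K) : ∑ a, h a Q ≤ ld (n + 1) κ Q := by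
  obtain ⟨m, E, t, j, l, c, w⟩ := s.ch
  obtain ⟨b, hb⟩ := w Q
  rw [(c b).ld_eq hb]
  exact ((c b).sum_le hb).trans (sum_le_kap hK (c b).ind Q)

omit hK in
theorem dsc_on (hQ : On n A Q) : dsc (n + 1) κ Q = 0 := sub_eq_zero.2 (s.hull.2 Q hQ).symm

include hy hR

theorem one (hQ : ¬ On n A Q) : 1 ≤ dsc (n + 1) κ Q := by
  obtain ⟨m, E, t, j, l, c, w⟩ := s.ch
  obtain ⟨b, hb⟩ := w Q
  rw [(c b).dsc_eq hb]
  refine not_lt.1 fun z => ?_
  obtain ⟨k, hk⟩ := exists_ind hK (c b).ind ((c b).mem hb) z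
  exact hQ ((c b).isOn hy hR hK s.pos hb hk)

theorem gap (a : ι) (hQ : Q ≠ p a) : h a Q + 1 ≤ ld (n + 1) κ Q := by
  by_cases o : On n A Q
  · rw [(s.hp a).2 Q o, Pl.δ_ne hQ, zero_add]
    exact s.one_le hK Q
  obtain ⟨m, E, t, j, l, c, w⟩ := s.ch
  obtain ⟨b, hb⟩ := w Q
  rw [(c b).val hb]
  rcases l b a with _ | k
  · simpa using s.one_le hK Q
  · rw [(c b).ld_eq hb]
    exact gap_le hK (c b).ind ((c b).mem hb) k fun z => o ((c b).isOn hy hR hK s.pos hb z)

/-- **MULT** -/
theorem mult (hN : NEG) (hb : HB) (fi : FIN) {Z β : BD K} (hZ : IsB n Z)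
    (h0 : ∀ Q, On n A Q → 0 ≤ Z Q) (hβ : β ∈ Car K) {d : ℝ} (hn : Nef (β + d • A))
    (hl : ∀ Q, On n A Q → β Q ≤ Z Q) (Q : Pl K) :
    β Q ≤ (n + 1) * e ^ (2 * n) * I (n + 1) K (Fin.cons Z fun _ => A) * ld (n + 1) κ Q := by
  classical
  obtain ⟨m, E, t, j, l, c, w⟩ := s.ch
  obtain ⟨b, hQ⟩ := w Q
  replace c := c b
  have fZ := Gs.isb_fin hK hN s.smp s.big hZ
  let T := fZ.toFinset.filter fun P => E b P = 0
  have hT : ∀ P ∈ T, (On n A P ∧ Z P ≠ 0) ∧ E b P = 0 := fun P hP => by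
    simpa only [T, Finset.mem_filter, Finite.mem_toFinset, mem_ofPred_eq] using hP
  choose! f f0 f1 f2 using fun P (hP : P ∈ T) =>
    c.hyp hy hR hb fi hK s.pos (hT P hP).2 (s.dsc_on (hT P hP).1.1)
  let G : BD K := ∑ P ∈ T, Z P • dv (aeval (t b) (f P))
  have gp : G ∈ Prn K := sum_mem fun P _ => Submodule.smul_mem _ _ (dv_mem_Prn _)
  have ga : ∀ R, G R = ∑ P ∈ T, Z P * R.ord (aeval (t b) (f P)) := fun R => by
    simp [G, Finset.sum_apply, dv_apply]
  have dE := c.dscE s.pos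
  have fE := Gs.isb_fin hK hN s.smp s.big (hy.isb n K hK _ dE.car)
  obtain ⟨x, hx⟩ := (fE.image fun R => (β R - G R) / E b R).bddAbove
  have x0 := le_max_right x 0
  have k := hN.neg n K hK A (β - G - max x 0 • E b) (d + max x 0 * e) s.smp s.big
    (sub_mem (sub_mem hβ (Prn_le_Car gp)) (Submodule.smul_mem _ _ dE.car))
    ((hn.add (c.des.2.smul x0).nef).congr (by
      rw [show β - G - max x 0 • E b + (d + max x 0 * e) • A -
        (β + d • A + max x 0 • (e • A - E b)) = -G by module]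
      exact neg_mem gp)) (fun R hR => ?_) Q
  · simp only [Pi.sub_apply, Pi.smul_apply, hQ, smul_zero, sub_zero, Pi.zero_apply,
      sub_nonpos] at k
    have l1 := zero_le_one.trans (s.one_le hK Q)
    have cf0 : ∀ P, 0 ≤ In.cf P fun _ : Fin n => A := fun P => hy.cf_nef hK P fun _ => s.smp.nef
    have nn : ∀ P, 0 ≤ Z P * In.cf P fun _ : Fin n => A := fun P => by
      by_cases o : On n A P
      · exact mul_nonneg (h0 P o) (cf0 P)
      · rw [hy.exc hK o s.smp fun _ => .refl s.smp, mul_zero]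
    have fs := hy.fin hK hZ (b := fun _ => A) fun _ => s.smp.car
    have i1 : ∑ P ∈ T, Z P * In.cf P (fun _ : Fin n => A) ≤
        I (n + 1) K (Fin.cons Z fun _ => A) := by
      rw [In.I_cons, finsum_eq_sum_of_support_subset (s := T ∪ fs.toFinset) _ (by simp)]
      exact Finset.sum_le_sum_of_subset_of_nonneg Finset.subset_union_left fun P _ _ => nn P
    refine k.trans (le_trans ?_ (mul_le_mul_of_nonneg_right (mul_le_mul_of_nonneg_left i1
      (by have := s.pos; positivity)) l1))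
    rw [ga, Finset.mul_sum, Finset.sum_mul]
    refine Finset.sum_le_sum fun P hP => ?_
    have a := ord_aeval hK c.ind (c.mem hQ) _ (f P) (f0 P hP) le_rfl
    rw [← c.ld_eq hQ] at a
    have a' := mul_le_mul_of_nonneg_left (a.trans (mul_le_mul_of_nonneg_right (f1 P hP) l1))
      (h0 P (hT P hP).1.1)
    exact a'.trans_eq (by rw [In.cf, vol]; ring)
  · change β R - G R - max x 0 * E b R ≤ 0
    rcases (c.nn R).eq_or_lt with z | z
    · replace z : E b R = 0 := z.symm
      have o : ∀ P ∈ T, 0 ≤ Z P * R.ord (aeval (t b) (f P)) := fun P hP =>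
        mul_nonneg (h0 P (hT P hP).1.1) (by
          exact_mod_cast Pl.ord_nonneg_of_mem R.toPlace (aeval_mem (c.mem z) _))
      rw [z, mul_zero, sub_zero, sub_nonpos, ga]
      refine (hl R hR).trans ?_
      by_cases y : Z R = 0
      · exact y.le.trans (Finset.sum_nonneg o)
      have hm : R ∈ T := Finset.mem_filter.2 ⟨fZ.mem_toFinset.2 ⟨hR, y⟩, z⟩
      refine le_trans ?_ (Finset.single_le_sum o hm)
      exact le_mul_of_one_le_right (h0 R hR) (by exact_mod_cast f2 R hm)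
    · replace z : 0 < E b R := z
      have := (div_le_iff₀ z).1 ((hx ⟨R, ⟨hR, z.ne'⟩, rfl⟩).trans (le_max_left x 0))
      linarith

end Sm

/-- **SL** -/
theorem sl_of (hy : In.Hy) (hR : RES) (hN : NEG) (hb : HB) (fi : FIN) : SL :=
  fun n K _ _ hK A κ ι _ p h e s =>
    ⟨⟨s.smp, s.big, s.hull, fun Q hQ => one_pos.trans_le (s.one hy hR hK hQ)⟩,
      fun Q => s.one hy hR hK, s.snc hK, fun Q a => s.gap hy hR hK a,
      fun Z a b β c d x y => s.mult hy hR hK hN hb fi a b c x y⟩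

end Vale.Agent.P283B.U
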