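import Vale.Agent.P283B.U.Car
import Vale.Agent.P283B.U.Sl
import Vale.Agent.P283B.U.St

/-!
# P283B, block U: log smooth models transfer, toroidal places are limits
-/

set_option linter.unusedSectionVars false

open Set Filter Function
open Vale.Agent.P297Z

noncomputable section

namespace Vale.Agent.P283B.U

open P287D

variable {U : Ultrafilter ℕ} {c : Cq U} {n : ℕ} {K : ℕ → Type} [∀ i, Field (K i)]
  [∀ i, Algebra ℂ (K i)] {L : Type} [Field L] [Algebra ℂ L]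

namespace Lm

theorem jc_ne (D : Lm c n K L) (i : ℕ) : D.jc i ≠ 0 := by
  unfold jc
  split_ifs with h
  exacts [h.choose_spec.1, one_ne_zero]

variable (Y : Ny) {D : Lm c (n + 1) K L} {A κ E : BD L} {ι : Type} {p : ι → Pl L} {h : ι → BD L}
  {t : Fin (n + 1) → L} {j : L} {l : ι → Option (Fin (n + 1))} {e : ℝ}
include Y

/-- charts transfer -/
theorem ch_tr [Finite ι] (rk : D.RK) (hA : A ∈ Car L) (hκ : κ ∈ Car L) (hh : ∀ a, h a ∈ Car L)
    (k : Ch n A κ h E t j l e) : ∀ᶠ i in U, Ch n (D.tr i A) (D.tp i κ) (fun a => D.tr i (h a))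
      (D.tr i E) (fun a => D.r i (t a)) (D.jc i * D.r i j) l e := by
  have a : D.Tf A _ := tf_tr hA
  have b : D.Tf E _ := tf_tr (CarZ.car k.car)
  have d := (tf_tr (D := D) hκ).add (tf_dv j)
  have f : ∀ x, D.Tf (h x - dv ((l x).elim 1 t)) fun i =>
      D.tr i (h x) - dv ((l x).elim 1 fun a => D.r i (t a)) := fun x =>
    (tf_tr (hh x)).sub ((tf_dv _).congr (by
      rcases l x with _ | y
      exacts [D.one.mono fun _ => congrArg dv, .of_forall fun _ => rfl]))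
  filter_upwards [b.nn Y k.nn, b.carZ Y k.car, ((a.smul e).add b).smp Y k.des.1,
    ((a.smul e).sub b).smp Y k.des.2, D.ind k.ind, D.ne k.ne, rk.frm t j k.ind k.ne k.form,
    eventually_all.2 fun x => ((tf_dv (t x)).add (b.smul e)).nn Y (k.reg x),
    ((b.smul e).add d).nn Y k.can.1, ((b.smul e).sub d).nn Y k.can.2,
    eventually_all.2 fun x => (((b.smul e).add (f x)).nn Y (k.cut x).1).and
      (((b.smul e).sub (f x)).nn Y (k.cut x).2)] with i h1 h2 h3 h4 h5 h6 h7 h8 h9 h10 h11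
  have w : D.tp i κ + dv (D.jc i * D.r i j) = D.tr i κ + dv (D.r i j) := by
    rw [tp, dv_mul (D.jc_ne i) h6, ← add_assoc, sub_add_cancel]
  exact ⟨h1, h2, ⟨h3, h4⟩, h5, mul_ne_zero (D.jc_ne i) h6, h7, h8, w ▸ ⟨h9, h10⟩, h11, k.inj⟩

/-- open covers transfer -/
theorem cov_tr {m : ℕ} {E : Fin m → BD L} (hE : ∀ b, E b ∈ CarZ L) (h0 : ∀ b, 0 ≤ E b)
    (hc : ∀ Q, ∃ b, E b Q = 0) : ∀ᶠ i in U, ∀ Q, ∃ b, D.tr i (E b) Q = 0 := by
  obtain ⟨P, -⟩ := On.exists_unit D.ff finite_empty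
  have ne : (Finset.univ : Finset (Fin m)).Nonempty := ⟨(hc P).choose, Finset.mem_univ _⟩
  obtain ⟨-, γ, a, b⟩ := Finset.sup'_induction ne (fun b => -E b)
    (p := fun β => β ∈ CarZ L ∧ ∃ γ, D.Tf β γ ∧ ∀ i Q, ∃ b, γ i Q = -D.tr i (E b) Q)
    (fun _ ⟨x, g, y, z⟩ _ ⟨x', g', y', z'⟩ => ⟨(y.sup Y y' x x').1, _, (y.sup Y y' x x').2,
      fun i Q => (max_choice (g i Q) (g' i Q)).elim (fun w => (z i Q).imp fun _ => w.trans)
        fun w => (z' i Q).imp fun _ => w.trans⟩)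
    fun b _ => ⟨neg_mem (hE b), _, (tf_tr (CarZ.car (hE b))).neg, fun i Q => ⟨b, rfl⟩⟩
  rw [show (Finset.univ.sup' ne fun b => -E b) = 0 from le_antisymm
    (Finset.sup'_le _ _ fun b _ => neg_nonpos.2 (h0 b)) fun Q => by
      obtain ⟨b, hb⟩ := hc Q
      exact le_trans (by simp [hb]) (Finset.le_sup' (fun b => -E b) (Finset.mem_univ b) Q)] at a
  filter_upwards [a.uniq Y tf_zero] with i x Q
  exact (b i Q).imp fun _ y => neg_eq_zero.1 (y.symm.trans (congrFun x Q))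

/-- **the row `RL.sm`** -/
theorem rl_sm (rk : D.RK) (A κ : BD L) (ι : Type) [Fintype ι] (p : ι → Pl L) (h : ι → BD L)
    (e : ℝ) (s : Sm n A κ p h e) :
    ∀ᶠ i in U, Sm n (D.tr i A) (D.tp i κ) (fun a => D.sp (p a) i) (fun a => D.tr i (h a)) e := by
  obtain ⟨m, E, t, j, l, k, w⟩ := s.ch
  have a : D.Tf A _ := tf_tr s.smp.car
  have b : D.Tf κ _ := tf_tr (CarZ.car s.kz)
  have d : ∀ x, D.Tf (h x) _ := fun x => tf_tr (CarZ.car (s.hz x))
  filter_upwards [a.smp Y s.smp, a.big Y s.big, b.carZ Y s.kz, a.des Y b s.hull.1,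
    rk.supp A s.smp s.big κ b.car.1, D.sp_injOn (finite_range p),
    eventually_all.2 fun x => a.on Y.hy Y.res (p x),
    eventually_all.2 fun x => (d x).carZ Y (s.hz x),
    eventually_all.2 fun x => a.des Y (d x) (s.hp x).1,
    eventually_all.2 fun x => D.rp_supp Y A s.smp s.big _ (d x).car.1,
    eventually_all.2 fun x => (d x).val (p x),
    eventually_all.2 fun x => ch_tr Y rk a.car.1 b.car.1 (fun x => (d x).car.1) (k x),
    cov_tr Y (D := D) (fun x => (k x).car) (fun x => (k x).nn) w]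
    with i h1 h2 h3 h4 h5 h6 h7 h8 h9 h10 h11 h12 h13
  refine ⟨s.pos, h1, h2, sub_mem h3 (dv_mem_CarZ _), ⟨h4.sub (.dv h1 _), fun Q q => ?_⟩,
    fun x y z => s.inj (h6 ⟨x, rfl⟩ ⟨y, rfl⟩ z), fun x => (h7 x).2 (s.on x), h8,
    fun x => ⟨h9 x, fun Q q => ?_⟩, m, _, _, _, l, h12, h13⟩
  · by_contra z
    obtain ⟨P, u, v, -⟩ := h5 Q q fun y => z (sub_eq_zero.1 y).symm
    exact v (s.dsc_on u)
  · by_cases z : Q = D.sp (p x) i
    · rw [z, h11, (s.hp x).2 _ (s.on x), Pl.δ_self, Pl.δ_self]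
    · rw [Pl.δ_ne z]
      by_contra y
      obtain ⟨P, u, v, rfl⟩ := h10 x Q q y
      exact v (((s.hp x).2 P u).trans (Pl.δ_ne fun o => z (o ▸ rfl)))

/-- places with independent residues of fixed functions, at which a fixed function vanishes -/
theorem lim_pl {σ : Type} [Fintype σ] (u : σ → L) (f : Fin n ≃ σ) (x : L) {Q : ∀ i, Pl (K i)}
    (hQ : ∀ᶠ i in U, (∀ a, D.r i (u a) ∈ (Q i).ring) ∧ (Q i).ord (D.r i x) ≠ 0 ∧
      AlgebraicIndependent ℂ fun a => (Q i).rd (D.r i (u a))) :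
    ∃ P, ∀ᶠ i in U, Q i = D.sp P i := by
  classical
  let s : Finset L := insert 1 (Finset.univ.image u)
  have s1 : (1 : L) ∈ s := Finset.mem_insert_self _ _
  have s2 : ∀ a, u a ∈ s := fun a =>
    Finset.mem_insert_of_mem (Finset.mem_image_of_mem _ (Finset.mem_univ a))
  obtain ⟨T, a, -, b⟩ := (tf_dv (D := D) x).su Y.hy Y.res (tf_mx s) (nef_mx s)
    (.of_forall fun _ => nef_mx _)
  obtain ⟨P, -, k⟩ := (Ultrafilter.eventually_exists_mem_iff a
    (P := fun P i => Q i = D.sp P i)).1 (by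
      filter_upwards [b, hQ, D.one] with i h1 h2 h3
      have o : (1 : K i) ∈ D.im i s := h3 ▸ D.im_mem i s1
      refine h1 _ (on_of_ind Y.hy Y.res (D.ffi i) (.refl (smp_mx _)) (mx_nonneg o) ?_ f
        (fun a => sec_of_mem (D.im_mem i (s2 _))) h2.2.2) (Int.cast_ne_zero.2 h2.2.1)
      rw [mx_apply, (Q i).mz_eq o one_ne_zero fun z hz _ => ?_]
      · simp
      obtain ⟨z, y, rfl⟩ := D.mem_im.1 hz
      rw [Pl.ord_one]
      refine Pl.ord_nonneg_of_mem _ ?_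
      rcases Finset.mem_insert.1 y with rfl | y
      · exact h3 ▸ one_mem _
      · obtain ⟨a, -, rfl⟩ := Finset.mem_image.1 y
        exact h2.1 a)
  exact ⟨P, k⟩

/-- **the row `RL.tor`** -/
theorem rl_tor (rk : D.RK) (A κ : BD L) (ι : Type) [Fintype ι] (p : ι → Pl L) (h : ι → BD L)
    (e : ℝ) (s : Sm n A κ p h e) (Q : ∀ i, Pl (K i)) (v : ℝ)
    (hQ : ∀ᶠ i in U, ld (n + 1) (D.tp i κ) (Q i) ≤ v ∧
      ld (n + 1) (D.tp i κ) (Q i) < 1 + ∑ a, D.tr i (h a) (Q i)) :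
    ∃ P, ∀ᶠ i in U, Q i = D.sp P i := by
  obtain ⟨m, E, t, j, l, k, w⟩ := s.ch
  obtain ⟨b, hb⟩ := Ultrafilter.eventually_exists_iff.1
    ((cov_tr Y (D := D) (fun x => (k x).car) (fun x => (k x).nn) w).mono fun i z => z (Q i))
  obtain ⟨N, hN⟩ := exists_nat_ge v
  have k' := ch_tr Y rk s.smp.car (CarZ.car s.kz) (fun x => CarZ.car (s.hz x)) (k b)
  have r : ∀ᶠ i in U, ∃ w : Fin (n + 1) → Fin (N + 1), ∃ x, (w x : ℕ) ≠ 0 ∧
      (∀ a, (Q i).ord (D.r i (t b a)) = (w a : ℕ)) ∧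
      kap (fun a => D.r i (t b a)) (Q i) < ∑ a, ((w a : ℕ) : ℝ) := by
    filter_upwards [hQ, hb, k'] with i h1 h2 h3
    have m := h3.mem h2
    choose w hw using fun a => Int.eq_ofNat_of_zero_le (Pl.ord_nonneg_of_mem (Q i).toPlace (m a))
    have s1 := h3.sum_le h2
    have s2 := Cb.sum_le_kap (D.ffi i) h3.ind (Q i)
    have s3 := Cb.kap_nonneg (D.ffi i) m
    rw [h3.ld_eq h2] at h1
    simp only [hw, Int.cast_natCast] at s1 s2
    have s4 : ∀ a, w a < N + 1 := fun a => Nat.lt_succ_of_le (by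
      exact_mod_cast (Finset.single_le_sum (f := fun a => (w a : ℝ))
        (fun _ _ => Nat.cast_nonneg _) (Finset.mem_univ a)).trans (s2.trans (h1.1.trans hN)))
    obtain ⟨x, -, hx⟩ := Finset.exists_ne_zero_of_sum_ne_zero
      (show ∑ a, (w a : ℝ) ≠ 0 by linarith [h1.2])
    exact ⟨fun a => ⟨w a, s4 a⟩, x, Nat.cast_ne_zero.1 hx, hw, by linarith [h1.2]⟩
  obtain ⟨w, r⟩ := Ultrafilter.eventually_exists_iff.1 r
  obtain ⟨x, r⟩ := Ultrafilter.eventually_exists_iff.1 r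
  have w0 := r.exists.choose_spec.1
  have q : ∀ a, ∀ᶠ i in U, D.r i (mon (t b) x (fun a => w a) a) =
      mon (fun a => D.r i (t b a)) x (fun a => w a) a := fun a => by
    unfold mon
    split_ifs
    · exact .of_forall fun _ => rfl
    · filter_upwards [D.div (t b a ^ (w x : ℕ)) (t b x ^ (w a : ℕ)), D.pow (t b a) (w x),
        D.pow (t b x) (w a)] with i h1 h2 h3
      rw [h1, h2, h3]
  refine lim_pl Y (fun a : {a // a ≠ x} => mon (t b) x (fun a => w a) a) (finSuccAboveEquiv x)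
    (t b x) ?_
  filter_upwards [r, k', eventually_all.2 q] with i h1 h2 h4
  obtain ⟨o1, o2⟩ := mon_ind (D.ffi i) h2.ind (w := fun a => w a) w0 h1.2.1 h1.2.2
  simp only [h4]
  exact ⟨fun a => Cb.mem_ord (o1 a a.2).ge, by rw [h1.2.1]; exact_mod_cast w0, o2⟩

end Lm

end Vale.Agent.P283B.U
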