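import Vale.Agent.P283B.U.Tr
import Vale.Agent.P283B.U.Deg0

/-!
# P283B, block U: degrees and intersection numbers of systems are preserved
-/

set_option linter.unusedSectionVars false

open Set Filter MvPolynomial Pointwise
open Vale.Agent.P297Z

noncomputable section

namespace Vale.Agent.P283B.U

open P287D Nm
open Cq (π)

variable {U : Ultrafilter ℕ} {c : Cq U} {n : ℕ} {K : ℕ → Type} [∀ i, Field (K i)]
  [∀ i, Algebra ℂ (K i)] {L : Type} [Field L] [Algebra ℂ L]

theorem Cq.supp_ev (c : Cq U) {σ : Type} (p : MvPolynomial σ (ℕ → ℂ)) :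
    ∀ᶠ i in U, (MvPolynomial.map (π i) p).support = (MvPolynomial.map c.q p).support := by
  have a : ∀ d, ∀ᶠ i in U, (coeff d p i = 0 ↔ c.q (coeff d p) = 0) := fun d => by
    by_cases h : c.q (coeff d p) = 0
    · exact ((c.zero _).1 h).mono fun i e => iff_of_true e h
    · exact (Ultrafilter.eventually_not.2 (mt (c.zero _).2 h)).mono fun i e => iff_of_false e h
  refine ((eventually_all_finset p.support).2 fun d _ => a d).mono fun i hi =>
    Finset.ext fun d => ?_
  rw [mem_support_iff, mem_support_iff, coeff_map, coeff_map]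
  by_cases hd : d ∈ p.support
  · exact (hi d hd).not
  · simp [notMem_support_iff.1 hd]

theorem Cq.eval_ev (c : Cq U) {σ : Type} (p : MvPolynomial σ (ℕ → ℂ)) (a : σ → ℕ → ℂ)
    (h : eval (fun j => c.q (a j)) (MvPolynomial.map c.q p) ≠ 0) :
    ∀ᶠ i in U, eval (fun j => a j i) (MvPolynomial.map (π i) p) ≠ 0 := by
  have e : ∀ g : (ℕ → ℂ) →+* ℂ, eval (fun j => g (a j)) (MvPolynomial.map g p) = g (eval a p) :=
    fun g => by rw [eval_map, ← coe_eval₂Hom, eval, map_eval₂Hom]; rfl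
  rw [e] at h
  exact (Ultrafilter.eventually_not.2 (mt (c.zero _).2 h)).mono fun i k => (e (π i)).symm ▸ k

namespace Lm

variable (D : Lm c n K L) {s u : Finset L} {f : L}

/-- the degree over the field of an independent tuple -/
theorem rk_ev {x : Fin n → L} (hx : AlgebraicIndependent ℂ x) :
    ∀ᶠ i in U, ∀ h : AlgebraicIndependent ℂ fun j => D.r i (x j),
      Pb.rk (hm h : Rn n →+* K i) = Pb.rk (hm hx : Rn n →+* L) := by
  obtain ⟨θ, G, h⟩ := exists_pm D.ff hx
  obtain ⟨G, rfl⟩ := c.lift G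
  have e : ∀ i, (fun o : Option (Fin n) => D.r i (o.elim θ x)) =
      fun o : Option (Fin n) => o.elim (D.r i θ) fun j => D.r i (x j) := fun i =>
    funext fun o => by cases o <;> rfl
  filter_upwards [c.irr_ev h.irr, D.aeval (fun o : Option (Fin n) => o.elim θ x) G, D.zero,
    D.top h.top, c.supp_ev G] with i h1 h2 h3 h4 h5 k
  rw [h.zero, h3, e] at h2
  rw [← range_comp, show D.r i ∘ _ = _ from e i] at h4
  rw [Pm.rk ⟨h1, h2.symm, h4⟩ k, h.rk hx, degreeOf_eq_sup, degreeOf_eq_sup, h5]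

theorem mem_im {i : ℕ} {g : K i} : g ∈ D.im i s ↔ ∃ f ∈ s, D.r i f = g := by simp [im]

theorem im_mem (i : ℕ) (h : f ∈ s) : D.r i f ∈ D.im i s := D.mem_im.2 ⟨f, h, rfl⟩

theorem coe_im (i : ℕ) (s : Finset L) : (D.im i s : Set (K i)) = D.r i '' s :=
  Set.ext fun _ => D.mem_im

theorem im_tu {ι : Type} [Fintype ι] (i : ℕ) (v : ι → L) :
    D.im i (tu v) = tu fun j => D.r i (v j) := by
  ext g
  simp [mem_im, mem_tu]

theorem nz (h : Nz s) : ∀ᶠ i in U, Nz (D.im i s) :=
  let ⟨_, a, b⟩ := h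
  (D.ne b).mono fun i k => ⟨_, D.im_mem i a, k⟩

theorem not_nz (h : ¬ Nz s) : ∀ᶠ i in U, ¬ Nz (D.im i s) :=
  D.zero.mono fun i k ⟨g, a, b⟩ => by
    obtain ⟨f, hf, rfl⟩ := D.mem_im.1 a
    exact h ⟨f, hf, fun e => b (e ▸ k)⟩

theorem im_mul [DecidableEq L] [∀ i, DecidableEq (K i)] (s u : Finset L) :
    ∀ᶠ i in U, D.im i (s * u) = D.im i s * D.im i u := by
  filter_upwards [(eventually_all_finset s).2 fun f _ => (eventually_all_finset u).2 fun g _ =>
    D.mul f g] with i h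
  ext z
  simp only [mem_im, Finset.mem_mul]
  constructor
  · rintro ⟨_, ⟨a, ha, b, hb, rfl⟩, rfl⟩
    exact ⟨_, ⟨a, ha, rfl⟩, _, ⟨b, hb, rfl⟩, (h a ha b hb).symm⟩
  · rintro ⟨_, ⟨a, ha, rfl⟩, _, ⟨b, hb, rfl⟩, rfl⟩
    exact ⟨_, ⟨a, ha, b, hb, rfl⟩, h a ha b hb⟩

theorem im_union [DecidableEq L] [∀ i, DecidableEq (K i)] (i : ℕ) (s u : Finset L) :
    D.im i (s ∪ u) = D.im i s ∪ D.im i u := by
  ext z
  simp only [mem_im, Finset.mem_union, or_and_right, exists_or]

theorem im_single (i : ℕ) (f : L) : D.im i {f} = {D.r i f} := by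
  ext z
  simp [mem_im, eq_comm]

/-- `β` is the b-divisor of a system and `γ` is its transfer -/
def Sy (β : BD L) (γ : ∀ i, BD (K i)) : Prop :=
  ∃ s, Nz s ∧ β = mx s ∧ ∀ᶠ i in U, γ i = mx (D.im i s)

theorem sy_zero : D.Sy 0 fun _ => 0 :=
  ⟨{1}, .single one_ne_zero, by rw [mx_single, dv_one, neg_zero], D.one.mono fun i h => by
    rw [im_single, h, mx_single, dv_one, neg_zero]⟩

theorem sy_mx (s : Finset L) : D.Sy (mx s) fun i => mx (D.im i s) := by
  by_cases h : Nz s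
  · exact ⟨s, h, rfl, .of_forall fun _ => rfl⟩
  · obtain ⟨u, a, b, k⟩ := D.sy_zero
    refine ⟨u, a, (mx_of_not h).trans b, ?_⟩
    filter_upwards [k, D.not_nz h] with i h1 h2 using (mx_of_not h2).trans h1

theorem sy_dv (f : L) : D.Sy (dv f) fun i => dv (D.r i f) := by
  obtain ⟨u, a, b, k⟩ := D.sy_mx {f⁻¹}
  refine ⟨u, a, (dv_eq_mx f).trans b, ?_⟩
  filter_upwards [k, D.inv f] with i h1 h2
  rw [← h1, im_single, h2, dv_eq_mx]

variable {D} {β β' : BD L} {γ γ' : ∀ i, BD (K i)}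

theorem Sy.add (h : D.Sy β γ) (h' : D.Sy β' γ') : D.Sy (β + β') fun i => γ i + γ' i := by
  classical
  obtain ⟨s, a, rfl, b⟩ := h
  obtain ⟨u, a', rfl, b'⟩ := h'
  refine ⟨s * u, a.mul a', (mx_mul a a').symm, ?_⟩
  filter_upwards [b, b', D.nz a, D.nz a', D.im_mul s u] with i h1 h2 h3 h4 h5
  rw [h1, h2, h5, mx_mul h3 h4]

theorem Sy.sup (h : D.Sy β γ) (h' : D.Sy β' γ') : D.Sy (β ⊔ β') fun i => γ i ⊔ γ' i := by
  classical
  obtain ⟨s, a, rfl, b⟩ := h
  obtain ⟨u, a', rfl, b'⟩ := h'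
  refine ⟨s ∪ u, a.mono Finset.subset_union_left, (mx_union a a').symm, ?_⟩
  filter_upwards [b, b', D.nz a, D.nz a'] with i h1 h2 h3 h4
  rw [h1, h2, im_union, mx_union h3 h4]

theorem Sy.sum {ι : Type*} (T : Finset ι) {b : ι → BD L} {g : ι → ∀ i, BD (K i)}
    (h : ∀ j ∈ T, D.Sy (b j) (g j)) : D.Sy (∑ j ∈ T, b j) fun i => ∑ j ∈ T, g j i := by
  classical
  induction T using Finset.induction_on with
  | empty => simpa using D.sy_zero
  | insert a T ha ih =>
    simp only [Finset.sum_insert ha]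
    exact (h a (Finset.mem_insert_self _ _)).add (ih fun j hj => h j (Finset.mem_insert_of_mem hj))

variable (D) (H : In.Hy) (R : RES)
include H R

theorem vol_tu (k : ℕ) : ∀ v : Fin k → L,
    ∀ᶠ i in U, vol n (mx (D.im i (tu v))) = vol n (mx (tu v)) := by
  have z : ∀ s, ¬ Nz s → ∀ᶠ i in U, vol n (mx (D.im i s)) = vol n (mx s) := fun s h =>
    (D.not_nz h).mono fun i k => by rw [mx_of_not k, mx_of_not h]; exact vol_zero
  induction k with
  | zero => exact fun v => z _ fun ⟨_, h, _⟩ => (mem_tu.1 h).elim fun j => j.elim0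
  | succ k ih =>
    intro v
    by_cases h : Nz (tu v)
    swap
    · exact z _ h
    obtain ⟨_, a, hj⟩ := h
    obtain ⟨j, rfl⟩ := mem_tu.1 a
    have e : ∀ᶠ i in U, (fun l => D.r i (v (j.succAbove l) / v j)) =
        fun l => D.r i (v (j.succAbove l)) / D.r i (v j) :=
      (eventually_all.2 fun l => D.div _ _).mono fun i => funext
    simp only [im_tu]
    by_cases h : AlgebraicIndependent ℂ fun l => v (j.succAbove l) / v j
    · rcases (card_le D.ff h).eq_or_lt with rfl | lt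
      · filter_upwards [D.ne hj, e, D.ind h, D.rk_ev h] with i h1 h2 h3 h4
        have h5 := h4 h3
        simp only [h2] at h3 h5
        rw [vol_eq H R D.ff hj h, vol_eq H R (D.ffi i) (v := fun l => D.r i (v l)) h1 h3, h5]
      · filter_upwards [D.ne hj, e, D.ind h] with i h1 h2 h3
        rw [vol_lt H R D.ff hj h lt,
          vol_lt H R (D.ffi i) (v := fun l => D.r i (v l)) h1 (h2 ▸ h3) lt]
    · obtain ⟨G, g1, g0⟩ : ∃ G : MvPolynomial (Fin k) ℂ,
          MvPolynomial.aeval (fun l => v (j.succAbove l) / v j) G = 0 ∧ G ≠ 0 := by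
        simpa [algebraicIndependent_iff] using h
      obtain ⟨a, ha⟩ : ∃ a, eval a G ≠ 0 := by
        by_contra! q
        exact g0 (MvPolynomial.funext fun a => by rw [q, map_zero])
      obtain ⟨G, rfl⟩ := c.lift G
      choose w hw using fun l => c.surj (a l)
      obtain rfl : a = fun l => c.q (w l) := (funext hw).symm
      filter_upwards [D.ne hj, e, D.aeval (fun l => v (j.succAbove l) / v j) G, D.zero,
        c.eval_ev G w ha, ih fun l => v (j.succAbove l) - c.q (w l) • v j,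
        eventually_all.2 fun l => (D.sub (v (j.succAbove l)) (c.q (w l) • v j)).and
          (D.smul (w l) (v j))] with i h1 h2 h3 h4 h5 h6 h7
      rw [g1, h4, h2] at h3
      rw [tu_red hj g1 ha, tu_red (v := fun l => D.r i (v l)) h1 h3.symm h5, ← h6, im_tu]
      simp only [(h7 _).1, (h7 _).2]

theorem vol_sys (s : Finset L) : ∀ᶠ i in U, vol n (mx (D.im i s)) = vol n (mx s) := by
  obtain ⟨k, v, rfl⟩ := exists_tu s
  exact D.vol_tu H R k v

variable {D}

theorem Sy.vol (h : D.Sy β γ) : ∀ᶠ i in U, vol n (γ i) = vol n β := by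
  obtain ⟨s, -, rfl, b⟩ := h
  filter_upwards [b, D.vol_sys H R s] with i h1 h2 using h1 ▸ h2

/-- **the intersection numbers of systems are preserved** -/
theorem Sy.num {b : Fin n → BD L} {g : Fin n → ∀ i, BD (K i)} (h : ∀ j, D.Sy (b j) (g j)) :
    ∀ᶠ i in U, I n (K i) (fun j => g j i) = I n L b := by
  have m : ∀ j, b j ∈ Car L ∧ ∀ᶠ i in U, g j i ∈ Car (K i) := fun j =>
    let ⟨_, _, x, y⟩ := h j
    ⟨x ▸ mx_mem_Car _, y.mono fun _ z => z ▸ mx_mem_Car _⟩
  filter_upwards [eventually_all.2 fun j => (m j).2, eventually_all.2 fun T : Finset (Fin n) =>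
    (Sy.sum Tᶜ fun j _ => h j).vol H R] with i h1 h2
  refine mul_left_cancel₀ (Nat.cast_ne_zero.2 (sj_pos n).ne') ?_
  rw [← I_polar H (D.ffi i) h1, ← I_polar H D.ff fun j => (m j).1]
  simp only [h2]

end Lm

end Vale.Agent.P283B.U
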