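import Vale.Agent.P283B.U.Pl
import Vale.Agent.P283B.U.Vol
import Vale.Agent.P287D.In.Int
import Vale.Agent.P287D.Va.Dsc

/-!
# P283B, block U: the transfer of Cartier b-divisors, values, restrictions, supports
-/

set_option linter.unusedSectionVars false

open Set Filter Function
open Vale.Agent.P297Z

noncomputable section

namespace Vale.Agent.P283B.U

open P287D Nm

/-- the rows of the library which are used -/
structure Ny : Prop where
  hy : In.Hy
  res : RES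
  neg : NEG
  bigv : In.BIGV
  klm : In.KLM

section one

variable {K : Type} [Field K] [Algebra ℂ K] {n : ℕ} {Λ Λ' : BD K} {P : Pl K} {ε : ℝ}

theorem nz_rs (P : Pl K) {s : Finset K} (h : Nz s) : Nz (P.rs s) := by
  classical
  obtain ⟨g, hg, g0, k⟩ := P.exists_mz h
  exact ⟨_, Finset.mem_image_of_mem _ hg, (Gx.rd_ne P (mul_ne_zero g0 (zpow_ne_zero _ P.t_ne))
    (by rw [P.ord_mul_t g0, k, add_neg_cancel])).2⟩

theorem on_of_psef (H : In.Hy) (hK : FF K (n + 1)) (a : Nef Λ) (b : Nef Λ') (e : 0 < ε)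
    (h : Psef (res P Λ - ε • res P Λ')) (k : On n Λ' P) : On n Λ P := by
  have f := H.rsd n K hK P
  refine lt_of_lt_of_le ?_ (H.vol_mono f ((H.res_nef hK P b).smul e.le) (H.res_nef hK P a) h)
  rw [(H.row n _ f).vol_smul ε (In.res_car _ _)]
  exact mul_pos (pow_pos e n) k

theorem on_of_dsc (H : In.Hy) (hK : FF K (n + 1)) (h : Dsc Λ Λ') (b : Smp Λ') (k : On n Λ' P) :
    On n Λ P := by
  obtain ⟨ε, e, a⟩ := (H.res_dsc hK P h).exists_sub
  exact on_of_psef H hK h.smp.nef b.nef e a.psef k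

/-- a sum of non negative terms which is exhausted by finitely many of them -/
theorem exhaust {A B : Type} {F : A → ℝ} (h0 : ∀ a, 0 ≤ F a) (hF : (support F).Finite)
    {T : Finset B} {g : B → A} (hg : InjOn g T) (h : ∑ᶠ a, F a = ∑ b ∈ T, F (g b)) {a : A}
    (ha : F a ≠ 0) : ∃ b ∈ T, a = g b := by
  classical
  by_contra! k
  have m : a ∉ T.image g := fun m => let ⟨b, x, y⟩ := Finset.mem_image.1 m; k b x y.symm
  have := Finset.sum_le_sum_of_subset_of_nonneg (f := F) (s := insert a (T.image g))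
    (t := hF.toFinset ∪ T.image g) (Finset.insert_subset (by simp [ha]) Finset.subset_union_right)
    fun x _ _ => h0 x
  rw [← finsum_eq_sum_of_support_subset (s := hF.toFinset ∪ T.image g) _ (by simp), h,
    Finset.sum_insert m, Finset.sum_image hg, add_le_iff_nonpos_left] at this
  exact ha (le_antisymm this (h0 a))

end one

variable {U : Ultrafilter ℕ} {c : Cq U} {n : ℕ} {K : ℕ → Type} [∀ i, Field (K i)]
  [∀ i, Algebra ℂ (K i)] {L : Type} [Field L] [Algebra ℂ L]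

namespace Lm

/-- `γ` is a transfer of the Cartier b-divisor `β` -/
inductive Tf (D : Lm c n K L) : BD L → (∀ i, BD (K i)) → Prop
  | sy {β γ} : D.Sy β γ → Tf D β γ
  | add {β γ β' γ'} : Tf D β γ → Tf D β' γ' → Tf D (β + β') fun i => γ i + γ' i
  | smul {β γ} (a : ℝ) : Tf D β γ → Tf D (a • β) fun i => a • γ i
  | congr {β γ γ'} : Tf D β γ → (∀ᶠ i in U, γ i = γ' i) → Tf D β γ'

section any

variable {D : Lm c n K L} {β β' Λ : BD L} {γ γ' Λ' : ∀ i, BD (K i)}

theorem tf_zero : D.Tf 0 fun _ => 0 := .sy D.sy_zero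

theorem tf_mx (s : Finset L) : D.Tf (mx s) fun i => mx (D.im i s) := .sy (D.sy_mx s)

theorem tf_dv (f : L) : D.Tf (dv f) fun i => dv (D.r i f) := .sy (D.sy_dv f)

theorem Tf.neg (h : D.Tf β γ) : D.Tf (-β) fun i => -γ i := by simpa using h.smul (-1)

theorem Tf.sub (h : D.Tf β γ) (h' : D.Tf β' γ') : D.Tf (β - β') fun i => γ i - γ' i := by
  simpa [sub_eq_add_neg] using h.add h'.neg

theorem Tf.sum {ι : Type*} (T : Finset ι) {b : ι → BD L} {g : ι → ∀ i, BD (K i)}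
    (h : ∀ j ∈ T, D.Tf (b j) (g j)) : D.Tf (∑ j ∈ T, b j) fun i => ∑ j ∈ T, g j i := by
  classical
  induction T using Finset.induction_on with
  | empty => simpa using tf_zero
  | insert a T ha ih =>
    simp only [Finset.sum_insert ha]
    exact (h a (Finset.mem_insert_self _ _)).add (ih fun j hj => h j (Finset.mem_insert_of_mem hj))

theorem tf_tr (h : β ∈ Car L) : D.Tf β fun i => D.tr i β := by
  have e := mem_Car.1 h
  simp only [tr, dif_pos e]
  conv => enter [2]; rw [e.choose_spec]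
  exact Tf.sum _ fun s _ => (tf_mx s).smul _

theorem Sy.smp (h : D.Sy β γ) : Smp β ∧ ∀ᶠ i in U, Smp (γ i) :=
  let ⟨_, _, x, y⟩ := h
  ⟨x ▸ smp_mx _, y.mono fun _ z => z ▸ smp_mx _⟩

theorem Tf.car (h : D.Tf β γ) : β ∈ Car L ∧ ∀ᶠ i in U, γ i ∈ Car (K i) := by
  induction h with
  | sy h => exact ⟨h.smp.1.car, h.smp.2.mono fun _ k => k.car⟩
  | add _ _ a b => exact ⟨add_mem a.1 b.1, (a.2.and b.2).mono fun _ k => add_mem k.1 k.2⟩
  | smul t _ a => exact ⟨Submodule.smul_mem _ t a.1, a.2.mono fun _ => Submodule.smul_mem _ t⟩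
  | congr _ e a => exact ⟨a.1, (a.2.and e).mono fun _ k => k.2 ▸ k.1⟩

theorem Tf.exists_dsc (h : D.Tf β γ) :
    ∃ Λ Λ', D.Sy Λ Λ' ∧ Dsc Λ β ∧ ∀ᶠ i in U, Dsc (Λ' i) (γ i) := by
  induction h with
  | sy h => exact ⟨_, _, h, .refl h.smp.1, h.smp.2.mono fun _ => .refl⟩
  | add _ _ a b =>
    obtain ⟨_, _, a1, a2, a3⟩ := a
    obtain ⟨_, _, b1, b2, b3⟩ := b
    exact ⟨_, _, a1.add b1, (a2.add_left b2.smp).add (b2.add_left' a2.smp),
      (a3.and b3).mono fun _ k => (k.1.add_left k.2.smp).add (k.2.add_left' k.1.smp)⟩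
  | smul t _ a =>
    obtain ⟨_, _, a1, a2, a3⟩ := a
    exact ⟨_, _, a1, a2.smul t, a3.mono fun _ k => k.smul t⟩
  | congr _ e a =>
    obtain ⟨_, _, a1, a2, a3⟩ := a
    exact ⟨_, _, a1, a2, (a3.and e).mono fun _ k => k.2 ▸ k.1⟩

/-- **the intersection numbers are preserved** -/
theorem Tf.num (H : In.Hy) (R : RES) {b : Fin n → BD L} {g : Fin n → ∀ i, BD (K i)}
    (h : ∀ j, D.Tf (b j) (g j)) : ∀ᶠ i in U, I n (K i) (fun j => g j i) = I n L b := by
  have u : ∀ (g : Fin n → ∀ i, BD (K i)) j γ i,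
      (fun l => update g j γ l i) = update (fun l => g l i) j (γ i) := fun g j γ i =>
    comp_update (fun x : ∀ i, BD (K i) => x i) g j γ
  have v : ∀ {p : BD L → (∀ i, BD (K i)) → Prop} {b : Fin n → BD L} {g : Fin n → ∀ i, BD (K i)}
      {j l β γ}, p β γ → (l ≠ j → p (b l) (g l)) → p (update b j β l) (update g j γ l) :=
    fun {p b g j l β γ} x y => by
      rcases eq_or_ne l j with rfl | e
      · rwa [update_self, update_self]
      · rw [update_of_ne e, update_of_ne e]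
        exact y e
  have key : ∀ J : Finset (Fin n), ∀ (b : Fin n → BD L) (g : Fin n → ∀ i, BD (K i)),
      (∀ j, D.Tf (b j) (g j)) → (∀ j ∉ J, D.Sy (b j) (g j)) →
      ∀ᶠ i in U, I n (K i) (fun j => g j i) = I n L b := fun J => by
    induction J using Finset.induction_on with
    | empty => exact fun b g _ k => Sy.num H R fun j => k j (Finset.notMem_empty j)
    | insert j J hj ih =>
      intro b g k1 k2
      have m := (H.row n L D.ff).ml
      have c1 := fun l => (k1 l).car.1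
      have c2 := eventually_all.2 fun l => (k1 l).car.2
      have : ∀ β γ, D.Tf β γ → ∀ᶠ i in U,
          I n (K i) (update (fun l => g l i) j (γ i)) = I n L (update b j β) := fun β γ hx => by
        induction hx with
        | sy hx =>
          simp only [← u]
          exact ih _ _ (fun l => v (.sy hx) fun _ => k1 l) fun l hl =>
            v hx fun e => k2 l (by simp [e, hl])
        | add x y a1 a2 =>
          filter_upwards [a1, a2, c2, x.car.2, y.car.2] with i e1 e2 e3 e4 e5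
          rw [m.add b j _ _ c1 x.car.1 y.car.1, (H.row n _ (D.ffi i)).ml.add _ j _ _ e3 e4 e5,
            e1, e2]
        | smul t x a1 =>
          filter_upwards [a1, c2, x.car.2] with i e1 e3 e4
          rw [m.smul b j _ _ c1 x.car.1, (H.row n _ (D.ffi i)).ml.smul _ j _ _ e3 e4, e1]
        | congr _ e a1 => exact (a1.and e).mono fun i k => k.2 ▸ k.1
      simpa using this _ _ (k1 j)
  exact key Finset.univ b g h fun j hj => absurd (Finset.mem_univ j) hj

theorem Tf.vol (H : In.Hy) (R : RES) (h : D.Tf β γ) : ∀ᶠ i in U, vol n (γ i) = vol n β :=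
  Tf.num H R fun _ => h

theorem exists_big (Y : Ny) (D : Lm c n K L) :
    ∃ A A', D.Sy A A' ∧ Big A ∧ ∀ᶠ i in U, Big (A' i) := by
  obtain ⟨s, a, b⟩ := Y.hy.big n L D.ff
  exact ⟨_, _, D.sy_mx s, a, (D.vol_sys Y.hy Y.res s).mono fun i k =>
    Y.bigv n _ (D.ffi i) _ (nef_mx _) (k ▸ b)⟩

end any

section pos

variable {D : Lm c (n + 1) K L} {β β' Λ : BD L} {γ γ' Λ' : ∀ i, BD (K i)}

theorem mz_im (D : Lm c (n + 1) K L) (P : Pl L) {s : Finset L} (h : Nz s) :
    ∀ᶠ i in U, (D.sp P i).mz (D.im i s) = P.mz s := by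
  obtain ⟨f, hf, f0, e⟩ := P.exists_mz h
  filter_upwards [D.ne f0, D.zero, (eventually_all_finset s).2 fun g _ => D.ord_sp P g]
    with i h1 h2 h3
  rw [e, (D.sp P i).mz_eq (D.im_mem i hf) h1 fun g hg g0 => ?_, h3 f hf]
  obtain ⟨g, k, rfl⟩ := D.mem_im.1 hg
  have := P.le_mz k fun z => g0 (z ▸ h2)
  rw [h3 f hf, h3 g k]
  omega

/-- **the values are preserved** -/
theorem Tf.val (h : D.Tf β γ) (P : Pl L) : ∀ᶠ i in U, γ i (D.sp P i) = β P := by
  induction h with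
  | sy h =>
    obtain ⟨s, a, rfl, b⟩ := h
    filter_upwards [b, D.mz_im P a] with i h1 h2
    rw [h1, mx_apply, h2, mx_apply]
  | add _ _ a b => exact (a.and b).mono fun i k => by simp only [Pi.add_apply, k.1, k.2]
  | smul t _ a => exact a.mono fun i k => by simp only [Pi.smul_apply, k]
  | congr _ e a => exact (a.and e).mono fun _ k => k.2 ▸ k.1

/-- the comparison of the uniformizers -/
def wt (D : Lm c (n + 1) K L) (P : Pl L) (i : ℕ) : (D.sp P i).κ :=
  (D.sp P i).rd (D.r i P.t / (D.sp P i).t)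

theorem mx_rs (D : Lm c (n + 1) K L) (P : Pl L) {s : Finset L} (h : Nz s) :
    ∀ᶠ i in U, mx ((D.sp P i).rs (D.im i s)) =
      mx ((D.rs P).im i (P.rs s)) + (P.mz s : ℝ) • dv (D.wt P i) := by
  classical
  filter_upwards [D.mz_im P h, D.nz h, D.ne P.t_ne, D.ord_sp P P.t, D.zpow P.t (P.mz s),
    (eventually_all_finset s).2 fun f _ => (D.mul f (P.t ^ P.mz s)).and
      (D.rs_rd P (f * P.t ^ P.mz s))] with i h1 h2 h3 h4 h5 h6
  have h0 := div_ne_zero h3 (D.sp P i).t_ne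
  have ho : (D.sp P i).ord (D.r i P.t / (D.sp P i).t) = 0 := by
    rw [Pl.ord_div _ h3 (D.sp P i).t_ne, h4, P.ord_t, Pl.ord_t, sub_self]
  have e : (D.rs P).im i (P.rs s) =
      ((D.sp P i).rs (D.im i s)).image (· * D.wt P i ^ P.mz s) := by
    ext z
    simp only [mem_im, Pl.rs, Finset.mem_image, exists_exists_and_eq_and]
    refine exists_congr fun f => and_congr_right fun hf => Eq.congr_left ?_
    rw [(h6 f hf).2, (h6 f hf).1, h5, wt, ← Pb.rd_zpow _ h0 ho, ← Gx.rd_mul _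
      ((D.sp P i).mem_ring_mz (Submodule.subset_span (D.im_mem i hf)))
      (Gx.rd_ne _ (zpow_ne_zero _ h0) (by rw [Pl.ord_zpow, ho, mul_zero])).1, h1, div_zpow,
      mul_assoc, mul_div_cancel₀ _ (zpow_ne_zero _ (D.sp P i).t_ne)]
  have w : D.wt P i ≠ 0 := (Gx.rd_ne _ h0 ho).2
  rw [e, mx_image_mul (nz_rs _ h2) (zpow_ne_zero _ w), dv_zpow, sub_add_cancel]

/-- **restriction** -/
theorem Tf.res (H : In.Hy) (h : D.Tf β γ) (P : Pl L) : ∃ δ, (D.rs P).Tf (res P β) δ ∧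
    ∀ᶠ i in U, res (D.sp P i) (γ i) = δ i + β P • dv (D.wt P i) := by
  induction h with
  | sy h =>
    obtain ⟨s, a, rfl, b⟩ := h
    refine ⟨_, H.sys n L D.ff P s ▸ tf_mx _, ?_⟩
    filter_upwards [b, D.mx_rs P a] with i h1 h2
    rw [h1, H.sys n _ (D.ffi i), h2, mx_apply]
  | add x y a b =>
    obtain ⟨_, a1, a2⟩ := a
    obtain ⟨_, b1, b2⟩ := b
    refine ⟨_, H.add n L D.ff P _ x.car.1 _ y.car.1 ▸ a1.add b1, ?_⟩
    filter_upwards [a2, b2, x.car.2, y.car.2] with i h1 h2 h3 h4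
    rw [H.add n _ (D.ffi i) _ _ h3 _ h4, h1, h2, Pi.add_apply, add_smul, add_add_add_comm]
  | smul t x a =>
    obtain ⟨_, a1, a2⟩ := a
    refine ⟨_, H.smul n L D.ff P t _ x.car.1 ▸ a1.smul t, ?_⟩
    filter_upwards [a2, x.car.2] with i h1 h3
    rw [H.smul n _ (D.ffi i) _ _ _ h3, h1, Pi.smul_apply, smul_add, smul_smul, smul_eq_mul]
  | congr _ e a =>
    obtain ⟨_, a1, a2⟩ := a
    exact ⟨_, a1, (a2.and e).mono fun _ k => k.2 ▸ k.1⟩

/-- **the degrees of prime divisors are preserved** -/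
theorem Tf.deg (H : In.Hy) (R : RES) {b : Fin n → BD L} {g : Fin n → ∀ i, BD (K i)}
    (h : ∀ j, D.Tf (b j) (g j)) (P : Pl L) :
    ∀ᶠ i in U, In.cf (D.sp P i) (fun j => g j i) = In.cf P b := by
  choose δ a e using fun j => (h j).res H P
  filter_upwards [Tf.num H R a, eventually_all.2 e, eventually_all.2 fun j => (a j).car.2]
    with i h1 h2 h3
  rw [In.cf, In.cf, ← h1]
  refine Pb.I_congr H ((D.rs P).ffi i) h3 fun j => ?_
  rw [h2, add_sub_cancel_left]
  exact Submodule.smul_mem _ _ (dv_mem_Prn _)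

theorem Tf.on (H : In.Hy) (R : RES) (h : D.Tf Λ Λ') (P : Pl L) :
    ∀ᶠ i in U, (On n (Λ' i) (D.sp P i) ↔ On n Λ P) :=
  (Tf.deg H R (b := fun _ => Λ) (g := fun _ => Λ') (fun _ => h) P).mono fun _ k =>
    Eq.to_iff (congrArg (0 < ·) k)

theorem sp_inj (D : Lm c (n + 1) K L) (T : Finset (Pl L)) :
    ∀ᶠ i in U, InjOn (fun P => D.sp P i) T := by
  refine ((eventually_all_finset T).2 fun P _ => (eventually_all_finset T).2 fun Q _ =>
    show ∀ᶠ i in U, D.sp P i = D.sp Q i → P = Q from ?_).mono fun i h f hf g hg => h f hf g hg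
  by_cases e : P = Q
  · exact .of_forall fun _ _ => e
  · exact (D.sp_ne e).mono fun _ h h' => (h h').elim

/-- the support of `γ` on the models `Λ'` comes from the model `Λ` of the limit -/
def Su (D : Lm c (n + 1) K L) (Λ : BD L) (Λ' γ : ∀ i, BD (K i)) : Prop :=
  ∃ T : Set (Pl L), T.Finite ∧ (∀ P ∈ T, On n Λ P) ∧
    ∀ᶠ i in U, ∀ Q, On n (Λ' i) Q → γ i Q ≠ 0 → ∃ P ∈ T, Q = D.sp P i

theorem Su.congr (h : D.Su Λ Λ' γ) (e : ∀ᶠ i in U, γ i = γ' i) : D.Su Λ Λ' γ' :=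
  let ⟨T, a, b, k⟩ := h
  ⟨T, a, b, (k.and e).mono fun _ z => z.2 ▸ z.1⟩

theorem Su.add (h : D.Su Λ Λ' γ) (h' : D.Su Λ Λ' γ') : D.Su Λ Λ' fun i => γ i + γ' i := by
  obtain ⟨T, a, b, k⟩ := h
  obtain ⟨T', a', b', k'⟩ := h'
  refine ⟨T ∪ T', a.union a', fun P hP => hP.elim (b P) (b' P), ?_⟩
  filter_upwards [k, k'] with i h1 h2 Q q z
  by_cases e : γ i Q = 0
  · obtain ⟨P, x, y⟩ := h2 Q q fun e' => z (by simp [e, e'])
    exact ⟨P, Or.inr x, y⟩
  · obtain ⟨P, x, y⟩ := h1 Q q e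
    exact ⟨P, Or.inl x, y⟩

theorem Su.smul (h : D.Su Λ Λ' γ) (t : ℝ) : D.Su Λ Λ' fun i => t • γ i :=
  let ⟨T, a, b, k⟩ := h
  ⟨T, a, b, k.mono fun _ z Q q e => z Q q (right_ne_zero_of_mul e)⟩

theorem Su.sub (h : D.Su Λ Λ' γ) (h' : D.Su Λ Λ' γ') : D.Su Λ Λ' fun i => γ i - γ' i := by
  simpa [sub_eq_add_neg] using h.add (h'.smul (-1))

variable (H : In.Hy) (R : RES)
include H R

/-- the count -/
theorem Tf.su_of_nn (h : D.Tf β γ) (hΛ : D.Tf Λ Λ') (a : Nef Λ) (b : ∀ᶠ i in U, Nef (Λ' i))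
    (h0 : ∀ᶠ i in U, 0 ≤ γ i) : D.Su Λ Λ' γ := by
  have f := H.fin D.ff (H.isb n L D.ff β h.car.1) fun _ : Fin n => a.car
  refine ⟨_, f, fun P hP => (H.cf_nef D.ff P fun _ => a).lt_of_ne' (right_ne_zero_of_mul hP), ?_⟩
  filter_upwards [b, h0, h.car.2, D.sp_inj f.toFinset, (eventually_all_finset f.toFinset).2
    fun P _ => (h.val P).and (Tf.deg H R (b := fun _ => Λ) (g := fun _ => Λ') (fun _ => hΛ) P),
    Tf.num H R (b := Fin.cons β fun _ => Λ) (g := Fin.cons γ fun _ => Λ')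
      (Fin.cases h fun _ => hΛ)] with i h1 h2 h3 h4 h5 h6 Q q z
  have := exhaust (F := fun Q => γ i Q * In.cf Q fun _ : Fin n => Λ' i)
    (fun Q => mul_nonneg (h2 Q) (H.cf_nef (D.ffi i) Q fun _ => h1))
    (H.fin (D.ffi i) (H.isb n _ (D.ffi i) _ h3) fun _ => h1.car) h4 (a := Q) (by
      refine (h6.trans (finsum_eq_sum _ f)).trans (Finset.sum_congr rfl fun P hP => ?_)
      rw [(h5 P hP).1, (h5 P hP).2]) (mul_ne_zero z q.ne')
  simpa using this

/-- **SUPP** -/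
theorem Tf.su (h : D.Tf β γ) (hΛ : D.Tf Λ Λ') (a : Nef Λ) (b : ∀ᶠ i in U, Nef (Λ' i)) :
    D.Su Λ Λ' γ := by
  induction h with
  | @sy β γ h =>
    obtain ⟨s, ⟨f, hf, f0⟩, e, k⟩ := id h
    have p : ∀ g : L, D.Su Λ Λ' fun i => 0 ⊔ dv (D.r i g) := fun g =>
      (Tf.sy (D.sy_zero.sup (D.sy_dv g))).su_of_nn H R hΛ a b (.of_forall fun _ => le_sup_left)
    refine (((((tf_dv f).add (.sy h)).su_of_nn H R hΛ a b ?_).sub (p f)).add (p f⁻¹)).congr ?_
    · filter_upwards [k, D.ne f0] with i h1 h2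
      exact h1 ▸ dv_add_mx_nonneg (D.im_mem i hf) h2
    · filter_upwards [D.inv f] with i h1
      rw [h1, dv_inv]
      funext Q
      simp only [Pi.add_apply, Pi.sub_apply, Pi.sup_apply, Pi.zero_apply, Pi.neg_apply]
      rcases le_total 0 (dv (D.r i f) Q) with z | z
      · rw [sup_eq_right.2 z, sup_eq_left.2 (neg_nonpos.2 z)]
        ring
      · rw [sup_eq_left.2 z, sup_eq_right.2 (neg_nonneg.2 z)]
        ring
  | add _ _ x y => exact x.add y
  | smul t _ x => exact x.smul t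
  | congr _ e x => exact x.congr e

/-- **SUPP**, the final form -/
theorem Tf.supp (h : D.Tf β γ) (hΛ : D.Tf Λ Λ') (a : Nef Λ) (b : ∀ᶠ i in U, Nef (Λ' i)) :
    ∀ᶠ i in U, ∀ Q, On n (Λ' i) Q → γ i Q ≠ 0 → ∃ P, On n Λ P ∧ β P ≠ 0 ∧ Q = D.sp P i := by
  obtain ⟨T, x, y, z⟩ := h.su H R hΛ a b
  filter_upwards [z, (eventually_all_finite x).2 fun P _ => h.val P] with i h1 h2 Q q e
  obtain ⟨P, u, rfl⟩ := h1 Q q e
  exact ⟨P, y P u, h2 P u ▸ e, rfl⟩

end pos

end Lm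

end Vale.Agent.P283B.U
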